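import Mathlib

/-!
Circle averages on circles centred at the origin: a small toolkit.
-/

set_option autoImplicit false

open Metric Complex Real
open scoped ComplexConjugate

namespace Crest.Agent.R132

/-- Average over the circle of radius `ρ` centred at `0`. -/
noncomputable def av {E : Type*} [NormedAddCommGroup E] [NormedSpace ℝ E] (ρ : ℝ) (f : ℂ → E) :
    E := circleAverage f 0 ρ

section general

variable {E : Type*} [NormedAddCommGroup E] [NormedSpace ℝ E] {ρ : ℝ}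

lemma av_congr (hρ : 0 < ρ) {f g : ℂ → E} (h : ∀ x ∈ sphere (0 : ℂ) ρ, f x = g x) :
    av ρ f = av ρ g :=
  circleAverage_congr_sphere fun x hx => h x (by rwa [abs_of_pos hρ] at hx)

lemma av_add (hρ : 0 < ρ) {f g : ℂ → E} (hf : ContinuousOn f (sphere 0 ρ))
    (hg : ContinuousOn g (sphere 0 ρ)) : av ρ (fun x => f x + g x) = av ρ f + av ρ g :=
  circleAverage_fun_add (hf.circleIntegrable hρ.le) (hg.circleIntegrable hρ.le)

lemma av_sub (hρ : 0 < ρ) {f g : ℂ → E} (hf : ContinuousOn f (sphere 0 ρ))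
    (hg : ContinuousOn g (sphere 0 ρ)) : av ρ (fun x => f x - g x) = av ρ f - av ρ g :=
  circleAverage_fun_sub (hf.circleIntegrable hρ.le) (hg.circleIntegrable hρ.le)

lemma av_sum (hρ : 0 < ρ) {ι : Type*} (s : Finset ι) {f : ι → ℂ → E}
    (hf : ∀ i ∈ s, ContinuousOn (f i) (sphere 0 ρ)) :
    av ρ (fun x => ∑ i ∈ s, f i x) = ∑ i ∈ s, av ρ (f i) :=
  circleAverage_fun_sum fun i hi => (hf i hi).circleIntegrable hρ.le

lemma av_const [CompleteSpace E] (a : E) : av ρ (fun _ => a) = a := circleAverage_const a 0 ρ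

end general

variable {ρ : ℝ}

lemma av_cmul (a : ℂ) (f : ℂ → ℂ) : av ρ (fun x => a * f x) = a * av ρ f :=
  circleAverage_fun_smul (a := a) (f := f)

lemma av_rmul (a : ℝ) (f : ℂ → ℝ) : av ρ (fun x => a * f x) = a * av ρ f :=
  circleAverage_fun_smul (a := a) (f := f)

lemma av_conj (hρ : 0 < ρ) {f : ℂ → ℂ} (hf : ContinuousOn f (sphere 0 ρ)) :
    av ρ (fun x => conj (f x)) = conj (av ρ f) :=
  (Complex.conjCLE : ℂ →L[ℝ] ℂ).circleAverage_comp_comm (hf.circleIntegrable hρ.le)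

lemma av_re (hρ : 0 < ρ) {f : ℂ → ℂ} (hf : ContinuousOn f (sphere 0 ρ)) :
    av ρ (fun x => (f x).re) = (av ρ f).re :=
  Complex.reCLM.circleAverage_comp_comm (hf.circleIntegrable hρ.le)

lemma av_ofReal (hρ : 0 < ρ) {f : ℂ → ℝ} (hf : ContinuousOn f (sphere 0 ρ)) :
    av ρ (fun x => (f x : ℂ)) = ((av ρ f : ℝ) : ℂ) :=
  Complex.ofRealCLM.circleAverage_comp_comm (hf.circleIntegrable hρ.le)

lemma av_mono (hρ : 0 < ρ) {f g : ℂ → ℝ} (hf : ContinuousOn f (sphere 0 ρ))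
    (hg : ContinuousOn g (sphere 0 ρ)) (h : ∀ x ∈ sphere (0 : ℂ) ρ, f x ≤ g x) :
    av ρ f ≤ av ρ g :=
  circleAverage_mono (hf.circleIntegrable hρ.le) (hg.circleIntegrable hρ.le)
    fun x hx => h x (by rwa [abs_of_pos hρ] at hx)

lemma av_nonneg (hρ : 0 < ρ) {f : ℂ → ℝ} (h : ∀ x ∈ sphere (0 : ℂ) ρ, 0 ≤ f x) :
    0 ≤ av ρ f :=
  circleAverage_nonneg_of_nonneg fun x hx => h x (by rwa [abs_of_pos hρ] at hx)

lemma av_nonneg_of_ne (hρ : 0 < ρ) {f : ℂ → ℝ} (y : ℂ)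
    (h : ∀ x ∈ sphere (0 : ℂ) ρ, x ≠ y → 0 ≤ f x) : 0 ≤ av ρ f := by
  classical
  have : av ρ f = av ρ (fun x => if x = y then 0 else f x) := by
    refine circleAverage_congr_codiscreteWithin ?_ hρ.ne'
    have : ({y}ᶜ : Set ℂ) ∈ Filter.codiscreteWithin (sphere (0 : ℂ) |ρ|) :=
      compl_finite_mem_codiscreteWithin (Set.finite_singleton y)
    filter_upwards [this] with x hx
    simp [show x ≠ y from hx]
  rw [this]
  refine av_nonneg hρ fun x hx => ?_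
  split_ifs with hxy
  · exact le_rfl
  · exact h x hx hxy

lemma av_holo (hρ : 0 < ρ) {f : ℂ → ℂ} (hf : DifferentiableOn ℂ f (closedBall 0 ρ)) :
    av ρ f = f 0 := by
  refine DiffContOnCl.circleAverage ?_
  rw [abs_of_pos hρ]
  exact (hf.mono closure_ball_subset_closedBall).diffContOnCl

lemma ne_zero_of_mem_sphere (hρ : 0 < ρ) {x : ℂ} (hx : x ∈ sphere (0 : ℂ) ρ) : x ≠ 0 := by
  rintro rfl
  simp at hx
  exact hρ.ne hx

lemma norm_of_mem_sphere {x : ℂ} (hx : x ∈ sphere (0 : ℂ) ρ) : ‖x‖ = ρ := by simpa using hx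

lemma mul_conj_of_mem_sphere {x : ℂ} (hx : x ∈ sphere (0 : ℂ) ρ) :
    x * conj x = (ρ : ℂ) ^ 2 := by
  rw [Complex.mul_conj, Complex.normSq_eq_norm_sq, norm_of_mem_sphere hx]; push_cast; rfl

lemma conj_inv_of_mem_sphere (hρ : 0 < ρ) {x : ℂ} (hx : x ∈ sphere (0 : ℂ) ρ) :
    conj x⁻¹ = ((ρ : ℂ) ^ 2)⁻¹ * x := by
  have h0 := ne_zero_of_mem_sphere hρ hx
  have h1 : conj x ≠ 0 := by simpa using h0
  rw [← mul_conj_of_mem_sphere hx, map_inv₀]
  field_simp

lemma contOn_inv (hρ : 0 < ρ) : ContinuousOn (fun x : ℂ => x⁻¹) (sphere 0 ρ) :=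
  continuousOn_id.inv₀ fun _ hx => ne_zero_of_mem_sphere hρ hx

lemma contOn_conj {f : ℂ → ℂ} {s : Set ℂ} (hf : ContinuousOn f s) :
    ContinuousOn (fun x => conj (f x)) s := Complex.continuous_conj.comp_continuousOn hf

lemma contOn_re {f : ℂ → ℂ} {s : Set ℂ} (hf : ContinuousOn f s) :
    ContinuousOn (fun x => (f x).re) s := Complex.continuous_re.comp_continuousOn hf

lemma contOn_of_holo {f : ℂ → ℂ} (hf : DifferentiableOn ℂ f (closedBall 0 ρ)) :
    ContinuousOn f (sphere 0 ρ) := hf.continuousOn.mono sphere_subset_closedBall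

/-- the average of `x * h'(x)` vanishes -/
lemma av_mul_deriv (hρ : 0 < ρ) {h h' : ℂ → ℂ}
    (hh : ∀ x ∈ sphere (0 : ℂ) ρ, HasDerivAt h (h' x) x) : av ρ (fun x => x * h' x) = 0 := by
  unfold av
  rw [circleAverage_eq_circleIntegral hρ.ne']
  have : (∮ z in C(0, ρ), (z - 0)⁻¹ • (z * h' z)) = ∮ z in C(0, ρ), h' z := by
    refine circleIntegral.integral_congr hρ.le fun z hz => ?_
    have := ne_zero_of_mem_sphere hρ hz
    simp only [sub_zero, smul_eq_mul]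
    field_simp
  rw [this, circleIntegral.integral_eq_zero_of_hasDerivWithinAt hρ.le
    fun z hz => (hh z hz).hasDerivWithinAt, smul_zero]

/-- Taylor coefficient -/
noncomputable def tc (n : ℕ) (h : ℂ → ℂ) : ℂ := (n.factorial : ℂ)⁻¹ * iteratedDeriv n h 0

lemma av_inv_pow_mul (hρ : 0 < ρ) (n : ℕ) {h : ℂ → ℂ}
    (hh : DifferentiableOn ℂ h (closedBall 0 ρ)) : av ρ (fun x => x⁻¹ ^ n * h x) = tc n h := by
  unfold av tc
  rw [circleAverage_eq_circleIntegral hρ.ne']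
  have : (∮ z in C(0, ρ), (z - 0)⁻¹ • (z⁻¹ ^ n * h z)) =
      ∮ z in C(0, ρ), (1 / (z - 0) ^ (n + 1)) • h z := by
    refine circleIntegral.integral_congr hρ.le fun z hz => ?_
    have := ne_zero_of_mem_sphere hρ hz
    simp only [sub_zero, smul_eq_mul, inv_pow]
    field_simp
    ring
  rw [this, hh.circleIntegral_one_div_sub_center_pow_smul hρ n]
  have : (2 * π * I : ℂ) ≠ 0 := Complex.two_pi_I_ne_zero
  simp only [smul_eq_mul]
  field_simp

lemma av_pow_succ_mul (hρ : 0 < ρ) (n : ℕ) {h : ℂ → ℂ}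
    (hh : DifferentiableOn ℂ h (closedBall 0 ρ)) : av ρ (fun x => x ^ (n + 1) * h x) = 0 := by
  rw [av_holo hρ (by fun_prop)]; simp

lemma av_inv_pow_succ (hρ : 0 < ρ) (n : ℕ) : av ρ (fun x : ℂ => x⁻¹ ^ (n + 1)) = 0 := by
  have := av_inv_pow_mul hρ (n + 1) (h := fun _ => 1) (differentiableOn_const _)
  simp only [mul_one] at this
  rw [this, tc, iteratedDeriv_const]
  simp

/-- `⟨|h₁ + conj h₂|²⟩` for holomorphic `h₁, h₂`. -/
lemma av_norm_add_conj (hρ : 0 < ρ) {h₁ h₂ : ℂ → ℂ}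
    (d₁ : DifferentiableOn ℂ h₁ (closedBall 0 ρ)) (d₂ : DifferentiableOn ℂ h₂ (closedBall 0 ρ)) :
    av ρ (fun x => ‖h₁ x + conj (h₂ x)‖ ^ 2) =
      av ρ (fun x => ‖h₁ x‖ ^ 2) + av ρ (fun x => ‖h₂ x‖ ^ 2) + 2 * (h₁ 0 * h₂ 0).re := by
  have c₁ := contOn_of_holo d₁
  have c₂ := contOn_of_holo d₂
  have e : ∀ x, ‖h₁ x + conj (h₂ x)‖ ^ 2 = ‖h₁ x‖ ^ 2 + ‖h₂ x‖ ^ 2 + 2 * (h₁ x * h₂ x).re := by
    intro x
    simp only [← Complex.normSq_eq_norm_sq, Complex.normSq_add, Complex.normSq_conj,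
      Complex.conj_conj]
  simp only [e]
  rw [av_add hρ, av_add hρ, av_rmul, av_re hρ, av_holo hρ]
  all_goals fun_prop

/-- Parseval for holomorphic functions. -/
lemma hasSum_parseval (hρ : 0 < ρ) {h : ℂ → ℂ} (hh : DifferentiableOn ℂ h (closedBall 0 ρ)) :
    HasSum (fun n : ℕ => ρ ^ (2 * n) * ‖tc n h‖ ^ 2) (av ρ (fun x => ‖h x‖ ^ 2)) := by
  have hc := contOn_of_holo hh
  have hab : (0 : ℝ) < 2 * π := Real.two_pi_pos
  set f : ℝ → ℂ := fun θ => h (circleMap 0 ρ θ) with hf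
  have hfc : Continuous f :=
    hc.comp_continuous (continuous_circleMap 0 ρ) fun θ => circleMap_mem_sphere 0 hρ.le θ
  have hL2 : MeasureTheory.MemLp f 2 (MeasureTheory.volume.restrict (Set.Ioc 0 (2 * π))) := by
    obtain ⟨C, hC⟩ := (isCompact_sphere (0 : ℂ) ρ).exists_bound_of_continuousOn hc
    exact MeasureTheory.MemLp.of_bound hfc.aestronglyMeasurable C
      (Filter.Eventually.of_forall fun θ => hC _ (circleMap_mem_sphere 0 hρ.le θ))
  have H := hasSum_sq_fourierCoeffOn hab hL2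
  have hρc : (ρ : ℂ) ≠ 0 := by exact_mod_cast hρ.ne'
  have key : ∀ k : ℤ, fourierCoeffOn hab f k = av ρ (fun x => ((ρ : ℂ) * x⁻¹) ^ k * h x) := by
    intro k
    rw [fourierCoeffOn_eq_integral, av, circleAverage_def, sub_zero, one_div]
    congr 1
    refine intervalIntegral.integral_congr fun θ _ => ?_
    simp only [fourier_coe_apply, smul_eq_mul, hf]
    congr 1
    rw [circleMap_zero, mul_inv, ← mul_assoc, mul_inv_cancel₀ hρc, one_mul, ← Complex.exp_neg,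
      ← Complex.exp_int_mul]
    congr 1
    have : (π : ℂ) ≠ 0 := by exact_mod_cast Real.pi_ne_zero
    push_cast
    field_simp
  have e2 : ((2 * π - 0)⁻¹ • ∫ x in (0 : ℝ)..2 * π, ‖f x‖ ^ 2) = av ρ (fun x => ‖h x‖ ^ 2) := by
    rw [av, circleAverage_def, sub_zero]
  rw [e2] at H
  rw [← (Nat.cast_injective (R := ℤ)).hasSum_iff] at H
  · convert H using 2 with n
    simp only [Function.comp_apply, key, zpow_natCast, mul_pow, mul_assoc]
    rw [av_cmul, av_inv_pow_mul hρ n hh, norm_mul, norm_pow, Complex.norm_real,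
      Real.norm_of_nonneg hρ.le]
    ring
  · intro k hk
    obtain ⟨m, rfl⟩ : ∃ m : ℕ, k = -((m + 1 : ℕ) : ℤ) := by
      rcases k with m | m
      · exact absurd ⟨m, rfl⟩ hk
      · exact ⟨m, rfl⟩
    rw [key]
    have : av ρ (fun x => ((ρ : ℂ) * x⁻¹) ^ (-((m + 1 : ℕ) : ℤ)) * h x) =
        av ρ (fun x => ((ρ : ℂ)⁻¹) ^ (m + 1) * (x ^ (m + 1) * h x)) := by
      congr 1
      funext x
      rw [zpow_neg, zpow_natCast, ← inv_pow, mul_inv, inv_inv, mul_pow, mul_assoc]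
    rw [this, av_cmul, av_pow_succ_mul hρ m hh]
    simp

end Crest.Agent.R132
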