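import Mathlib
import Crest.Agent.Lib.RMT.Main

/-!
Exterior conformal data of a compact convex set `W` with `0` in its interior.
`φ` maps the unit disc onto `{w | ∀ z ∈ W, z * w ≠ 1}`, so that `1 / φ` is the exterior map.
-/

set_option autoImplicit false

open Metric Complex Set Filter Topology
open scoped ComplexConjugate

namespace Crest.Agent.R132

/-- Exterior conformal data. -/
structure Conf (W : Set ℂ) (φ : ℂ → ℂ) : Prop where
  diff : DifferentiableOn ℂ φ (ball 0 1)
  zero : φ 0 = 0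
  inj : InjOn φ (ball 0 1)
  deriv_ne : ∀ x ∈ ball (0 : ℂ) 1, deriv φ x ≠ 0
  ne_one : ∀ x ∈ ball (0 : ℂ) 1, ∀ z ∈ W, z * φ x ≠ 1
  pos : ∀ x ∈ ball (0 : ℂ) 1, ∀ z ∈ W, 0 ≤ ((1 - z * φ x) * (dslope φ 0 x / deriv φ x)).re
  approach : ∀ δ > 0, ∃ ρ₀ < 1, ∀ y : ℂ, ρ₀ < ‖y‖ → ‖y‖ < 1 → ∃ z ∈ W, ‖z - (φ y)⁻¹‖ < δ

/-- the inverted complement -/
def dualDom (W : Set ℂ) : Set ℂ := {w | ∀ z ∈ W, z * w ≠ 1}

lemma isOpen_dualDom {W : Set ℂ} (hW : IsCompact W) : IsOpen (dualDom W) := by
  rw [isOpen_iff_mem_nhds]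
  intro w hw
  refine hW.eventually_forall_of_forall_eventually (P := fun w z => z * w ≠ 1) fun z hz => ?_
  have : ContinuousAt (fun p : ℂ × ℂ => p.2 * p.1) (w, z) := by fun_prop
  exact this.eventually_ne (hw z hz)

lemma zero_mem_dualDom (W : Set ℂ) : (0 : ℂ) ∈ dualDom W := fun z _ => by simp

lemma isBounded_dualDom {W : Set ℂ} (h0 : W ∈ 𝓝 (0 : ℂ)) : Bornology.IsBounded (dualDom W) := by
  obtain ⟨ε, hε, hb⟩ := Metric.mem_nhds_iff.1 h0
  refine (isBounded_closedBall (x := (0 : ℂ)) (r := ε⁻¹)).subset fun w hw => ?_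
  rw [mem_closedBall_zero_iff]
  by_contra hn
  push Not at hn
  have hw0 : 0 < ‖w‖ := (inv_pos.2 hε).trans hn
  refine hw w⁻¹ (hb ?_) (inv_mul_cancel₀ (norm_pos_iff.1 hw0))
  rw [mem_ball_zero_iff, norm_inv]
  exact inv_lt_of_inv_lt₀ hε hn

lemma isSimplyConnected_dualDom {W : Set ℂ} (hc : Convex ℝ W) (h0 : (0 : ℂ) ∈ W) :
    IsSimplyConnected (dualDom W) := by
  have hs : StarConvex ℝ (0 : ℂ) (dualDom W) := by
    intro w hw a b ha hb hab z hz h
    refine hw (b • z) (by simpa using hc h0 hz ha hb hab) ?_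
    rw [← h]; simp only [smul_zero, zero_add, real_smul]; ring
  have := hs.contractibleSpace ⟨0, zero_mem_dualDom W⟩
  exact SimplyConnectedSpace.ofContractible _

lemma dualDom_aux {W : Set ℂ} (hc : Convex ℝ W) {z z' w : ℂ} (hz : z ∈ W) (hz' : z' ∈ W)
    (hw : w ∈ dualDom W) {l : ℝ} (hl : 1 ≤ l) : z' * w ≠ l + (1 - l) * z * w := by
  intro h
  have hl0 : 0 < l := by linarith
  have hm := hc hz' hz (a := l⁻¹) (b := 1 - l⁻¹) (by positivity)
    (by rw [sub_nonneg]; exact inv_le_one_of_one_le₀ hl) (by ring)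
  refine hw _ hm ?_
  have : (l : ℂ) ≠ 0 := by exact_mod_cast hl0.ne'
  simp only [real_smul]
  push_cast
  field_simp
  linear_combination h

theorem exists_conf {W : Set ℂ} (hW : IsCompact W) (hc : Convex ℝ W) (h0 : W ∈ 𝓝 (0 : ℂ)) :
    ∃ φ, Conf W φ := by
  have h0W : (0 : ℂ) ∈ W := mem_of_mem_nhds h0
  set U := dualDom W with hU
  have hUo : IsOpen U := isOpen_dualDom hW
  obtain ⟨f, hf, hbij, hf0⟩ := Crest.Agent.RMT.riemann_mapping hUo
    (isSimplyConnected_dualDom hc h0W) (isBounded_dualDom h0) (zero_mem_dualDom W)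
  have hi := hbij.injOn
  have him : f '' U = ball 0 1 := hbij.image_eq
  set φ := Function.invFunOn f U with hφ
  have hφd : DifferentiableOn ℂ φ (ball 0 1) :=
    him ▸ Crest.Agent.RMT.differentiableOn_invFunOn hUo hf hi
  have hφU : ∀ x ∈ ball (0 : ℂ) 1, φ x ∈ U := fun x hx =>
    Function.invFunOn_mem (by rw [← him] at hx; exact hx)
  have hfφ : ∀ x ∈ ball (0 : ℂ) 1, f (φ x) = x := fun x hx =>
    Function.invFunOn_eq (by rw [← him] at hx; exact hx)
  have hφf : ∀ w ∈ U, φ (f w) = w := fun w hw => hi.leftInvOn_invFunOn hw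
  have hφ0 : φ 0 = 0 := by
    have := hφf 0 (zero_mem_dualDom W)
    rwa [hf0] at this
  have hφi : InjOn φ (ball 0 1) := fun x hx y hy h => by rw [← hfφ x hx, h, hfφ y hy]
  have hder : ∀ x ∈ ball (0 : ℂ) 1, deriv φ x = (deriv f (φ x))⁻¹ := by
    intro x hx
    have := (Crest.Agent.RMT.hasDerivAt_invFunOn hUo hf hi (hφU x hx)).deriv
    rwa [hfφ x hx] at this
  have hdne : ∀ x ∈ ball (0 : ℂ) 1, deriv φ x ≠ 0 :=
    fun x hx => Crest.Agent.RMT.deriv_ne_zero isOpen_ball hφd hφi hx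
  refine ⟨φ, hφd, hφ0, hφi, hdne, fun x hx z hz => hφU x hx z hz, ?_, ?_⟩
  · intro x hx z hz
    by_cases hx0 : x = 0
    · subst hx0
      rw [hφ0, dslope_same, div_self (hdne 0 hx)]
      simp
    -- Schwarz lemma
    have hS : ∀ l : ℝ, 1 ≤ l → ‖f (φ x / (l + (1 - l) * z * φ x))‖ ≤ ‖x‖ := by
      intro l hl
      have hden : ∀ y ∈ ball (0 : ℂ) 1, (l + (1 - l) * z * φ y : ℂ) ≠ 0 := fun y hy h =>
        dualDom_aux hc hz h0W (hφU y hy) hl (by rw [h, zero_mul])
      have hmaps : ∀ y ∈ ball (0 : ℂ) 1, φ y / (l + (1 - l) * z * φ y) ∈ U := by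
        intro y hy z' hz' h
        refine dualDom_aux hc hz hz' (hφU y hy) hl ?_
        rw [← mul_div_assoc, div_eq_one_iff_eq (hden y hy)] at h
        exact h
      refine Complex.norm_le_norm_of_mapsTo_ball
        (f := fun y => f (φ y / (l + (1 - l) * z * φ y))) (R := 1) ?_ ?_ ?_
        (mem_ball_zero_iff.1 hx)
      · refine hf.comp (hφd.div (by fun_prop) hden) hmaps
      · intro y hy
        exact ball_subset_closedBall (hbij.mapsTo (hmaps y hy))
      · simp [hφ0, hf0]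
    have hm : HasDerivAt (fun l : ℂ => φ x / (l + (1 - l) * z * φ x))
        (-(φ x * (1 - z * φ x))) ((1 : ℝ) : ℂ) := by
      have h1 : HasDerivAt (fun l : ℂ => l + (1 - l) * z * φ x) (1 + (0 - 1) * z * φ x)
          ((1 : ℝ) : ℂ) :=
        (hasDerivAt_id _).add ((((hasDerivAt_const _ _).sub (hasDerivAt_id _)).mul_const
          z).mul_const (φ x))
      have h2 := (hasDerivAt_const ((1 : ℝ) : ℂ) (φ x)).div h1 (by simp)
      refine h2.congr_deriv ?_
      simp only [ofReal_one, sub_self, zero_mul, add_zero, one_pow, div_one]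
      ring
    have hfd : HasDerivAt f (deriv f (φ x)) (φ x / (((1 : ℝ) : ℂ) + (1 - ((1 : ℝ) : ℂ)) * z * φ x)) := by
      simpa using (hf.differentiableAt (hUo.mem_nhds (hφU x hx))).hasDerivAt
    have hg := ((HasDerivAt.comp (h := fun l : ℂ => φ x / (l + (1 - l) * z * φ x))
      ((1 : ℝ) : ℂ) hfd hm).const_mul (conj x)).real_of_complex
    have hle : (conj x * (deriv f (φ x) * -(φ x * (1 - z * φ x)))).re ≤ 0 := by
      have ht := hg.tendsto_slope.mono_left (nhdsGT_le_nhdsNE (1 : ℝ))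
      refine le_of_tendsto ht ?_
      filter_upwards [self_mem_nhdsWithin] with l hl
      have hl' : 1 < l := hl
      rw [slope_def_field]
      refine div_nonpos_of_nonpos_of_nonneg ?_ (by linarith)
      have e1 : (conj x * (f ∘ fun l : ℂ => φ x / (l + (1 - l) * z * φ x)) ((1 : ℝ) : ℂ)).re
          = ‖x‖ * ‖x‖ := by
        simp only [Function.comp_apply, ofReal_one, sub_self, zero_mul, add_zero, div_one,
          hfφ x hx]
        rw [mul_comm, Complex.mul_conj, Complex.normSq_eq_norm_sq, ofReal_re, sq]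
      rw [e1, sub_nonpos]
      refine (Complex.re_le_norm _).trans ?_
      rw [norm_mul, Complex.norm_conj]
      exact mul_le_mul_of_nonneg_left (hS l hl'.le) (norm_nonneg _)
    have hκ : φ x = x * dslope φ 0 x := by
      have := sub_smul_dslope φ 0 x
      rw [hφ0, sub_zero, sub_zero, smul_eq_mul] at this
      exact this.symm
    have e2 : conj x * (deriv f (φ x) * -(φ x * (1 - z * φ x))) =
        -(((‖x‖ ^ 2 : ℝ) : ℂ) * ((1 - z * φ x) * (dslope φ 0 x / deriv φ x))) := by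
      rw [hder x hx, div_inv_eq_mul, ← Complex.normSq_eq_norm_sq, ← Complex.mul_conj]
      linear_combination (-(conj x) * deriv f (φ x) * (1 - z * φ x)) * hκ
    rw [e2, neg_re, re_ofReal_mul, neg_nonpos] at hle
    exact nonneg_of_mul_nonneg_right hle (by positivity) |> fun h => h
  · intro δ hδ
    set C : Set ℂ := {w | ∀ z ∈ W, δ * ‖w‖ ≤ ‖z * w - 1‖} with hC
    have hCU : C ⊆ U := by
      intro w hw z hz h
      have := hw z hz
      rw [h, sub_self, norm_zero] at this
      have hw0 : w = 0 := by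
        have : ‖w‖ ≤ 0 := by
          by_contra hn
          push Not at hn
          nlinarith [mul_pos hδ hn]
        exact norm_le_zero_iff.1 this
      rw [hw0] at h
      simp at h
    have hCc : IsClosed C := by
      have : C = ⋂ z ∈ W, {w | δ * ‖w‖ ≤ ‖z * w - 1‖} := by
        ext w; simp [hC]
      rw [this]
      exact isClosed_biInter fun z _ => isClosed_le (by fun_prop) (by fun_prop)
    have hCk : IsCompact C :=
      Metric.isCompact_of_isClosed_isBounded hCc ((isBounded_dualDom h0).subset hCU)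
    have hCi : IsCompact (f '' C) := hCk.image_of_continuousOn (hf.continuousOn.mono hCU)
    obtain ⟨r, hr1, hr⟩ := exists_lt_subset_ball hCi.isClosed
      (show f '' C ⊆ ball 0 1 from him ▸ image_mono hCU)
    refine ⟨r, hr1, fun y hy hy1 => ?_⟩
    have hyb : y ∈ ball (0 : ℂ) 1 := mem_ball_zero_iff.2 hy1
    have hn : φ y ∉ C := fun h => by
      have := hr ⟨_, h, hfφ y hyb⟩
      rw [mem_ball_zero_iff] at this
      linarith
    simp only [hC, mem_ofPred_eq, not_forall, not_le] at hn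
    obtain ⟨z, hz, hlt⟩ := hn
    refine ⟨z, hz, ?_⟩
    have hne : φ y ≠ 0 := by
      rintro h
      rw [h] at hlt
      norm_num at hlt
    have : z - (φ y)⁻¹ = (z * φ y - 1) / φ y := by field_simp
    rw [this, norm_div, div_lt_iff₀ (norm_pos_iff.2 hne)]
    exact hlt

end Crest.Agent.R132
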