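import Mathlib
import Crest.Agent.R132.Avg
import Crest.Agent.R132.Conf

/-!
Faber polynomials, the Cauchy formula as a module property, Study's theorem and the kernel.
-/

set_option autoImplicit false

open Metric Complex Set Filter Topology Polynomial
open scoped ComplexConjugate

namespace Crest.Agent.R132

/-- `x φ'(x) / φ(x)` -/
noncomputable def cc (φ : ℂ → ℂ) (x : ℂ) : ℂ := deriv φ x / dslope φ 0 x

namespace Conf

variable {W : Set ℂ} {φ : ℂ → ℂ}

lemma kap_diff (H : Conf W φ) : DifferentiableOn ℂ (dslope φ 0) (ball 0 1) :=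
  (Complex.differentiableOn_dslope (ball_mem_nhds _ one_pos)).2 H.diff

lemma phi_eq (H : Conf W φ) (x : ℂ) : φ x = x * dslope φ 0 x := by
  have := sub_smul_dslope φ 0 x
  rw [H.zero, sub_zero, sub_zero, smul_eq_mul] at this
  exact this.symm

lemma phi_ne (H : Conf W φ) {x : ℂ} (hx : x ∈ ball (0 : ℂ) 1) (h0 : x ≠ 0) : φ x ≠ 0 :=
  fun h => h0 (H.inj hx (mem_ball_self one_pos) (h.trans H.zero.symm))

lemma kap_ne (H : Conf W φ) {x : ℂ} (hx : x ∈ ball (0 : ℂ) 1) : dslope φ 0 x ≠ 0 := by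
  by_cases h0 : x = 0
  · subst h0
    rw [dslope_same]
    exact H.deriv_ne 0 hx
  · intro h
    exact H.phi_ne hx h0 (by rw [H.phi_eq x, h, mul_zero])

lemma deriv_diff (H : Conf W φ) : DifferentiableOn ℂ (deriv φ) (ball 0 1) :=
  H.diff.deriv isOpen_ball

lemma cc_diff (H : Conf W φ) : DifferentiableOn ℂ (cc φ) (ball 0 1) :=
  H.deriv_diff.div H.kap_diff fun _ hx => H.kap_ne hx

lemma q_diff (H : Conf W φ) :
    DifferentiableOn ℂ (fun x => dslope φ 0 x / deriv φ x) (ball 0 1) :=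
  H.kap_diff.div H.deriv_diff H.deriv_ne

lemma cc_zero (H : Conf W φ) : cc φ 0 = 1 := by
  rw [cc, dslope_same, div_self (H.deriv_ne 0 (mem_ball_self one_pos))]

lemma cc_ne (H : Conf W φ) {x : ℂ} (hx : x ∈ ball (0 : ℂ) 1) : cc φ x ≠ 0 :=
  div_ne_zero (H.deriv_ne x hx) (H.kap_ne hx)

lemma faber_aux (H : Conf W φ) (n : ℕ) {h : ℂ → ℂ} (hh : DifferentiableOn ℂ h (ball 0 1)) :
    ∃ (p : ℂ[X]) (ψ : ℂ → ℂ), DifferentiableOn ℂ ψ (ball 0 1) ∧ ψ 0 = 0 ∧
      ∀ x ∈ ball (0 : ℂ) 1, x ≠ 0 → p.eval (φ x)⁻¹ = x⁻¹ ^ n * h x + ψ x := by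
  induction n generalizing h with
  | zero =>
    exact ⟨C (h 0), fun x => h 0 - h x, by fun_prop, by simp, fun x _ _ => by simp⟩
  | succ n ih =>
    set a : ℂ := h 0 * dslope φ 0 0 ^ (n + 1) with ha
    set h1 : ℂ → ℂ := fun x => h x - a * (dslope φ 0 x)⁻¹ ^ (n + 1) with hh1
    have d1 : DifferentiableOn ℂ h1 (ball 0 1) :=
      hh.sub (((H.kap_diff.inv fun _ hx => H.kap_ne hx).pow _).const_mul a)
    have z1 : h1 0 = 0 := by
      have := H.kap_ne (mem_ball_self one_pos)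
      simp only [hh1, ha, inv_pow]
      field_simp
      ring
    obtain ⟨p, ψ, dψ, ψ0, hp⟩ :=
      ih ((Complex.differentiableOn_dslope (ball_mem_nhds _ one_pos)).2 d1)
    refine ⟨C a * X ^ (n + 1) + p, ψ, dψ, ψ0, fun x hx h0 => ?_⟩
    have e := sub_smul_dslope h1 0 x
    rw [z1, sub_zero, sub_zero, smul_eq_mul] at e
    have e2 : h x = a * (dslope φ 0 x)⁻¹ ^ (n + 1) + x * dslope h1 0 x := by
      rw [e]; simp only [hh1]; ring
    rw [eval_add, hp x hx h0, e2, eval_mul, eval_C, eval_pow, eval_X, H.phi_eq x, mul_inv, mul_pow]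
    have : x⁻¹ ^ (n + 1) * x = x⁻¹ ^ n := by rw [pow_succ, mul_assoc, inv_mul_cancel₀ h0, mul_one]
    linear_combination (-dslope h1 0 x) * this

/-- Faber polynomials -/
theorem exists_faber (H : Conf W φ) :
    ∃ (F : ℕ → ℂ[X]) (ψ : ℕ → ℂ → ℂ), (∀ n, DifferentiableOn ℂ (ψ n) (ball 0 1)) ∧
      (∀ n, ψ n 0 = 0) ∧
      ∀ n, ∀ x ∈ ball (0 : ℂ) 1, x ≠ 0 → (F n).eval (φ x)⁻¹ = x⁻¹ ^ (n + 1) + ψ n x := by
  have := fun n : ℕ => H.faber_aux (n + 1) (h := fun _ => 1) (differentiableOn_const _)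
  choose F ψ h1 h2 h3 using this
  exact ⟨F, ψ, h1, h2, fun n x hx h0 => by simpa using h3 n x hx h0⟩

end Conf

lemma sphere_subset_ball_one {ρ : ℝ} (hρ : ρ < 1) : sphere (0 : ℂ) ρ ⊆ ball 0 1 :=
  sphere_subset_ball hρ

lemma closedBall_subset_ball_one {ρ : ℝ} (hρ : ρ < 1) : closedBall (0 : ℂ) ρ ⊆ ball 0 1 :=
  closedBall_subset_ball hρ

/-- The module property behind the Cauchy formula. -/
lemma av_module {𝒜 V : Type*} [Ring 𝒜] [Algebra ℂ 𝒜] [AddCommGroup V] [Module ℂ V] [Module 𝒜 V]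
    [IsScalarTower ℂ 𝒜 V] {ρ : ℝ} (hρ : 0 < ρ) (A : 𝒜) (β : ℂ → V →ₗ[ℂ] ℂ) (ℓ : V → ℂ)
    {σ e : ℂ → ℂ} (hσ : ContinuousOn σ (sphere 0 ρ)) (he : ContinuousOn e (sphere 0 ρ))
    (hβ : ∀ v, ContinuousOn (fun x => β x v) (sphere 0 ρ))
    (hrel : ∀ x ∈ sphere (0 : ℂ) ρ, ∀ v, σ x * β x v = β x (A • v) + e x * ℓ v)
    {Ω : Set ℂ} (hσΩ : MapsTo σ (sphere 0 ρ) Ω)
    (hvan : ∀ g, DifferentiableOn ℂ g Ω → av ρ (fun x => g (σ x) * e x) = 0)
    {g : ℂ → ℂ} (hg : DifferentiableOn ℂ g Ω) (q : ℂ[X]) (v : V) :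
    av ρ (fun x => q.eval (σ x) * g (σ x) * β x v) =
      av ρ (fun x => g (σ x) * β x (aeval A q • v)) := by
  have hgc : ContinuousOn (fun x => g (σ x)) (sphere 0 ρ) := hg.continuousOn.comp hσ hσΩ
  have hqc : ∀ q : ℂ[X], ContinuousOn (fun x => q.eval (σ x)) (sphere 0 ρ) :=
    fun q => q.continuous.comp_continuousOn hσ
  induction q using Polynomial.induction_on generalizing v with
  | C a =>
    congr 1
    funext x
    simp only [eval_C, aeval_C, algebraMap_smul, map_smul, smul_eq_mul]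
    ring
  | add p q hp hq =>
    simp only [eval_add, map_add, add_smul, add_mul, mul_add]
    rw [av_add hρ (((hqc p).fun_mul hgc).fun_mul (hβ v)) (((hqc q).fun_mul hgc).fun_mul (hβ v)),
      hp, hq, av_add hρ (hgc.fun_mul (hβ _)) (hgc.fun_mul (hβ _))]
  | monomial n a ih =>
    have e1 : av ρ (fun x => (C a * X ^ (n + 1)).eval (σ x) * g (σ x) * β x v) =
        av ρ (fun x => (C a * X ^ n).eval (σ x) * g (σ x) * β x (A • v) +
          ℓ v * ((C a * X ^ n).eval (σ x) * g (σ x) * e x)) := by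
      refine av_congr hρ fun x hx => ?_
      have := hrel x hx v
      simp only [eval_mul, eval_C, eval_pow, eval_X]
      linear_combination (a * σ x ^ n * g (σ x)) * this
    have e2 : ∀ p : ℂ[X], av ρ (fun x => p.eval (σ x) * g (σ x) * e x) = 0 := fun p =>
      hvan (fun z => p.eval z * g z) (p.differentiableOn.mul hg)
    rw [e1, av_add hρ (((hqc _).fun_mul hgc).fun_mul (hβ _))
      (continuousOn_const.fun_mul (((hqc _).fun_mul hgc).fun_mul he)), av_cmul,
      e2, ih, mul_zero, add_zero, pow_succ,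
      ← mul_assoc, map_mul (aeval A) _ X, aeval_X, mul_smul]

namespace Conf

variable {W : Set ℂ} {φ : ℂ → ℂ}

lemma sig_cont (H : Conf W φ) {ρ : ℝ} (hρ : 0 < ρ) (hρ1 : ρ < 1) :
    ContinuousOn (fun x => (φ x)⁻¹) (sphere 0 ρ) :=
  (H.diff.continuousOn.mono (sphere_subset_ball_one hρ1)).inv₀ fun _ hx =>
    H.phi_ne (sphere_subset_ball_one hρ1 hx) (ne_zero_of_mem_sphere hρ hx)

lemma e_cont (H : Conf W φ) {ρ : ℝ} (hρ : 0 < ρ) (hρ1 : ρ < 1) :
    ContinuousOn (fun x => cc φ x * (φ x)⁻¹) (sphere 0 ρ) :=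
  (H.cc_diff.continuousOn.mono (sphere_subset_ball_one hρ1)).mul (H.sig_cont hρ hρ1)

lemma av_van (H : Conf W φ) {ρ : ℝ} (hρ : 0 < ρ) (hρ1 : ρ < 1) {Ω : Set ℂ} (hΩ : IsOpen Ω)
    (hc : Convex ℝ Ω) (hσΩ : MapsTo (fun x => (φ x)⁻¹) (sphere 0 ρ) Ω) (g : ℂ → ℂ)
    (hg : DifferentiableOn ℂ g Ω) : av ρ (fun x => g (φ x)⁻¹ * (cc φ x * (φ x)⁻¹)) = 0 := by
  obtain ⟨G, hG⟩ := hc.exists_forall_hasDerivWithinAt hg
  have key := av_mul_deriv hρ (h := fun x => -G (φ x)⁻¹)
    (h' := fun x => -(g (φ x)⁻¹ * (-deriv φ x / φ x ^ 2))) (fun x hx => by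
      have hx1 := sphere_subset_ball_one hρ1 hx
      have h1 : HasDerivAt φ (deriv φ x) x :=
        (H.diff.differentiableAt (isOpen_ball.mem_nhds hx1)).hasDerivAt
      have h2 := h1.inv (H.phi_ne hx1 (ne_zero_of_mem_sphere hρ hx))
      have h3 : HasDerivAt G (g (φ x)⁻¹) (φ x)⁻¹ :=
        (hG _ (hσΩ hx)).hasDerivAt (hΩ.mem_nhds (hσΩ hx))
      exact (HasDerivAt.comp (h := fun x => (φ x)⁻¹) x h3 h2).neg)
  rw [← key]
  refine av_congr hρ fun x hx => ?_
  have hx1 := sphere_subset_ball_one hρ1 hx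
  have h0 := ne_zero_of_mem_sphere hρ hx
  have h1 := H.kap_ne hx1
  simp only [cc]
  generalize g (φ x)⁻¹ = u
  rw [H.phi_eq x]
  field_simp

/-- scalar Cauchy formula -/
lemma cauchy_scalar (H : Conf W φ) {r : ℝ} (hr : 0 < r) (hr1 : r < 1) {z : ℂ}
    (hz : ∀ x ∈ closedBall (0 : ℂ) r, 1 - z * φ x ≠ 0) (q : ℂ[X]) :
    av r (fun x => q.eval (φ x)⁻¹ * (cc φ x * (1 - z * φ x)⁻¹)) = q.eval z := by
  have hs := closedBall_subset_ball_one hr1
  have db : DifferentiableOn ℂ (fun x => cc φ x * (1 - z * φ x)⁻¹) (closedBall 0 r) :=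
    (H.cc_diff.mono hs).mul (((differentiableOn_const _).sub
      ((H.diff.mono hs).const_mul z)).inv hz)
  have key := av_module (𝒜 := ℂ) (V := ℂ) hr z
    (fun x => (cc φ x * (1 - z * φ x)⁻¹) • LinearMap.id) (fun v => v) (H.sig_cont hr hr1)
    (H.e_cont hr hr1) (fun v => by
      simpa using (contOn_of_holo db).fun_mul (continuousOn_const (c := v)))
    (fun x hx v => by
      have h1 := hz x (sphere_subset_closedBall hx)
      have h2 := H.phi_ne (sphere_subset_ball_one hr1 hx) (ne_zero_of_mem_sphere hr hx)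
      simp only [LinearMap.smul_apply, LinearMap.id_coe, id_eq, smul_eq_mul]
      have h3 := mul_inv_cancel₀ h1
      have h4 := mul_inv_cancel₀ h2
      linear_combination (cc φ x * v * (φ x)⁻¹) * h3 +
        (cc φ x * v * z * (1 - z * φ x)⁻¹) * h4)
    (mapsTo_univ _ _) (H.av_van hr hr1 isOpen_univ convex_univ (mapsTo_univ _ _))
    (g := fun _ => 1) (differentiableOn_const _) q 1
  simp only [LinearMap.smul_apply, LinearMap.id_coe, id_eq, smul_eq_mul, mul_one, one_mul,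
    coe_aeval_eq_eval] at key
  rw [key, av_holo hr (db.mul_const _)]
  simp [H.cc_zero, H.zero]

/-- Study's theorem: the level curves of the exterior map are convex. -/
lemma study (H : Conf W φ) {y : ℂ} (hy : y ∈ ball (0 : ℂ) 1) (hy0 : y ≠ 0) {x : ℂ}
    (hx : ‖x‖ ≤ ‖y‖) : 0 ≤ ((1 - (φ y)⁻¹ * φ x) * (dslope φ 0 x / deriv φ x)).re := by
  have hy1 : ‖y‖ < 1 := mem_ball_zero_iff.1 hy
  have main : ∀ x ∈ ball (0 : ℂ) ‖y‖,
      0 ≤ ((1 - (φ y)⁻¹ * φ x) * (dslope φ 0 x / deriv φ x)).re := by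
    intro x hx
    set s := x / y with hs
    have hs1 : ‖s‖ < 1 := by
      rw [hs, norm_div, div_lt_one (norm_pos_iff.2 hy0)]; exact mem_ball_zero_iff.1 hx
    have hmul : ∀ w ∈ ball (0 : ℂ) 1, s * w ∈ closedBall (0 : ℂ) ‖s‖ := fun w hw => by
      rw [mem_closedBall_zero_iff, norm_mul]
      exact mul_le_of_le_one_right (norm_nonneg _) (mem_ball_zero_iff.1 hw).le
    have hsub := closedBall_subset_ball_one hs1
    have hmaps : MapsTo (fun w => s * w) (ball (0 : ℂ) 1) (ball 0 1) := fun w hw => hsub (hmul w hw)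
    set h : ℂ → ℂ := fun w => (1 - s * dslope φ 0 (s * w) / dslope φ 0 w) *
      (dslope φ 0 (s * w) / deriv φ (s * w)) with hh
    have hlin : DifferentiableOn ℂ (fun w => s * w) (ball (0 : ℂ) 1) := by fun_prop
    have hd : DifferentiableOn ℂ h (ball 0 1) :=
      ((differentiableOn_const _).sub (((H.kap_diff.comp hlin hmaps).const_mul s).div H.kap_diff
        fun _ hw => H.kap_ne hw)).mul (H.q_diff.comp hlin hmaps)
    have hval : ∀ w ∈ ball (0 : ℂ) 1, w ≠ 0 →
        h w = (1 - (φ w)⁻¹ * φ (s * w)) * (dslope φ 0 (s * w) / deriv φ (s * w)) := by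
      intro w hw hw0
      have := H.kap_ne hw
      simp only [hh]
      rw [H.phi_eq w, H.phi_eq (s * w)]
      congr 2
      field_simp
    obtain ⟨C, hC⟩ := (isCompact_closedBall (0 : ℂ) ‖s‖).exists_bound_of_continuousOn
      ((H.diff.mul H.q_diff).continuousOn.mono hsub)
    have hC0 : 0 ≤ C := (norm_nonneg _).trans (hC 0 (mem_closedBall_self (norm_nonneg _)))
    have hδ : ∀ δ > 0, -(δ * C) ≤ (h y).re := by
      intro δ hδ
      obtain ⟨ρ₀, hρ₀, hap⟩ := H.approach δ hδ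
      obtain ⟨R, hR1, hR2⟩ := exists_between (max_lt hρ₀ hy1)
      have hRy : ‖y‖ < R := (le_max_right _ _).trans_lt hR1
      have hR0 : 0 < R := (norm_nonneg _).trans_lt hRy
      have hb : ‖Complex.exp (-h y)‖ ≤ Real.exp (δ * C) := by
        refine Complex.norm_le_of_forall_mem_frontier_norm_le (f := fun w => Complex.exp (-h w))
          (U := ball 0 R) isBounded_ball ?_ ?_ (subset_closure (mem_ball_zero_iff.2 hRy))
        · refine DifferentiableOn.diffContOnCl ?_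
          exact ((hd.mono (closure_ball_subset_closedBall.trans
            (closedBall_subset_ball_one hR2))).neg).cexp
        · intro w hw
          rw [frontier_ball _ hR0.ne'] at hw
          have hwn := norm_of_mem_sphere hw
          have hw1 := sphere_subset_ball_one hR2 hw
          obtain ⟨z, hz, hzw⟩ := hap w (by rw [hwn]; exact (le_max_left _ _).trans_lt hR1)
            (by rw [hwn]; exact hR2)
          rw [Complex.norm_exp, Real.exp_le_exp, neg_re, neg_le,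
            hval w hw1 (ne_zero_of_mem_sphere hR0 hw)]
          have p1 := H.pos (s * w) (hmaps hw1) z hz
          have e : (1 - (φ w)⁻¹ * φ (s * w)) * (dslope φ 0 (s * w) / deriv φ (s * w)) =
              (1 - z * φ (s * w)) * (dslope φ 0 (s * w) / deriv φ (s * w)) +
              (z - (φ w)⁻¹) * (φ (s * w) * (dslope φ 0 (s * w) / deriv φ (s * w))) := by ring
          rw [e, add_re]
          have p2 : ‖(z - (φ w)⁻¹) * (φ (s * w) * (dslope φ 0 (s * w) / deriv φ (s * w)))‖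
              ≤ δ * C := by
            rw [norm_mul]
            exact mul_le_mul hzw.le (hC _ (hmul w hw1)) (norm_nonneg _) hδ.le
          have p3 := (abs_le.1 ((Complex.abs_re_le_norm _).trans p2)).1
          linarith
      rw [Complex.norm_exp, Real.exp_le_exp, neg_re, neg_le] at hb
      exact hb
    have h0 : 0 ≤ (h y).re := by
      refine le_of_forall_pos_le_add fun ε hε => ?_
      have := hδ (ε / (C + 1)) (by positivity)
      have h2 : ε / (C + 1) * C ≤ ε := by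
        rw [div_mul_eq_mul_div, div_le_iff₀ (by positivity)]; nlinarith
      linarith
    rw [hval y hy hy0, hs, div_mul_cancel₀ _ hy0] at h0
    exact h0
  have hcl : closure (ball (0 : ℂ) ‖y‖) = closedBall 0 ‖y‖ :=
    closure_ball _ (norm_ne_zero_iff.2 hy0)
  refine le_on_closure main continuousOn_const ?_ (by rw [hcl]; exact mem_closedBall_zero_iff.2 hx)
  rw [hcl]
  exact contOn_re ((((differentiableOn_const _).sub (H.diff.const_mul _)).mul
    H.q_diff).continuousOn.mono (closedBall_subset_ball_one hy1))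

lemma one_sub_ne (H : Conf W φ) {x y : ℂ} (hx : x ∈ ball (0 : ℂ) 1) (hy : y ∈ ball (0 : ℂ) 1)
    (hy0 : y ≠ 0) (hxy : x ≠ y) : 1 - (φ y)⁻¹ * φ x ≠ 0 := by
  intro h
  have h1 := H.phi_ne hy hy0
  refine hxy (H.inj hx hy ?_)
  field_simp at h
  linear_combination -h

lemma exists_kernel (H : Conf W φ) {y : ℂ} (hy : y ∈ ball (0 : ℂ) 1) (hy0 : y ≠ 0) :
    ∃ k : ℂ → ℂ, DifferentiableOn ℂ k (ball 0 1) ∧ ∀ x ∈ ball (0 : ℂ) 1, x ≠ y →
      k x = cc φ x * (1 - (φ y)⁻¹ * φ x)⁻¹ - (1 - y⁻¹ * x)⁻¹ := by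
  have hn := isOpen_ball.mem_nhds hy
  have dne : ∀ x ∈ ball (0 : ℂ) 1, dslope φ y x ≠ 0 := by
    intro x hx h
    by_cases hxy : x = y
    · subst hxy
      rw [dslope_same] at h
      exact H.deriv_ne x hx h
    · have := sub_smul_dslope φ y x
      rw [h, smul_zero] at this
      exact hxy (H.inj hx hy (sub_eq_zero.1 this.symm))
  set N : ℂ → ℂ := fun x => cc φ x * φ y / dslope φ y x with hN
  have dN : DifferentiableOn ℂ N (ball 0 1) :=
    (H.cc_diff.mul_const _).div ((Complex.differentiableOn_dslope hn).2 H.diff) dne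
  refine ⟨fun x => -dslope N y x, ((Complex.differentiableOn_dslope hn).2 dN).neg,
    fun x hx hxy => ?_⟩
  beta_reduce
  have h1 := H.phi_ne hy hy0
  have h2 : φ x - φ y ≠ 0 := fun h => hxy (H.inj hx hy (sub_eq_zero.1 h))
  have h2' : φ y - φ x ≠ 0 := fun h => h2 (by linear_combination -h)
  have h3 : x - y ≠ 0 := sub_ne_zero.2 hxy
  have h3' : y - x ≠ 0 := fun h => h3 (by linear_combination -h)
  have hNy : N y = y := by
    have := H.kap_ne hy
    have := H.deriv_ne y hy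
    simp only [hN, dslope_same, cc]
    rw [H.phi_eq y]
    field_simp
  rw [dslope_of_ne _ hxy, slope_def_field, hNy]
  simp only [dslope_of_ne _ hxy, slope_def_field, hN]
  field_simp
  ring

end Conf

end Crest.Agent.R132
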