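import Mathlib
import Crest.Agent.R132.Faber

/-!
The `L²` contraction property of the Faber transform of a convex set.
-/

set_option autoImplicit false

open Metric Complex Set Filter Topology Polynomial
open scoped ComplexConjugate

namespace Crest.Agent.R132

variable {ρ : ℝ}

lemma tc_zero (h : ℂ → ℂ) : tc 0 h = h 0 := by simp [tc]

lemma tc_succ_one (n : ℕ) : tc (n + 1) (fun _ => 1) = 0 := by
  rw [tc, iteratedDeriv_const]; simp

lemma av_geo (hρ : 0 < ρ) {w : ℂ} (hw : ∀ x ∈ closedBall (0 : ℂ) ρ, 1 - w * x ≠ 0) (n : ℕ) :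
    av ρ (fun x => x⁻¹ ^ n * (1 - w * x)⁻¹) = w ^ n := by
  have d : DifferentiableOn ℂ (fun x : ℂ => (1 - w * x)⁻¹) (closedBall 0 ρ) :=
    DifferentiableOn.inv (by fun_prop) hw
  have c := contOn_of_holo d
  have ci := contOn_inv hρ
  induction n with
  | zero => simp only [pow_zero, one_mul]; rw [av_holo hρ d]; simp
  | succ n ih =>
    have : av ρ (fun x => x⁻¹ ^ (n + 1) * (1 - w * x)⁻¹) =
        av ρ (fun x => x⁻¹ ^ (n + 1) + w * (x⁻¹ ^ n * (1 - w * x)⁻¹)) := by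
      refine av_congr hρ fun x hx => ?_
      have h1 := mul_inv_cancel₀ (hw x (sphere_subset_closedBall hx))
      have h2 := mul_inv_cancel₀ (ne_zero_of_mem_sphere hρ hx)
      rw [pow_succ]
      linear_combination (x⁻¹ ^ n * x⁻¹) * h1 + (w * x⁻¹ ^ n * (1 - w * x)⁻¹) * h2
    rw [this, av_add hρ, av_inv_pow_succ hρ, av_cmul, ih]
    · ring
    all_goals fun_prop

lemma av_mono_mono (hρ : 0 < ρ) {h : ℂ → ℂ} (hh : DifferentiableOn ℂ h (closedBall 0 ρ))
    (n n' : ℕ) : av ρ (fun x => x⁻¹ ^ n * conj (x⁻¹ ^ n') * h x) =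
      if n' ≤ n then ((ρ : ℂ) ^ 2)⁻¹ ^ n' * tc (n - n') h else 0 := by
  split_ifs with hn
  · obtain ⟨m, rfl⟩ := Nat.exists_eq_add_of_le hn
    rw [Nat.add_sub_cancel_left, ← av_inv_pow_mul hρ m hh, ← av_cmul]
    refine av_congr hρ fun x hx => ?_
    have h2 := mul_inv_cancel₀ (ne_zero_of_mem_sphere hρ hx)
    have h3 : x ^ n' * x⁻¹ ^ n' = 1 := by rw [← mul_pow, h2, one_pow]
    rw [map_pow, conj_inv_of_mem_sphere hρ hx, mul_pow, pow_add]
    linear_combination (((ρ : ℂ) ^ 2)⁻¹ ^ n' * x⁻¹ ^ m * h x) * h3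
  · obtain ⟨m, rfl⟩ := Nat.exists_eq_add_of_lt (not_le.1 hn)
    have := av_pow_succ_mul hρ m hh
    rw [← mul_zero (((ρ : ℂ) ^ 2)⁻¹ ^ (n + m + 1)), ← this, ← av_cmul]
    refine av_congr hρ fun x hx => ?_
    have h2 := mul_inv_cancel₀ (ne_zero_of_mem_sphere hρ hx)
    have h3 : x ^ n * x⁻¹ ^ n = 1 := by rw [← mul_pow, h2, one_pow]
    rw [map_pow, conj_inv_of_mem_sphere hρ hx, mul_pow, add_assoc, pow_add x]
    linear_combination (((ρ : ℂ) ^ 2)⁻¹ ^ (n + (m + 1)) * x ^ (m + 1) * h x) * h3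

/-- negative part -/
noncomputable def xi (N : ℕ) (c : ℕ → ℂ) (x : ℂ) : ℂ := ∑ n ∈ Finset.range N, c n * x⁻¹ ^ (n + 1)

lemma xi_cont (hρ : 0 < ρ) (N : ℕ) (c : ℕ → ℂ) : ContinuousOn (xi N c) (sphere 0 ρ) := by
  have ci := contOn_inv hρ
  unfold xi
  fun_prop

lemma av_xi (hρ : 0 < ρ) (N : ℕ) (c : ℕ → ℂ) {h : ℂ → ℂ}
    (hh : DifferentiableOn ℂ h (closedBall 0 ρ)) :
    av ρ (fun x => xi N c x * h x) = ∑ n ∈ Finset.range N, c n * tc (n + 1) h := by
  have ci := contOn_inv hρ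
  have ch := contOn_of_holo hh
  simp only [xi, Finset.sum_mul, mul_assoc]
  rw [av_sum hρ _ fun n _ => by fun_prop]
  exact Finset.sum_congr rfl fun n _ => by rw [av_cmul, av_inv_pow_mul hρ _ hh]

lemma av_conj_xi (hρ : 0 < ρ) (N : ℕ) (c : ℕ → ℂ) {h : ℂ → ℂ}
    (hh : DifferentiableOn ℂ h (closedBall 0 ρ)) :
    av ρ (fun x => conj (xi N c x) * h x) = 0 := by
  have ci := contOn_inv hρ
  have ch := contOn_of_holo hh
  simp only [xi, map_sum, map_mul, Finset.sum_mul, mul_assoc]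
  rw [av_sum hρ _ fun n _ => by fun_prop]
  refine Finset.sum_eq_zero fun n _ => ?_
  have := av_mono_mono hρ hh 0 (n + 1)
  simp only [pow_zero, one_mul] at this
  rw [av_cmul, this]
  simp

lemma av_xi_conj_xi (hρ : 0 < ρ) (N : ℕ) (c : ℕ → ℂ) {h : ℂ → ℂ}
    (hh : DifferentiableOn ℂ h (closedBall 0 ρ)) :
    av ρ (fun x => xi N c x * conj (xi N c x) * h x) =
      ∑ n ∈ Finset.range N, ∑ n' ∈ Finset.range N, c n * conj (c n') *
        (if n' ≤ n then ((ρ : ℂ) ^ 2)⁻¹ ^ (n' + 1) * tc (n - n') h else 0) := by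
  have ci := contOn_inv hρ
  have ch := contOn_of_holo hh
  have : (fun x => xi N c x * conj (xi N c x) * h x) = fun x =>
      ∑ n ∈ Finset.range N, ∑ n' ∈ Finset.range N, c n * conj (c n') *
        (x⁻¹ ^ (n + 1) * conj (x⁻¹ ^ (n' + 1)) * h x) := by
    funext x
    simp only [xi, map_sum, map_mul]
    rw [Finset.sum_mul_sum, Finset.sum_mul]
    refine Finset.sum_congr rfl fun n _ => ?_
    rw [Finset.sum_mul]
    exact Finset.sum_congr rfl fun n' _ => by ring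
  rw [this, av_sum hρ _ fun n _ => by fun_prop]
  refine Finset.sum_congr rfl fun n _ => ?_
  rw [av_sum hρ _ fun n _ => by fun_prop]
  refine Finset.sum_congr rfl fun n' _ => ?_
  rw [av_cmul, av_mono_mono hρ hh]
  simp only [Nat.add_le_add_iff_right, Nat.add_sub_add_right]

/-- weighted square sum -/
noncomputable def wS (ρ : ℝ) (N : ℕ) (c : ℕ → ℂ) : ℝ :=
  ∑ n ∈ Finset.range N, (ρ ^ 2)⁻¹ ^ (n + 1) * ‖c n‖ ^ 2

lemma av_xi_conj_xi_one (hρ : 0 < ρ) (N : ℕ) (c : ℕ → ℂ) :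
    av ρ (fun x => xi N c x * conj (xi N c x) * 1) = wS ρ N c := by
  rw [av_xi_conj_xi hρ N c (h := fun _ => 1) (differentiableOn_const _), wS]
  push_cast
  refine Finset.sum_congr rfl fun n hn => ?_
  rw [Finset.sum_eq_single n]
  · simp only [le_refl, if_true, Nat.sub_self, tc_zero, Complex.mul_conj, Complex.normSq_eq_norm_sq]
    push_cast
    ring
  · intro n' _ hne
    split_ifs with h
    · obtain ⟨m, rfl⟩ := Nat.exists_eq_add_of_lt (lt_of_le_of_ne h hne)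
      rw [add_assoc, Nat.add_sub_cancel_left, tc_succ_one]
      simp
    · simp
  · intro h; exact absurd hn h

lemma av_normSq_xi (hρ : 0 < ρ) (N : ℕ) (c : ℕ → ℂ) :
    av ρ (fun x => ‖xi N c x‖ ^ 2) = wS ρ N c := by
  have cx := xi_cont hρ N c
  have := av_xi_conj_xi_one hρ N c
  simp only [mul_one, Complex.mul_conj, Complex.normSq_eq_norm_sq] at this
  rw [av_ofReal hρ (by fun_prop)] at this
  exact_mod_cast this

/-- Jensen's inequality for the kernel. -/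
lemma jensen_kernel (hρ : 0 < ρ) (N : ℕ) (c : ℕ → ℂ) {k : ℂ → ℂ}
    (hk : DifferentiableOn ℂ k (closedBall 0 ρ)) (hk0 : k 0 = 0) (y : ℂ)
    (hpos : ∀ x ∈ sphere (0 : ℂ) ρ, x ≠ y → 0 ≤ 1 + 2 * (k x).re) :
    ‖∑ n ∈ Finset.range N, c n * tc (n + 1) k‖ ^ 2 ≤ wS ρ N c +
      2 * (av ρ (fun x => xi N c x * conj (xi N c x) * k x)).re := by
  set μ := ∑ n ∈ Finset.range N, c n * tc (n + 1) k with hμ
  have cx := xi_cont hρ N c
  have ck := contOn_of_holo hk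
  have T : ∀ h : ℂ → ℂ, DifferentiableOn ℂ h (closedBall 0 ρ) →
      av ρ (fun x => (xi N c x - μ) * conj (xi N c x - μ) * h x) =
        av ρ (fun x => xi N c x * conj (xi N c x) * h x) -
          conj μ * (∑ n ∈ Finset.range N, c n * tc (n + 1) h) + μ * conj μ * h 0 := by
    intro h hh
    have ch := contOn_of_holo hh
    have : (fun x => (xi N c x - μ) * conj (xi N c x - μ) * h x) = fun x =>
        xi N c x * conj (xi N c x) * h x - conj μ * (xi N c x * h x)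
          - μ * (conj (xi N c x) * h x) + μ * conj μ * h x := by
      funext x; rw [map_sub]; ring
    rw [this, av_add hρ, av_sub hρ, av_sub hρ, av_cmul, av_cmul, av_cmul, av_xi hρ N c hh,
      av_conj_xi hρ N c hh, av_holo hρ hh]
    · ring
    all_goals fun_prop
  have h0 : 0 ≤ av ρ (fun x => ‖xi N c x - μ‖ ^ 2 * (1 + 2 * (k x).re)) :=
    av_nonneg_of_ne hρ y fun x hx hxy => mul_nonneg (by positivity) (hpos x hx hxy)
  have e : (fun x => ‖xi N c x - μ‖ ^ 2 * (1 + 2 * (k x).re)) = fun x =>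
      ((xi N c x - μ) * conj (xi N c x - μ) * 1).re +
        2 * ((xi N c x - μ) * conj (xi N c x - μ) * k x).re := by
    funext x
    rw [Complex.mul_conj, Complex.normSq_eq_norm_sq, re_ofReal_mul, re_ofReal_mul, one_re]
    ring
  rw [e, av_add hρ, av_rmul, av_re hρ, av_re hρ, T _ (differentiableOn_const _), T _ hk,
    av_xi_conj_xi_one hρ, hk0, ← hμ] at h0
  · generalize av ρ (fun x => xi N c x * conj (xi N c x) * k x) = Z at h0 ⊢
    simp only [tc_succ_one, mul_zero, Finset.sum_const_zero, sub_zero, mul_one, add_zero,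
      Complex.mul_conj, Complex.conj_mul', Complex.normSq_eq_norm_sq, add_re, ofReal_re,
      sub_re, ← Complex.ofReal_pow] at h0
    linarith
  all_goals fun_prop

lemma contraction (hρ : 0 < ρ) {ψ : ℕ → ℂ → ℂ}
    (hψ : ∀ n, DifferentiableOn ℂ (ψ n) (closedBall 0 ρ)) (hψ0 : ∀ n, ψ n 0 = 0)
    (hker : ∀ y ∈ sphere (0 : ℂ) ρ, ∃ k : ℂ → ℂ, DifferentiableOn ℂ k (closedBall 0 ρ) ∧ k 0 = 0 ∧
      (∀ n, tc (n + 1) k = ψ n y) ∧ ∀ x ∈ sphere (0 : ℂ) ρ, x ≠ y → 0 ≤ 1 + 2 * (k x).re)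
    (N : ℕ) (c : ℕ → ℂ) :
    av ρ (fun y => ‖∑ n ∈ Finset.range N, c n * ψ n y‖ ^ 2) ≤ wS ρ N c := by
  set Ξ : ℂ → ℂ := fun y => ∑ n ∈ Finset.range N, ∑ n' ∈ Finset.range N, c n * conj (c n') *
        (if n' < n then ((ρ : ℂ) ^ 2)⁻¹ ^ (n' + 1) * ψ (n - n' - 1) y else 0) with hΞ
  have dΞ : DifferentiableOn ℂ Ξ (closedBall 0 ρ) := by
    refine DifferentiableOn.fun_sum fun n _ => DifferentiableOn.fun_sum fun n' _ =>
      DifferentiableOn.const_mul ?_ _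
    split_ifs
    · exact (hψ _).const_mul _
    · exact differentiableOn_const _
  have Ξ0 : Ξ 0 = 0 := by simp [hΞ, hψ0]
  have cΞ := contOn_of_holo dΞ
  have cψ := fun n => contOn_of_holo (hψ n)
  have key : ∀ y ∈ sphere (0 : ℂ) ρ,
      ‖∑ n ∈ Finset.range N, c n * ψ n y‖ ^ 2 ≤ wS ρ N c + 2 * (Ξ y).re := by
    intro y hy
    obtain ⟨k, hk, hk0, htc, hpos⟩ := hker y hy
    have := jensen_kernel hρ N c hk hk0 y hpos
    simp only [htc] at this
    rw [av_xi_conj_xi hρ N c hk] at this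
    convert this using 4
    refine Finset.sum_congr rfl fun n _ => Finset.sum_congr rfl fun n' _ => ?_
    congr 1
    rcases lt_trichotomy n' n with h | h | h
    · obtain ⟨m, rfl⟩ := Nat.exists_eq_add_of_lt h
      rw [if_pos h, if_pos h.le, add_assoc, Nat.add_sub_cancel_left, htc]
      simp
    · subst h
      simp [tc_zero, hk0]
    · rw [if_neg h.le.not_gt, if_neg h.not_ge]
  refine (av_mono hρ (by fun_prop) (by fun_prop) key).trans ?_
  rw [av_add hρ, av_const, av_rmul, av_re hρ cΞ, av_holo hρ dΞ, Ξ0]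
  · simp
  all_goals fun_prop

namespace Conf

variable {W : Set ℂ} {φ : ℂ → ℂ}

lemma kernel_facts (H : Conf W φ) (hρ : 0 < ρ) (hρ1 : ρ < 1) {F : ℕ → ℂ[X]} {ψ : ℕ → ℂ → ℂ}
    (hψ : ∀ n, DifferentiableOn ℂ (ψ n) (ball 0 1)) (hψ0 : ∀ n, ψ n 0 = 0)
    (hF : ∀ n, ∀ x ∈ ball (0 : ℂ) 1, x ≠ 0 → (F n).eval (φ x)⁻¹ = x⁻¹ ^ (n + 1) + ψ n x)
    {y : ℂ} (hy : y ∈ sphere (0 : ℂ) ρ) :
    ∃ k : ℂ → ℂ, DifferentiableOn ℂ k (closedBall 0 ρ) ∧ k 0 = 0 ∧
      (∀ n, tc (n + 1) k = ψ n y) ∧ ∀ x ∈ sphere (0 : ℂ) ρ, x ≠ y → 0 ≤ 1 + 2 * (k x).re := by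
  have hy1 := sphere_subset_ball_one hρ1 hy
  have hy0 := ne_zero_of_mem_sphere hρ hy
  have hyn := norm_of_mem_sphere hy
  obtain ⟨k, hk, hkx⟩ := H.exists_kernel hy1 hy0
  refine ⟨k, hk.mono (closedBall_subset_ball_one hρ1), ?_, fun n => ?_, fun x hx hxy => ?_⟩
  · rw [hkx 0 (mem_ball_self one_pos) hy0.symm]
    simp [H.cc_zero, H.zero]
  · have hr : 0 < ρ / 2 := by positivity
    have hr1 : ρ / 2 < 1 := by linarith
    have hs := closedBall_subset_ball_one hr1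
    have hne : ∀ x ∈ closedBall (0 : ℂ) (ρ / 2), x ≠ y := by
      rintro x hx rfl
      rw [mem_closedBall_zero_iff, hyn] at hx
      linarith
    have hz : ∀ x ∈ closedBall (0 : ℂ) (ρ / 2), 1 - (φ y)⁻¹ * φ x ≠ 0 :=
      fun x hx => H.one_sub_ne (hs hx) hy1 hy0 (hne x hx)
    have hw : ∀ x ∈ closedBall (0 : ℂ) (ρ / 2), 1 - y⁻¹ * x ≠ 0 := by
      intro x hx h
      refine hne x hx ?_
      field_simp at h
      linear_combination -h
    have db : DifferentiableOn ℂ (fun x => cc φ x * (1 - (φ y)⁻¹ * φ x)⁻¹)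
        (closedBall 0 (ρ / 2)) :=
      (H.cc_diff.mono hs).mul (((differentiableOn_const _).sub
        ((H.diff.mono hs).const_mul _)).inv hz)
    have cb := contOn_of_holo db
    have cg : ContinuousOn (fun x : ℂ => (1 - y⁻¹ * x)⁻¹) (sphere 0 (ρ / 2)) :=
      ContinuousOn.inv₀ (by fun_prop) fun x hx => hw x (sphere_subset_closedBall hx)
    have ci := contOn_inv hr
    have cψ := contOn_of_holo ((hψ n).mono hs)
    have cF : ContinuousOn (fun x => (F n).eval (φ x)⁻¹) (sphere 0 (ρ / 2)) :=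
      (F n).continuous.comp_continuousOn (H.sig_cont hr hr1)
    rw [← av_inv_pow_mul hr (n + 1) (hk.mono hs)]
    have : av (ρ / 2) (fun x => x⁻¹ ^ (n + 1) * k x) = av (ρ / 2) (fun x =>
        (F n).eval (φ x)⁻¹ * (cc φ x * (1 - (φ y)⁻¹ * φ x)⁻¹) -
        ψ n x * (cc φ x * (1 - (φ y)⁻¹ * φ x)⁻¹) - x⁻¹ ^ (n + 1) * (1 - y⁻¹ * x)⁻¹) := by
      refine av_congr hr fun x hx => ?_
      have hx' := sphere_subset_closedBall hx
      rw [hkx x (hs hx') (hne x hx'), hF n x (hs hx') (ne_zero_of_mem_sphere hr hx)]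
      ring
    rw [this, av_sub hr ((cF.fun_mul cb).fun_sub (cψ.fun_mul cb)) ((ci.fun_pow _).fun_mul cg),
      av_sub hr (cF.fun_mul cb) (cψ.fun_mul cb), H.cauchy_scalar hr hr1 hz, av_geo hr hw,
      av_holo hr (((hψ n).mono hs).fun_mul db), hψ0, hF n y hy1 hy0]
    ring
  · have hx1 := sphere_subset_ball_one hρ1 hx
    have hxn := norm_of_mem_sphere hx
    have p := H.study hy1 hy0 (x := x) (by rw [hxn, hyn])
    have e1 : cc φ x * (1 - (φ y)⁻¹ * φ x)⁻¹ =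
        ((1 - (φ y)⁻¹ * φ x) * (dslope φ 0 x / deriv φ x))⁻¹ := by
      rw [cc, mul_inv, inv_div, mul_comm]
    have p1 : 0 ≤ (cc φ x * (1 - (φ y)⁻¹ * φ x)⁻¹).re := by
      rw [e1, Complex.inv_re]
      exact div_nonneg p (normSq_nonneg _)
    have p2 : ((1 - y⁻¹ * x)⁻¹).re = 1 / 2 := by
      set s := y⁻¹ * x with hs
      have hs1 : normSq s = 1 := by
        rw [Complex.normSq_eq_norm_sq, hs, norm_mul, norm_inv, hxn, hyn, inv_mul_cancel₀ hρ.ne']
        norm_num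
      have hs2 : 1 - s ≠ 0 := by
        intro h
        refine hxy ?_
        rw [hs] at h
        field_simp at h
        linear_combination -h
      have hs3 : normSq (1 - s) ≠ 0 := by simpa using hs2
      rw [Complex.inv_re, div_eq_iff hs3]
      simp only [normSq_apply, sub_re, one_re, sub_im, one_im] at hs1 ⊢
      linarith
    rw [hkx x hx1 hxy, sub_re, p2]
    linarith

/-- the `L²` estimate for combinations of Faber polynomials -/
theorem faber_estimate (H : Conf W φ) (hρ : 0 < ρ) (hρ1 : ρ < 1) {F : ℕ → ℂ[X]} {ψ : ℕ → ℂ → ℂ}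
    (hψ : ∀ n, DifferentiableOn ℂ (ψ n) (ball 0 1)) (hψ0 : ∀ n, ψ n 0 = 0)
    (hF : ∀ n, ∀ x ∈ ball (0 : ℂ) 1, x ≠ 0 → (F n).eval (φ x)⁻¹ = x⁻¹ ^ (n + 1) + ψ n x)
    (N : ℕ) (c₀ : ℂ) (c : ℕ → ℂ) :
    av ρ (fun x => ‖(C c₀ + ∑ n ∈ Finset.range N, C (c n) * F n).eval (φ x)⁻¹‖ ^ 2) ≤
      ‖c₀‖ ^ 2 + 2 * wS ρ N c := by
  have hs := closedBall_subset_ball_one hρ1
  have hψ' : ∀ n, DifferentiableOn ℂ (ψ n) (closedBall 0 ρ) := fun n => (hψ n).mono hs
  have hcon := contraction hρ hψ' hψ0 (fun y hy => H.kernel_facts hρ hρ1 hψ hψ0 hF hy) N c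
  set Ψ : ℂ → ℂ := fun y => ∑ n ∈ Finset.range N, c n * ψ n y with hΨ
  set η : ℂ → ℂ := fun x => ∑ n ∈ Finset.range N,
    conj (c n) * (((ρ : ℂ) ^ 2)⁻¹ * x) ^ (n + 1) with hη
  have dΨ : DifferentiableOn ℂ Ψ (closedBall 0 ρ) :=
    DifferentiableOn.fun_sum fun n _ => (hψ' n).const_mul _
  have dη : DifferentiableOn ℂ η (closedBall 0 ρ) := by
    simp only [hη]; fun_prop
  have Ψ0 : Ψ 0 = 0 := by simp [hΨ, hψ0]
  have η0 : η 0 = 0 := by simp [hη]
  have hxi : ∀ x ∈ sphere (0 : ℂ) ρ, η x = conj (xi N c x) := by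
    intro x hx
    simp only [hη, xi, map_sum, map_mul, map_pow, conj_inv_of_mem_sphere hρ hx]
  have e1 : av ρ (fun x => ‖(C c₀ + ∑ n ∈ Finset.range N, C (c n) * F n).eval (φ x)⁻¹‖ ^ 2) =
      av ρ (fun x => ‖(Ψ x + conj (conj c₀)) + conj (η x)‖ ^ 2) := by
    refine av_congr hρ fun x hx => ?_
    rw [hxi x hx]
    simp only [eval_add, eval_C, eval_finsetSum, eval_mul, Complex.conj_conj, hΨ, xi,
      hF _ x (sphere_subset_ball_one hρ1 hx) (ne_zero_of_mem_sphere hρ hx), mul_add,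
      Finset.sum_add_distrib]
    congr 2
    ring
  have e2 : av ρ (fun x => ‖η x‖ ^ 2) = wS ρ N c := by
    rw [← av_normSq_xi hρ]
    exact av_congr hρ fun x hx => by rw [hxi x hx, Complex.norm_conj]
  rw [e1, av_norm_add_conj hρ (dΨ.add_const _) dη,
    av_norm_add_conj hρ dΨ (differentiableOn_const _), e2, av_const, Ψ0, η0]
  simp only [zero_mul, mul_zero, zero_re, Complex.norm_conj]
  linarith

end Conf

end Crest.Agent.R132
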