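import Mathlib
import Crest.Prelude.Def_NumRangeMetric

/-!
Holomorphic functional calculus for an algebraic element, as a relation.
`FC χ A Ω h M` : `h = q + χ * g` on `Ω` with `g` holomorphic, and `M = q(A)`.
-/

set_option autoImplicit false

open Polynomial Filter Topology

namespace Crest.Agent.R132

/-- `∏_{μ ∈ s} (X - μ)`. -/
noncomputable def rootPoly (s : Multiset ℂ) : ℂ[X] := (s.map (fun μ => X - C μ)).prod

lemma rootPoly_zero : rootPoly 0 = 1 := by simp [rootPoly]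

lemma rootPoly_cons (μ : ℂ) (s : Multiset ℂ) :
    rootPoly (μ ::ₘ s) = (X - C μ) * rootPoly s := by simp [rootPoly]

lemma rootPoly_roots {χ : ℂ[X]} (h : χ.Monic) : rootPoly χ.roots = χ :=
  ((IsAlgClosed.splits χ).eq_prod_roots_of_monic h).symm

lemma dslope_differentiableOn {Ω : Set ℂ} (hΩ : IsOpen Ω) {μ : ℂ} (hμ : μ ∈ Ω) {h : ℂ → ℂ}
    (hh : DifferentiableOn ℂ h Ω) : DifferentiableOn ℂ (dslope h μ) Ω :=
  (Complex.differentiableOn_dslope (hΩ.mem_nhds hμ)).2 hh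

/-- Newton interpolation. -/
theorem newton {Ω : Set ℂ} (hΩ : IsOpen Ω) (s : Multiset ℂ) (hs : ∀ μ ∈ s, μ ∈ Ω) {h : ℂ → ℂ}
    (hh : DifferentiableOn ℂ h Ω) :
    ∃ (q : ℂ[X]) (g : ℂ → ℂ), DifferentiableOn ℂ g Ω ∧
      ∀ z, h z = q.eval z + (rootPoly s).eval z * g z := by
  induction s using Multiset.induction_on generalizing h with
  | empty => exact ⟨0, h, hh, fun z => by simp [rootPoly_zero]⟩
  | cons μ s ih =>
    obtain ⟨q, g, hg, hq⟩ := ih (fun ν hν => hs ν (Multiset.mem_cons_of_mem hν))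
      (dslope_differentiableOn hΩ (hs μ (Multiset.mem_cons_self _ _)) hh)
    refine ⟨C (h μ) + (X - C μ) * q, g, hg, fun z => ?_⟩
    have h1 := sub_smul_dslope h μ z
    rw [hq z, smul_eq_mul] at h1
    simp only [rootPoly_cons, eval_add, eval_C, eval_mul, eval_sub, eval_X]
    linear_combination -h1

theorem rootPoly_dvd {Ω : Set ℂ} (hΩ : IsOpen Ω) (s : Multiset ℂ) (hs : ∀ μ ∈ s, μ ∈ Ω)
    {g : ℂ → ℂ} (hg : DifferentiableOn ℂ g Ω) {q : ℂ[X]}
    (hq : ∀ z ∈ Ω, q.eval z = (rootPoly s).eval z * g z) : rootPoly s ∣ q := by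
  induction s using Multiset.induction_on generalizing q with
  | empty => simp [rootPoly_zero]
  | cons μ s ih =>
    have hμ : μ ∈ Ω := hs μ (Multiset.mem_cons_self _ _)
    have h0 : q.IsRoot μ := by
      rw [IsRoot.def, hq μ hμ]; simp [rootPoly_cons]
    obtain ⟨q1, rfl⟩ := dvd_iff_isRoot.2 h0
    rw [rootPoly_cons]
    refine mul_dvd_mul_left _ (ih (fun ν hν => hs ν (Multiset.mem_cons_of_mem hν)) ?_)
    have hne : ∀ z ∈ Ω, z ≠ μ → q1.eval z = (rootPoly s).eval z * g z := by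
      intro z hz hzμ
      have := hq z hz
      simp only [rootPoly_cons, eval_mul, eval_sub, eval_X, eval_C, mul_assoc] at this
      exact mul_left_cancel₀ (sub_ne_zero.2 hzμ) this
    intro z hz
    by_cases hzμ : z = μ
    · subst hzμ
      have c1 : ContinuousAt (fun w => q1.eval w) z := q1.continuous.continuousAt
      have c2 : ContinuousAt (fun w => (rootPoly s).eval w * g w) z :=
        (rootPoly s).continuous.continuousAt.mul
          (hg.differentiableAt (hΩ.mem_nhds hz)).continuousAt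
      refine tendsto_nhds_unique_of_eventuallyEq (l := 𝓝[≠] z)
        (c1.tendsto.mono_left nhdsWithin_le_nhds) (c2.tendsto.mono_left nhdsWithin_le_nhds) ?_
      filter_upwards [self_mem_nhdsWithin, nhdsWithin_le_nhds (hΩ.mem_nhds hz)] with w hw hw'
      exact hne w hw' hw
    · exact hne z hz hzμ

theorem exists_eq_rootPoly_mul {Ω : Set ℂ} (hΩ : IsOpen Ω) (s : Multiset ℂ)
    (hs : ∀ μ ∈ s, μ ∈ Ω) {h : ℂ → ℂ} (hh : DifferentiableOn ℂ h Ω)
    (hv : ∀ μ ∈ s, ((s.count μ : ℕ) : ℕ∞) ≤ analyticOrderAt h μ) :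
    ∃ g : ℂ → ℂ, DifferentiableOn ℂ g Ω ∧ ∀ z, h z = (rootPoly s).eval z * g z := by
  induction s using Multiset.induction_on generalizing h with
  | empty => exact ⟨h, hh, fun z => by simp [rootPoly_zero]⟩
  | cons μ s ih =>
    have hμ : μ ∈ Ω := hs μ (Multiset.mem_cons_self _ _)
    have han := hh.analyticOnNhd hΩ
    have hd := dslope_differentiableOn hΩ hμ hh
    have hdan := hd.analyticOnNhd hΩ
    have h0 : h μ = 0 := by
      have := hv μ (Multiset.mem_cons_self _ _)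
      rw [Multiset.count_cons_self] at this
      by_contra hne
      rw [(han μ hμ).analyticOrderAt_eq_zero.2 hne] at this
      simp at this
    have hfac : h = (fun z => z - μ) * dslope h μ := by
      funext z
      have h1 := sub_smul_dslope h μ z
      rw [h0, smul_eq_mul] at h1
      simp only [Pi.mul_apply]
      linear_combination -h1
    obtain ⟨g, hg, hq⟩ := ih (fun ν hν => hs ν (Multiset.mem_cons_of_mem hν)) hd (by
      intro ν hν
      have hνΩ := hs ν (Multiset.mem_cons_of_mem hν)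
      have h2 := hv ν (Multiset.mem_cons_of_mem hν)
      have h3 : analyticOrderAt h ν =
          analyticOrderAt (fun z => z - μ) ν + analyticOrderAt (dslope h μ) ν := by
        conv_lhs => rw [hfac]
        exact analyticOrderAt_mul (by fun_prop) (hdan ν hνΩ)
      rw [h3] at h2
      by_cases hνμ : ν = μ
      · subst hνμ
        have h4 : analyticOrderAt (fun z => z - ν) ν = 1 := by
          simp
        rw [h4, Multiset.count_cons_self, Nat.cast_add, Nat.cast_one, add_comm] at h2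
        exact (ENat.add_le_add_iff_left (by simp)).1 h2
      · have h4 : analyticOrderAt (fun z => z - μ) ν = 0 :=
          (by fun_prop : AnalyticAt ℂ (fun z => z - μ) ν).analyticOrderAt_eq_zero.2
            (sub_ne_zero.2 hνμ)
        rwa [h4, zero_add, Multiset.count_cons_of_ne hνμ] at h2)
    refine ⟨g, hg, fun z => ?_⟩
    conv_lhs => rw [hfac]
    simp only [Pi.mul_apply, hq z, rootPoly_cons, eval_mul, eval_sub, eval_X, eval_C, mul_assoc]

section FC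

variable {𝒜 : Type*} [Ring 𝒜] [Algebra ℂ 𝒜]

/-- Holomorphic functional calculus relation: `M = h(A)`. -/
def FC (χ : ℂ[X]) (A : 𝒜) (Ω : Set ℂ) (h : ℂ → ℂ) (M : 𝒜) : Prop :=
  ∃ (q : ℂ[X]) (g : ℂ → ℂ), DifferentiableOn ℂ g Ω ∧
    (∀ z ∈ Ω, h z = q.eval z + χ.eval z * g z) ∧ M = aeval A q

variable {χ : ℂ[X]} {A : 𝒜} {Ω : Set ℂ}

lemma FC.differentiableOn {h : ℂ → ℂ} {M : 𝒜} (H : FC χ A Ω h M) : DifferentiableOn ℂ h Ω := by
  obtain ⟨q, g, hg, hq, -⟩ := H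
  refine DifferentiableOn.congr ?_ hq
  exact q.differentiableOn.add (χ.differentiableOn.mul hg)

lemma FC.congr {h h' : ℂ → ℂ} {M : 𝒜} (H : FC χ A Ω h M) (e : ∀ z ∈ Ω, h' z = h z) :
    FC χ A Ω h' M := by
  obtain ⟨q, g, hg, hq, hM⟩ := H
  exact ⟨q, g, hg, fun z hz => (e z hz).trans (hq z hz), hM⟩

lemma FC.mono {Ω' : Set ℂ} {h : ℂ → ℂ} {M : 𝒜} (H : FC χ A Ω h M) (e : Ω' ⊆ Ω) :
    FC χ A Ω' h M := by
  obtain ⟨q, g, hg, hq, hM⟩ := H
  exact ⟨q, g, hg.mono e, fun z hz => hq z (e hz), hM⟩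

lemma FC.poly (q : ℂ[X]) : FC χ A Ω (fun z => q.eval z) (aeval A q) :=
  ⟨q, 0, differentiableOn_const _, fun z _ => by simp, rfl⟩

lemma FC.const (c : ℂ) : FC χ A Ω (fun _ => c) (algebraMap ℂ 𝒜 c) := by
  simpa using FC.poly (χ := χ) (A := A) (Ω := Ω) (C c)

lemma FC.one : FC χ A Ω (fun _ => 1) 1 := by
  simpa using FC.const (χ := χ) (A := A) (Ω := Ω) 1

lemma FC.zero : FC χ A Ω (fun _ => 0) 0 := by
  simpa using FC.const (χ := χ) (A := A) (Ω := Ω) 0

lemma FC.id : FC χ A Ω (fun z => z) A := by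
  simpa using FC.poly (χ := χ) (A := A) (Ω := Ω) X

lemma FC.add {h h' : ℂ → ℂ} {M M' : 𝒜} (H : FC χ A Ω h M) (H' : FC χ A Ω h' M') :
    FC χ A Ω (fun z => h z + h' z) (M + M') := by
  obtain ⟨q, g, hg, hq, rfl⟩ := H
  obtain ⟨q', g', hg', hq', rfl⟩ := H'
  refine ⟨q + q', g + g', hg.add hg', fun z hz => ?_, by simp⟩
  simp only [hq z hz, hq' z hz, eval_add, Pi.add_apply]; ring

lemma FC.mul {h h' : ℂ → ℂ} {M M' : 𝒜} (H : FC χ A Ω h M) (H' : FC χ A Ω h' M') :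
    FC χ A Ω (fun z => h z * h' z) (M * M') := by
  have d' := H'.differentiableOn
  obtain ⟨q, g, hg, hq, rfl⟩ := H
  obtain ⟨q', g', hg', hq', rfl⟩ := H'
  refine ⟨q * q', fun z => g z * h' z + q.eval z * g' z,
    (hg.mul d').add (q.differentiableOn.mul hg'), fun z hz => ?_, by simp⟩
  simp only [hq z hz, hq' z hz, eval_mul]; ring

lemma FC.smul (c : ℂ) {h : ℂ → ℂ} {M : 𝒜} (H : FC χ A Ω h M) :
    FC χ A Ω (fun z => c * h z) (c • M) := by
  simpa [Algebra.smul_def] using (FC.const c).mul H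

lemma FC.neg {h : ℂ → ℂ} {M : 𝒜} (H : FC χ A Ω h M) : FC χ A Ω (fun z => - h z) (- M) := by
  simpa using H.smul (-1)

lemma FC.sub {h h' : ℂ → ℂ} {M M' : 𝒜} (H : FC χ A Ω h M) (H' : FC χ A Ω h' M') :
    FC χ A Ω (fun z => h z - h' z) (M - M') := by
  simpa [sub_eq_add_neg] using H.add H'.neg

lemma FC.sum {ι : Type*} (s : Finset ι) {h : ι → ℂ → ℂ} {M : ι → 𝒜}
    (H : ∀ i ∈ s, FC χ A Ω (h i) (M i)) :
    FC χ A Ω (fun z => ∑ i ∈ s, h i z) (∑ i ∈ s, M i) := by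
  classical
  induction s using Finset.induction_on with
  | empty => simpa using FC.zero
  | insert a s ha ih =>
    simp only [Finset.sum_insert ha]
    exact (H a (Finset.mem_insert_self _ _)).add
      (ih fun i hi => H i (Finset.mem_insert_of_mem hi))

lemma FC.pow {h : ℂ → ℂ} {M : 𝒜} (H : FC χ A Ω h M) (k : ℕ) :
    FC χ A Ω (fun z => h z ^ k) (M ^ k) := by
  induction k with
  | zero => simpa using FC.one
  | succ k ih => simpa [pow_succ] using ih.mul H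

lemma FC.aeval {h : ℂ → ℂ} {M : 𝒜} (H : FC χ A Ω h M) (p : ℂ[X]) :
    FC χ A Ω (fun z => p.eval (h z)) (Polynomial.aeval M p) := by
  induction p using Polynomial.induction_on' with
  | add p q hp hq => simpa using hp.add hq
  | monomial n a =>
    simpa [Algebra.smul_def, aeval_monomial] using (H.pow n).smul a

lemma FC.commute {h : ℂ → ℂ} {M : 𝒜} (H : FC χ A Ω h M) {B : 𝒜} (hB : Commute A B) :
    Commute M B := by
  obtain ⟨q, g, -, -, rfl⟩ := H
  induction q using Polynomial.induction_on' with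
  | add p q hp hq => simpa using hp.add_left hq
  | monomial n a =>
    rw [aeval_monomial]
    exact Commute.mul_left (Algebra.commutes a B) (hB.pow_left n)

lemma FC.map {ℬ : Type*} [Ring ℬ] [Algebra ℂ ℬ] (Φ : 𝒜 →ₐ[ℂ] ℬ) {h : ℂ → ℂ} {M : 𝒜}
    (H : FC χ A Ω h M) : FC χ (Φ A) Ω h (Φ M) := by
  obtain ⟨q, g, hg, hq, rfl⟩ := H
  exact ⟨q, g, hg, hq, (aeval_algHom_apply Φ A q).symm⟩

/-- existence -/
theorem FC.exists (A : 𝒜) (hΩ : IsOpen Ω) (hχ : χ.Monic) (hr : ∀ μ, χ.IsRoot μ → μ ∈ Ω)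
    {h : ℂ → ℂ} (hh : DifferentiableOn ℂ h Ω) : ∃ M, FC χ A Ω h M := by
  obtain ⟨q, g, hg, hq⟩ := newton hΩ χ.roots (fun μ hμ => hr μ (isRoot_of_mem_roots hμ)) hh
  rw [rootPoly_roots hχ] at hq
  exact ⟨_, q, g, hg, fun z _ => hq z, rfl⟩

/-- uniqueness -/
theorem FC.unique (hΩ : IsOpen Ω) (hχ : χ.Monic) (hr : ∀ μ, χ.IsRoot μ → μ ∈ Ω)
    (hA : Polynomial.aeval A χ = 0) {h : ℂ → ℂ} {M M' : 𝒜}
    (H : FC χ A Ω h M) (H' : FC χ A Ω h M') : M = M' := by
  obtain ⟨q, g, hg, hq, hM⟩ := H.sub H'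
  have hd : rootPoly χ.roots ∣ q := by
    refine rootPoly_dvd hΩ χ.roots (fun μ hμ => hr μ (isRoot_of_mem_roots hμ)) hg.neg ?_
    intro z hz
    have := hq z hz
    rw [rootPoly_roots hχ]
    simp only [Pi.neg_apply]
    linear_combination -this
  rw [rootPoly_roots hχ] at hd
  obtain ⟨r, rfl⟩ := hd
  rw [map_mul, hA, zero_mul] at hM
  exact sub_eq_zero.1 hM

/-- composition: `(w ∘ f)(A) = w(f(A))`. -/
theorem FC.comp (hΩ : IsOpen Ω) (hχ : χ.Monic) (hr : ∀ μ, χ.IsRoot μ → μ ∈ Ω)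
    {f : ℂ → ℂ} {T : 𝒜} (H : FC χ A Ω f T) {χ' : ℂ[X]} (hT : Polynomial.aeval T χ' = 0)
    {Ω' : Set ℂ} (hf : Set.MapsTo f Ω Ω') {w : ℂ → ℂ} {M : 𝒜} (H' : FC χ' T Ω' w M) :
    FC χ A Ω (fun z => w (f z)) M := by
  obtain ⟨q, g, hg, hq, rfl⟩ := H'
  obtain ⟨N, hN⟩ := FC.exists A hΩ hχ hr (hg.comp H.differentiableOn hf)
  have := (H.aeval q).add ((H.aeval χ').mul hN)
  rw [hT, zero_mul, add_zero] at this
  exact this.congr fun z hz => hq _ (hf hz)

/-- a nowhere vanishing function gives a unit. -/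
theorem FC.isUnit (hΩ : IsOpen Ω) (hχ : χ.Monic) (hr : ∀ μ, χ.IsRoot μ → μ ∈ Ω)
    (hA : Polynomial.aeval A χ = 0) {h : ℂ → ℂ} {M : 𝒜} (H : FC χ A Ω h M)
    (h0 : ∀ z ∈ Ω, h z ≠ 0) : IsUnit M := by
  obtain ⟨N, hN⟩ := FC.exists A hΩ hχ hr (H.differentiableOn.inv h0)
  have e1 : M * N = 1 := FC.unique hΩ hχ hr hA
    ((H.mul hN).congr fun z hz => (mul_inv_cancel₀ (h0 z hz)).symm) FC.one
  have e2 : N * M = 1 := FC.unique hΩ hχ hr hA
    ((hN.mul H).congr fun z hz => (inv_mul_cancel₀ (h0 z hz)).symm) FC.one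
  exact ⟨⟨M, N, e1, e2⟩, rfl⟩

/-- spectral mapping (inclusion). -/
theorem FC.spectrum_subset (hΩ : IsOpen Ω) (hχ : χ.Monic) (hr : ∀ μ, χ.IsRoot μ → μ ∈ Ω)
    (hA : Polynomial.aeval A χ = 0) {h : ℂ → ℂ} {M : 𝒜} (H : FC χ A Ω h M) :
    spectrum ℂ M ⊆ h '' Ω := by
  intro c hc
  by_contra hn
  apply hc
  rw [spectrum.mem_resolventSet_iff]
  exact ((FC.const c).sub H).isUnit hΩ hχ hr hA fun z hz h0 => hn ⟨z, hz, (sub_eq_zero.1 h0).symm⟩

end FC

section Matrix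

open Crest.AnalysisR.NumRange

variable {n : ℕ} {A : Matrix (Fin n) (Fin n) ℂ} {Ω : Set ℂ}

theorem spectrum_subset_numRange (A : Matrix (Fin n) (Fin n) ℂ) : spectrum ℂ A ⊆ numRange A := by
  intro μ hμ
  rw [← Matrix.spectrum_toLpLin 2] at hμ
  obtain ⟨v, hv⟩ := (Module.End.hasEigenvalue_iff_mem_spectrum.2 hμ).exists_hasEigenvector
  have hv0 : ‖v‖ ≠ 0 := norm_ne_zero_iff.2 hv.2
  refine ⟨((‖v‖⁻¹ : ℝ) : ℂ) • v, ?_, ?_⟩
  · rw [norm_smul]; simp [hv0]
  · rw [map_smul, hv.apply_eq_smul, inner_smul_left, inner_smul_right, inner_smul_right,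
      inner_self_eq_norm_sq_to_K]
    have : (‖v‖ : ℂ) ≠ 0 := by exact_mod_cast hv0
    rw [Complex.conj_ofReal]
    simp only [Complex.ofReal_inv, Complex.coe_algebraMap]
    field_simp

theorem isRoot_charpoly_mem (hA : numRange A ⊆ Ω) : ∀ μ, A.charpoly.IsRoot μ → μ ∈ Ω :=
  fun _ hμ => hA (spectrum_subset_numRange A (Matrix.mem_spectrum_iff_isRoot_charpoly.2 hμ))

/-- `AgreesOnSpectrum` realises the functional calculus. -/
theorem FC.of_agrees (hΩ : IsOpen Ω) (hr : ∀ μ, A.charpoly.IsRoot μ → μ ∈ Ω) {f : ℂ → ℂ}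
    (hf : DifferentiableOn ℂ f Ω) {p : ℂ[X]} (hp : AgreesOnSpectrum A f p) :
    FC A.charpoly A Ω f (Polynomial.aeval A p) := by
  have hd : DifferentiableOn ℂ (fun z => f z - p.eval z) Ω := hf.sub p.differentiableOn
  obtain ⟨g, hg, hq⟩ := exists_eq_rootPoly_mul hΩ A.charpoly.roots
    (fun μ hμ => hr μ (isRoot_of_mem_roots hμ)) hd (by
      intro μ hμ
      have hroot := isRoot_of_mem_roots hμ
      have hμΩ := hr μ hroot
      have h1 : A.charpoly.roots.count μ ≤ n := by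
        refine (Multiset.count_le_card _ _).trans ((card_roots' _).trans ?_)
        simp [Matrix.charpoly_natDegree_eq_dim]
      refine le_trans (Nat.cast_le.2 h1) ?_
      rw [natCast_le_analyticOrderAt_iff_iteratedDeriv_eq_zero (hd.analyticOnNhd hΩ μ hμΩ)]
      intro i hi
      rw [iteratedDeriv_fun_sub (hf.analyticOnNhd hΩ μ hμΩ).contDiffAt
        (p.differentiableOn.analyticOnNhd hΩ μ hμΩ).contDiffAt,
        hp μ (Matrix.mem_spectrum_iff_isRoot_charpoly.2 hroot) i hi, sub_self])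
  rw [rootPoly_roots A.charpoly_monic] at hq
  exact ⟨p, g, hg, fun z _ => by linear_combination hq z, rfl⟩

/-- The complete Crouzeix bound for holomorphic matrix functions on `Ω`, in coordinates. -/
def CoreBound (A : Matrix (Fin n) (Fin n) ℂ) (Ω : Set ℂ) : Prop :=
  ∀ (ι : Type) [Fintype ι] (F : ι → ι → ℂ → ℂ) (T : ι → ι → Matrix (Fin n) (Fin n) ℂ),
    (∀ i j, FC A.charpoly A Ω (F i j) (T i j)) →
    (∀ z ∈ Ω, ∀ e : ι → ℂ, ∑ i, ‖∑ j, F i j z * e j‖ ^ 2 ≤ ∑ j, ‖e j‖ ^ 2) →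
    ∀ v : ι → Fin n → ℂ,
      ∑ i, ∑ a, ‖(∑ j, (T i j).mulVec (v j)) a‖ ^ 2 ≤ 4 * ∑ j, ∑ a, ‖v j a‖ ^ 2

end Matrix

end Crest.Agent.R132
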