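import Mathlib
import Crest.Agent.R132.Contr

/-!
The `L²` argument for the complete Crouzeix inequality.
-/

set_option autoImplicit false

open Metric Complex Set Filter Topology Polynomial
open scoped ComplexConjugate ComplexOrder

namespace Crest.Agent.R132

variable {ρ : ℝ} {K : Type*} [NormedAddCommGroup K] [InnerProductSpace ℂ K]
variable {ι : Type*} [Fintype ι]

lemma two_re_mul_le (a b : ℂ) : 2 * (a * b).re ≤ ‖a‖ ^ 2 + ‖b‖ ^ 2 := by
  have h1 : (a * b).re ≤ ‖a‖ * ‖b‖ := (Complex.re_le_norm _).trans (norm_mul a b).le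
  nlinarith [sq_nonneg (‖a‖ - ‖b‖)]

lemma pw_left {Φ : ι → ι → ℂ}
    (hΦ : ∀ e : ι → ℂ, ∑ i, ‖∑ j, Φ i j * e j‖ ^ 2 ≤ ∑ j, ‖e j‖ ^ 2) (G γ : ι → ι → ℂ) :
    2 * (∑ i, ∑ j, ∑ k, G k j * Φ i k * γ i j).re ≤
      ∑ i, ∑ j, ‖G i j‖ ^ 2 + ∑ i, ∑ j, ‖γ i j‖ ^ 2 := by
  have h1 : 2 * (∑ i, ∑ j, ∑ k, G k j * Φ i k * γ i j).re ≤
      ∑ i, ∑ j, (‖∑ k, Φ i k * G k j‖ ^ 2 + ‖γ i j‖ ^ 2) := by
    rw [re_sum, Finset.mul_sum]
    refine Finset.sum_le_sum fun i _ => ?_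
    rw [re_sum, Finset.mul_sum]
    refine Finset.sum_le_sum fun j _ => ?_
    refine le_of_eq_of_le ?_ (two_re_mul_le (∑ k, Φ i k * G k j) (γ i j))
    congr 2
    rw [Finset.sum_mul]
    exact Finset.sum_congr rfl fun k _ => by ring
  refine h1.trans ?_
  simp only [Finset.sum_add_distrib]
  gcongr ?_ + _
  rw [Finset.sum_comm, Finset.sum_comm (f := fun i j => ‖G i j‖ ^ 2)]
  exact Finset.sum_le_sum fun j _ => hΦ fun k => G k j

lemma pw_right {Φ : ι → ι → ℂ}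
    (hΦ : ∀ e : ι → ℂ, ∑ i, ‖∑ j, Φ i j * e j‖ ^ 2 ≤ ∑ j, ‖e j‖ ^ 2) (G γ : ι → ι → ℂ) :
    2 * (∑ i, ∑ k, ∑ j, G i k * Φ k j * γ i j).re ≤
      ∑ i, ∑ j, ‖G i j‖ ^ 2 + ∑ i, ∑ j, ‖γ i j‖ ^ 2 := by
  have h1 : 2 * (∑ i, ∑ k, ∑ j, G i k * Φ k j * γ i j).re ≤
      ∑ i, ∑ k, (‖G i k‖ ^ 2 + ‖∑ j, Φ k j * γ i j‖ ^ 2) := by
    rw [re_sum, Finset.mul_sum]
    refine Finset.sum_le_sum fun i _ => ?_
    rw [re_sum, Finset.mul_sum]
    refine Finset.sum_le_sum fun k _ => ?_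
    refine le_of_eq_of_le ?_ (two_re_mul_le (G i k) (∑ j, Φ k j * γ i j))
    congr 2
    rw [Finset.mul_sum]
    exact Finset.sum_congr rfl fun j _ => by ring
  refine h1.trans ?_
  simp only [Finset.sum_add_distrib]
  gcongr _ + ?_
  exact Finset.sum_le_sum fun i _ => hΦ fun j => γ i j

/-- Gram form of `B + B*`. -/
noncomputable def gr (B : K →L[ℂ] K) (v w : K) : ℂ := inner ℂ v (B w) + conj (inner ℂ w (B v))

lemma conj_gr (B : K →L[ℂ] K) (v w : K) : conj (gr B v w) = gr B w v := by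
  simp only [gr, map_add, Complex.conj_conj, add_comm]

lemma schur_signs {B : K →L[ℂ] K} (hB : ∀ v, 0 ≤ (inner ℂ v (B v)).re) (u u' : ι → K) :
    2 * ∑ i, ∑ j, ‖gr B (u' i) (u j)‖ ^ 2 ≤
      ∑ i, ∑ j, ‖gr B (u i) (u j)‖ ^ 2 + ∑ i, ∑ j, ‖gr B (u' i) (u' j)‖ ^ 2 := by
  classical
  set w : ι ⊕ ι → K := Sum.elim u u' with hw
  set Γ : Matrix (ι ⊕ ι) (ι ⊕ ι) ℂ := Matrix.of fun s t => gr B (w s) (w t) with hΓ
  have hP : Γ.PosSemidef := by
    refine Matrix.PosSemidef.of_dotProduct_mulVec_nonneg ?_ fun x => ?_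
    · ext s t
      simp [hΓ, Matrix.conjTranspose_apply, conj_gr]
    · set v := ∑ t, x t • w t with hv
      have e1 : inner ℂ v (B v) = ∑ s, ∑ t, conj (x s) * (inner ℂ (w s) (B (w t)) * x t) := by
        simp only [hv, map_sum, map_smul, sum_inner, inner_sum, inner_smul_left, inner_smul_right]
        rw [Finset.sum_comm]
        simp only [Finset.mul_sum]
        exact Finset.sum_congr rfl fun s _ => Finset.sum_congr rfl fun t _ => by ring
      have e2 : star x ⬝ᵥ Γ.mulVec x = inner ℂ v (B v) + conj (inner ℂ v (B v)) := by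
        rw [e1]
        simp only [dotProduct, Matrix.mulVec, hΓ, Matrix.of_apply, gr, Pi.star_apply,
          Finset.mul_sum, add_mul, mul_add, Finset.sum_add_distrib, map_sum, map_mul,
          Complex.conj_conj, RCLike.star_def]
        congr 1
        rw [Finset.sum_comm]
        exact Finset.sum_congr rfl fun s _ => Finset.sum_congr rfl fun t _ => by ring
      rw [e2, Complex.add_conj]
      exact_mod_cast mul_nonneg zero_le_two (hB v)
  have h2 := (hP.hadamard hP.transpose).dotProduct_mulVec_nonneg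
    (Sum.elim (fun _ => 1) (fun _ => -1))
  have e3 : ∀ v v', gr B v v' * gr B v' v = ((‖gr B v v'‖ ^ 2 : ℝ) : ℂ) := by
    intro v v'
    rw [← conj_gr B v v', Complex.mul_conj, Complex.normSq_eq_norm_sq]
  have e4 : ∑ i, ∑ j, ‖gr B (u i) (u' j)‖ ^ 2 = ∑ i, ∑ j, ‖gr B (u' i) (u j)‖ ^ 2 := by
    rw [Finset.sum_comm]
    refine Finset.sum_congr rfl fun i _ => Finset.sum_congr rfl fun j _ => ?_
    rw [← conj_gr, Complex.norm_conj]
  simp only [dotProduct, Matrix.mulVec, hΓ, Matrix.hadamard_apply, Matrix.transpose_apply,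
    Matrix.of_apply, Fintype.sum_sum_type, hw, Sum.elim_inl, Sum.elim_inr, Pi.star_apply, e3,
    star_one, star_neg, one_mul, mul_one, mul_neg, neg_mul, Finset.sum_add_distrib,
    Finset.sum_neg_distrib, neg_add_rev, neg_neg, ← Complex.ofReal_sum, ← Complex.ofReal_neg,
    ← Complex.ofReal_add, Complex.zero_le_real, e4] at h2
  linarith

lemma test_estimate (hρ : 0 < ρ) {σ : ℂ → ℂ} {A : K →L[ℂ] K} {B : ℂ → K →L[ℂ] K}
    (hB : ∀ v' v, DifferentiableOn ℂ (fun x => inner ℂ v' (B x v)) (closedBall 0 ρ))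
    (hB0 : B 0 = 1) {F : ℕ → ℂ[X]}
    (hest : ∀ N c₀ c, av ρ (fun x => ‖(C c₀ + ∑ n ∈ Finset.range N, C (c n) * F n).eval (σ x)‖ ^ 2)
      ≤ ‖c₀‖ ^ 2 + 2 * wS ρ N c)
    (hFA : ∀ n v' v, inner ℂ v' (aeval A (F n) v) = tc (n + 1) (fun x => inner ℂ v' (B x v)))
    (w : ι → K) (κ g : ℝ)
    (htest : ∀ G : ι → ι → ℂ[X], 2 * (κ * (∑ i, ∑ j, inner ℂ (w i) (aeval A (G i j) (w j))).re) ≤
      ∑ i, ∑ j, av ρ (fun x => ‖(G i j).eval (σ x)‖ ^ 2) + g) :
    κ ^ 2 * ∑ i, ∑ j, av ρ (fun x => ‖gr (B x) (w i) (w j)‖ ^ 2) ≤ 4 * g := by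
  set a : ℕ → ι → ι → ℂ := fun n i j => tc n (fun x => inner ℂ (w i) (B x (w j))) with ha
  have a0 : ∀ i j, a 0 i j = inner ℂ (w i) (w j) := by
    intro i j; simp [ha, tc_zero, hB0]
  have hN : ∀ N, κ ^ 2 * ∑ i, ∑ j, (‖a 0 i j‖ ^ 2 +
      ∑ n ∈ Finset.range (N + 1), ρ ^ (2 * n) * ‖a n i j‖ ^ 2) ≤ 2 * g := by
    intro N
    have h1 := htest fun i j => C ((κ : ℂ) * conj (a 0 i j)) + ∑ n ∈ Finset.range N,
      C (((κ / 2 * ρ ^ (2 * (n + 1)) : ℝ) : ℂ) * conj (a (n + 1) i j)) * F n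
    have e1 : ∀ i j, inner ℂ (w i) (aeval A (C ((κ : ℂ) * conj (a 0 i j)) + ∑ n ∈ Finset.range N,
        C (((κ / 2 * ρ ^ (2 * (n + 1)) : ℝ) : ℂ) * conj (a (n + 1) i j)) * F n) (w j)) =
        ((κ / 2 * (‖a 0 i j‖ ^ 2 +
          ∑ n ∈ Finset.range (N + 1), ρ ^ (2 * n) * ‖a n i j‖ ^ 2) : ℝ) : ℂ) := by
      intro i j
      simp only [map_add, map_sum, ← smul_eq_C_mul, map_smul, aeval_C,
        Algebra.algebraMap_eq_smul_one, add_apply,
        sum_apply, smul_apply,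
        one_apply_eq_self, inner_add_right, inner_sum, inner_smul_right, hFA, ← a0]
      simp only [mul_assoc, Complex.conj_mul', Finset.sum_range_succ', ha]
      push_cast
      rw [mul_add, mul_add, Finset.mul_sum]
      simp only [mul_assoc]
      ring
    have e2 : ∀ i j, av ρ (fun x => ‖(C ((κ : ℂ) * conj (a 0 i j)) + ∑ n ∈ Finset.range N,
        C (((κ / 2 * ρ ^ (2 * (n + 1)) : ℝ) : ℂ) * conj (a (n + 1) i j)) * F n).eval (σ x)‖ ^ 2) ≤
        κ ^ 2 / 2 * (‖a 0 i j‖ ^ 2 +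
          ∑ n ∈ Finset.range (N + 1), ρ ^ (2 * n) * ‖a n i j‖ ^ 2) := by
      intro i j
      refine (hest N _ _).trans (le_of_eq ?_)
      simp only [wS, norm_mul, Complex.norm_conj, Complex.norm_real, mul_pow, Real.norm_eq_abs,
        sq_abs, Finset.sum_range_succ']
      rw [mul_add, mul_add, Finset.mul_sum, Finset.mul_sum]
      have : ∀ n ∈ Finset.range N, 2 * ((ρ ^ 2)⁻¹ ^ (n + 1) * ((κ / 2) ^ 2 *
          (ρ ^ (2 * (n + 1))) ^ 2 * ‖a (n + 1) i j‖ ^ 2)) =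
          κ ^ 2 / 2 * (ρ ^ (2 * (n + 1)) * ‖a (n + 1) i j‖ ^ 2) := by
        intro n _
        rw [inv_pow, ← pow_mul]
        have : ρ ^ (2 * (n + 1)) ≠ 0 := by positivity
        field_simp
      rw [Finset.sum_congr rfl this]
      ring
    have h2 := h1.trans (add_le_add (Finset.sum_le_sum fun i _ => Finset.sum_le_sum
      fun j _ => e2 i j) le_rfl)
    simp only [e1, ← Complex.ofReal_sum, ofReal_re, ← Finset.mul_sum] at h2
    linarith
  have hlim : Tendsto (fun N => κ ^ 2 * ∑ i, ∑ j, (‖a 0 i j‖ ^ 2 +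
      ∑ n ∈ Finset.range (N + 1), ρ ^ (2 * n) * ‖a n i j‖ ^ 2)) atTop
      (𝓝 (κ ^ 2 * ∑ i, ∑ j, (‖a 0 i j‖ ^ 2 +
        av ρ (fun x => ‖inner ℂ (w i) (B x (w j))‖ ^ 2)))) := by
    refine Tendsto.const_mul _ (tendsto_finsetSum _ fun i _ => tendsto_finsetSum _ fun j _ =>
      Tendsto.const_add _ ?_)
    exact ((hasSum_parseval hρ (hB (w i) (w j))).tendsto_sum_nat).comp (tendsto_add_atTop_nat 1)
  have h3 := le_of_tendsto' hlim hN
  have e3 : ∀ i j, av ρ (fun x => ‖gr (B x) (w i) (w j)‖ ^ 2) =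
      (‖a 0 i j‖ ^ 2 + av ρ (fun x => ‖inner ℂ (w i) (B x (w j))‖ ^ 2)) +
      (‖a 0 j i‖ ^ 2 + av ρ (fun x => ‖inner ℂ (w j) (B x (w i))‖ ^ 2)) := by
    intro i j
    simp only [gr]
    rw [av_norm_add_conj hρ (hB _ _) (hB _ _), hB0, a0, a0, ← inner_conj_symm (w j) (w i)]
    simp only [one_apply_eq_self, Complex.norm_conj]
    rw [← inner_conj_symm (w j) (w i), Complex.mul_conj, Complex.normSq_eq_norm_sq, ofReal_re]
    ring
  have e4 : ∑ i, ∑ j, av ρ (fun x => ‖gr (B x) (w i) (w j)‖ ^ 2) = 2 * ∑ i, ∑ j, (‖a 0 i j‖ ^ 2 +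
        av ρ (fun x => ‖inner ℂ (w i) (B x (w j))‖ ^ 2)) := by
    rw [two_mul]
    nth_rewrite 3 [Finset.sum_comm]
    simp only [e3, ← Finset.sum_add_distrib]
  rw [e4]
  linarith

theorem l2_main (hρ : 0 < ρ) {σ : ℂ → ℂ} (hσ : ContinuousOn σ (sphere 0 ρ))
    {A : K →L[ℂ] K} {B : ℂ → K →L[ℂ] K}
    (hB : ∀ v' v, DifferentiableOn ℂ (fun x => inner ℂ v' (B x v)) (closedBall 0 ρ))
    (hB0 : B 0 = 1) (hpos : ∀ x ∈ sphere (0 : ℂ) ρ, ∀ v, 0 ≤ (inner ℂ v (B x v)).re)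
    {F : ℕ → ℂ[X]}
    (hest : ∀ N c₀ c, av ρ (fun x => ‖(C c₀ + ∑ n ∈ Finset.range N, C (c n) * F n).eval (σ x)‖ ^ 2)
      ≤ ‖c₀‖ ^ 2 + 2 * wS ρ N c)
    (hFA : ∀ n v' v, inner ℂ v' (aeval A (F n) v) = tc (n + 1) (fun x => inner ℂ v' (B x v)))
    {T : ι → ι → K →L[ℂ] K} {Φ : ι → ι → ℂ → ℂ} (hΦc : ∀ i j, ContinuousOn (Φ i j) (sphere 0 ρ))
    (hΦ : ∀ x ∈ sphere (0 : ℂ) ρ, ∀ e : ι → ℂ, ∑ i, ‖∑ j, Φ i j x * e j‖ ^ 2 ≤ ∑ j, ‖e j‖ ^ 2)
    (hθ : ∀ i j (q : ℂ[X]) v' v, av ρ (fun x => q.eval (σ x) * Φ i j x * inner ℂ v' (B x v)) =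
      inner ℂ v' (T i j (aeval A q v)))
    (hcomm : ∀ i j (q : ℂ[X]) v, T i j (aeval A q v) = aeval A q (T i j v))
    {u u' : ι → K} {κ : ℝ} (h1 : ∀ i, ∑ j, T i j (u j) = (κ : ℂ) • u' i)
    (h2 : ∀ v : ι → K, ∑ i, inner ℂ (u' i) (∑ j, T i j (v j)) = κ * ∑ j, inner ℂ (u j) (v j))
    (hu : u ≠ 0) : κ ^ 2 ≤ 4 := by
  have cB := fun v' v => contOn_of_holo (hB v' v)
  have cq : ∀ q : ℂ[X], ContinuousOn (fun x => q.eval (σ x)) (sphere 0 ρ) :=
    fun q => q.continuous.comp_continuousOn hσ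
  have cgr : ∀ v v', ContinuousOn (fun x => gr (B x) v v') (sphere 0 ρ) :=
    fun v v' => (cB _ _).add (contOn_conj (cB _ _))
  set g := ∑ i, ∑ j, av ρ (fun x => ‖inner ℂ (u' i) (B x (u j))‖ ^ 2) with hg
  have cs : ∀ f : ι → ι → ℂ → ℂ, (∀ i j, ContinuousOn (f i j) (sphere 0 ρ)) →
      ContinuousOn (fun x => ∑ i, ∑ j, ‖f i j x‖ ^ 2) (sphere 0 ρ) := fun f hf =>
    continuousOn_finsetSum _ fun i _ => continuousOn_finsetSum _ fun j _ => (hf i j).norm.pow 2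
  have avs : ∀ f : ι → ι → ℂ → ℂ, (∀ i j, ContinuousOn (f i j) (sphere 0 ρ)) →
      av ρ (fun x => ∑ i, ∑ j, ‖f i j x‖ ^ 2) = ∑ i, ∑ j, av ρ (fun x => ‖f i j x‖ ^ 2) := by
    intro f hf
    rw [av_sum hρ _ fun i _ => continuousOn_finsetSum _ fun j _ => (hf i j).norm.fun_pow 2]
    exact Finset.sum_congr rfl fun i _ => av_sum hρ _ fun j _ => (hf i j).norm.pow 2
  have av3 : ∀ f : ι → ι → ι → ℂ → ℂ, (∀ i j k, ContinuousOn (f i j k) (sphere 0 ρ)) →
      av ρ (fun x => 2 * (∑ i, ∑ j, ∑ k, f i j k x).re) =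
        2 * (∑ i, ∑ j, ∑ k, av ρ (f i j k)).re := by
    intro f hf
    rw [av_rmul, av_re hρ (continuousOn_finsetSum _ fun i _ => continuousOn_finsetSum _
      fun j _ => continuousOn_finsetSum _ fun k _ => hf i j k),
      av_sum hρ _ fun i _ => continuousOn_finsetSum _
        fun j _ => continuousOn_finsetSum _ fun k _ => hf i j k]
    congr 2
    refine Finset.sum_congr rfl fun i _ => ?_
    rw [av_sum hρ _ fun j _ => continuousOn_finsetSum _ fun k _ => hf i j k]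
    exact Finset.sum_congr rfl fun j _ => av_sum hρ _ fun k _ => hf i j k
  have c3 : ∀ f : ι → ι → ι → ℂ → ℂ, (∀ i j k, ContinuousOn (f i j k) (sphere 0 ρ)) →
      ContinuousOn (fun x => 2 * (∑ i, ∑ j, ∑ k, f i j k x).re) (sphere 0 ρ) := fun f hf =>
    continuousOn_const.mul (contOn_re (continuousOn_finsetSum _ fun i _ => continuousOn_finsetSum _
      fun j _ => continuousOn_finsetSum _ fun k _ => hf i j k))
  have ha := test_estimate hρ hB hB0 hest hFA u κ g (by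
    intro G
    have cf : ∀ i j k, ContinuousOn (fun x => (G k j).eval (σ x) * Φ i k x *
        inner ℂ (u' i) (B x (u j))) (sphere 0 ρ) :=
      fun i j k => ((cq _).mul (hΦc _ _)).mul (cB _ _)
    have m := av_mono hρ (c3 _ cf) ((cs _ fun i j => cq (G i j)).add
      (cs _ fun i j => cB (u' i) (u j))) fun x hx => pw_left (hΦ x hx) _ _
    have e := h2 fun k => ∑ j, aeval A (G k j) (u j)
    rw [av3 _ cf, Pi.add_def, av_add hρ (cs _ fun i j => cq (G i j))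
      (cs _ fun i j => cB (u' i) (u j)), avs _ fun i j => cq (G i j),
      avs _ fun i j => cB (u' i) (u j)] at m
    simp only [hθ] at m
    simp only [inner_sum, map_sum] at e
    rw [← re_ofReal_mul, ← e]
    convert m using 4 with i
    exact Finset.sum_comm)
  have hb := test_estimate hρ hB hB0 hest hFA u' κ g (by
    intro G
    have cf : ∀ i k j, ContinuousOn (fun x => (G i k).eval (σ x) * Φ k j x *
        inner ℂ (u' i) (B x (u j))) (sphere 0 ρ) :=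
      fun i k j => ((cq _).mul (hΦc _ _)).mul (cB _ _)
    have m := av_mono hρ (c3 _ cf) ((cs _ fun i j => cq (G i j)).add
      (cs _ fun i j => cB (u' i) (u j))) fun x hx => pw_right (hΦ x hx) _ _
    rw [av3 _ cf, Pi.add_def, av_add hρ (cs _ fun i j => cq (G i j))
      (cs _ fun i j => cB (u' i) (u j)), avs _ fun i j => cq (G i j),
      avs _ fun i j => cB (u' i) (u j)] at m
    simp only [hθ, hcomm, ← inner_sum, ← map_sum, h1, map_smul, inner_smul_right,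
      ← Finset.mul_sum, re_ofReal_mul] at m
    simpa only [← inner_sum] using m)
  have hc : g ≤ ∑ i, ∑ j, av ρ (fun x => ‖gr (B x) (u' i) (u j)‖ ^ 2) := by
    refine Finset.sum_le_sum fun i _ => Finset.sum_le_sum fun j _ => ?_
    simp only [gr]
    rw [av_norm_add_conj hρ (hB _ _) (hB _ _), hB0]
    simp only [one_apply_eq_self]
    rw [← inner_conj_symm (u j) (u' i), Complex.mul_conj, ofReal_re]
    have := av_nonneg hρ (f := fun x => ‖inner ℂ (u j) (B x (u' i))‖ ^ 2) fun x _ => by positivity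
    have := normSq_nonneg (inner ℂ (u' i) (u j))
    linarith
  have hs := av_mono hρ (continuousOn_const.mul (cs _ fun i j => cgr (u' i) (u j)))
    ((cs _ fun i j => cgr (u i) (u j)).add (cs _ fun i j => cgr (u' i) (u' j)))
    fun x hx => schur_signs (hpos x hx) u u'
  rw [Pi.add_def, Pi.mul_def, av_rmul, av_add hρ (cs _ fun i j => cgr (u i) (u j))
    (cs _ fun i j => cgr (u' i) (u' j)), avs _ fun i j => cgr (u i) (u j),
    avs _ fun i j => cgr (u' i) (u' j), avs _ fun i j => cgr (u' i) (u j)] at hs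
  have nn : ∀ v v', 0 ≤ av ρ (fun x => ‖gr (B x) v v'‖ ^ 2) :=
    fun v v' => av_nonneg hρ fun x _ => by positivity
  have hb0 : 0 ≤ ∑ i, ∑ j, av ρ (fun x => ‖gr (B x) (u' i) (u' j)‖ ^ 2) :=
    Finset.sum_nonneg fun i _ => Finset.sum_nonneg fun j _ => nn _ _
  have ha0 : 0 < ∑ i, ∑ j, av ρ (fun x => ‖gr (B x) (u i) (u j)‖ ^ 2) := by
    obtain ⟨i, hi⟩ := Function.ne_iff.1 hu
    refine Finset.sum_pos' (fun i _ => Finset.sum_nonneg fun j _ => nn _ _)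
      ⟨i, Finset.mem_univ _, Finset.sum_pos' (fun j _ => nn _ _) ⟨i, Finset.mem_univ _, ?_⟩⟩
    simp only [gr]
    rw [av_norm_add_conj hρ (hB _ _) (hB _ _), hB0]
    simp only [one_apply_eq_self]
    have := av_nonneg hρ (f := fun x => ‖inner ℂ (u i) (B x (u i))‖ ^ 2) fun x _ => by positivity
    have h3 : 0 < ‖u i‖ := norm_pos_iff.2 hi
    have h4 : (inner ℂ (u i) (u i) * inner ℂ (u i) (u i)).re = ‖u i‖ ^ 4 := by
      rw [inner_self_eq_norm_sq_to_K]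
      simp only [Complex.coe_algebraMap, ← Complex.ofReal_pow, ← Complex.ofReal_mul, ofReal_re]
      ring
    rw [h4]
    positivity
  by_contra hn
  push Not at hn
  nlinarith

end Crest.Agent.R132
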