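import Mathlib

/-!
Toeplitz–Hausdorff theorem and singular vectors.
-/

set_option autoImplicit false

open Metric Complex Set Filter Topology
open scoped ComplexConjugate

namespace Crest.Agent.R132

variable {K : Type*} [NormedAddCommGroup K] [InnerProductSpace ℂ K]

/-- numerical range of an operator -/
def NR (A : K →L[ℂ] K) : Set ℂ := {z | ∃ x : K, ‖x‖ = 1 ∧ z = inner ℂ x (A x)}

lemma div_mem_NR (A : K →L[ℂ] K) {y : K} (hy : y ≠ 0) :
    inner ℂ y (A y) / ((‖y‖ ^ 2 : ℝ) : ℂ) ∈ NR A := by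
  have h0 : ‖y‖ ≠ 0 := norm_ne_zero_iff.2 hy
  refine ⟨((‖y‖⁻¹ : ℝ) : ℂ) • y, ?_, ?_⟩
  · rw [norm_smul]; simp [h0]
  · rw [map_smul, inner_smul_left, inner_smul_right, Complex.conj_ofReal]
    have : (‖y‖ : ℂ) ≠ 0 := by exact_mod_cast h0
    push_cast
    field_simp

lemma isCompact_NR [FiniteDimensional ℂ K] (A : K →L[ℂ] K) : IsCompact (NR A) := by
  have : ProperSpace K := FiniteDimensional.proper ℂ K
  have e : NR A = (fun x => inner ℂ x (A x)) '' sphere (0 : K) 1 := by
    ext z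
    simp only [NR, mem_ofPred_eq, mem_image, mem_sphere_zero_iff_norm]
    exact ⟨fun ⟨x, h1, h2⟩ => ⟨x, h1, h2.symm⟩, fun ⟨x, h1, h2⟩ => ⟨x, h1, h2.symm⟩⟩
  rw [e]
  exact (isCompact_sphere _ _).image (by fun_prop)

/-- Toeplitz–Hausdorff. -/
theorem convex_NR (A : K →L[ℂ] K) : Convex ℝ (NR A) := by
  rintro _ ⟨x, hx, rfl⟩ _ ⟨y, hy, rfl⟩ a b ha hb hab
  set α := inner ℂ x (A x) with hα
  set β := inner ℂ y (A y) with hβ
  by_cases hαβ : α = β
  · refine ⟨x, hx, ?_⟩
    rw [← hαβ, ← add_smul, hab, one_smul]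
  have hd : α - β ≠ 0 := sub_ne_zero.2 hαβ
  -- normalised sesquilinear form
  set s : K → K → ℂ := fun u v => (inner ℂ u (A v) - β * inner ℂ u v) / (α - β) with hs
  have hxx : inner ℂ x x = 1 := by rw [inner_self_eq_norm_sq_to_K, hx]; simp
  have hyy : inner ℂ y y = 1 := by rw [inner_self_eq_norm_sq_to_K, hy]; simp
  obtain ⟨l, hl1, hl⟩ : ∃ l : ℂ, ‖l‖ = 1 ∧ (conj l * s x y + l * s y x).im = 0 := by
    set d := s y x - conj (s x y) with hd'
    have key : ∀ l : ℂ, (conj l * s x y + l * s y x).im = (l * d).im := by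
      intro l
      simp only [hd', add_im, mul_im, conj_re, conj_im, sub_re, sub_im]
      ring
    by_cases h0 : d = 0
    · exact ⟨1, by simp, by rw [key, h0]; simp⟩
    · refine ⟨conj d / ‖d‖, ?_, ?_⟩
      · simp [h0]
      · rw [key, div_mul_eq_mul_div, Complex.conj_mul', ← Complex.ofReal_pow, ← Complex.ofReal_div,
          ofReal_im]
  have hll : conj l * l = 1 := by rw [Complex.conj_mul', hl1]; simp
  set z : ℝ → K := fun t => ((t : ℂ) * l) • x + ((1 - t : ℝ) : ℂ) • y with hz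
  have hsz : ∀ t, s (z t) (z t) =
      ((t ^ 2 + t * (1 - t) * (conj l * s x y + l * s y x).re : ℝ) : ℂ) := by
    intro t
    have e : ((conj l * s x y + l * s y x).re : ℂ) = conj l * s x y + l * s y x :=
      Complex.ext (by simp) (by rw [ofReal_im, hl])
    push_cast
    rw [e]
    simp only [hs, hz, map_add, map_smul, inner_add_left, inner_add_right, inner_smul_left,
      inner_smul_right, map_mul, Complex.conj_ofReal, hxx, hyy, ← hα, ← hβ]
    push_cast
    field_simp
    linear_combination ((t : ℂ) ^ 2 * (α - β)) * hll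
  have hz0 : ∀ t ∈ Icc (0 : ℝ) 1, z t ≠ 0 := by
    intro t ht h0
    -- then `t l x = -(1-t) y`
    have e1 : ((t : ℂ) * l) • x = -(((1 - t : ℝ) : ℂ) • y) := eq_neg_of_add_eq_zero_left h0
    have e2 := congrArg norm e1
    rw [norm_neg, norm_smul, norm_smul, hx, hy, norm_mul, hl1, Complex.norm_real, Complex.norm_real,
      Real.norm_of_nonneg ht.1, Real.norm_of_nonneg (by linarith [ht.2])] at e2
    have ht2 : t = 1 / 2 := by linarith
    have e3 : y = -(l • x) := by
      have : ((1 / 2 : ℝ) : ℂ) • y = ((1 / 2 : ℝ) : ℂ) • -(l • x) := by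
        rw [ht2, mul_smul] at e1
        rw [smul_neg, e1, neg_neg]
        norm_num
      exact smul_right_injective _ (by norm_num) this
    apply hαβ
    rw [hβ, e3, map_neg, map_smul, inner_neg_neg, inner_smul_left, inner_smul_right, ← mul_assoc,
      hll, one_mul]
  set f : ℝ → ℝ := fun t => (t ^ 2 + t * (1 - t) * (conj l * s x y + l * s y x).re) / ‖z t‖ ^ 2
    with hf
  have hfc : ContinuousOn f (Icc 0 1) := by
    refine ContinuousOn.div (by fun_prop) (by simp only [hz]; fun_prop) fun t ht => ?_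
    exact pow_ne_zero _ (norm_ne_zero_iff.2 (hz0 t ht))
  have f0 : f 0 = 0 := by simp [hf]
  have f1 : f 1 = 1 := by simp [hf, hz, norm_smul, hl1, hx]
  obtain ⟨t, ht, hta⟩ : a ∈ f '' Icc 0 1 :=
    intermediate_value_Icc zero_le_one hfc (by rw [f0, f1]; exact ⟨ha, by linarith⟩)
  have hm := div_mem_NR A (hz0 t ht)
  convert hm using 1
  have h1 := hsz t
  have hn : ((‖z t‖ ^ 2 : ℝ) : ℂ) ≠ 0 := by
    exact_mod_cast pow_ne_zero _ (norm_ne_zero_iff.2 (hz0 t ht))
  have h2 : (a : ℂ) * ((‖z t‖ ^ 2 : ℝ) : ℂ) = s (z t) (z t) := by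
    rw [h1, ← hta, hf]
    simp only [Complex.ofReal_div]
    exact div_mul_cancel₀ _ hn
  have h3 : inner ℂ (z t) (z t) = ((‖z t‖ ^ 2 : ℝ) : ℂ) := by
    rw [inner_self_eq_norm_sq_to_K]; simp
  simp only [hs, h3] at h2
  have hb' : (b : ℂ) = 1 - a := by rw [← Complex.ofReal_one, ← hab]; push_cast; ring
  rw [eq_div_iff hd] at h2
  rw [eq_div_iff hn, real_smul, real_smul, hb']
  linear_combination h2

/-- singular vectors in finite dimension -/
theorem exists_singular {E : Type*} [NormedAddCommGroup E] [InnerProductSpace ℂ E]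
    [FiniteDimensional ℂ E] (T : E →L[ℂ] E) (hT : T ≠ 0) :
    ∃ u u' : E, u ≠ 0 ∧ T u = (‖T‖ : ℂ) • u' ∧
      ∀ v, inner ℂ u' (T v) = (‖T‖ : ℂ) * inner ℂ u v := by
  have : ProperSpace E := FiniteDimensional.proper ℂ E
  have : CompleteSpace E := FiniteDimensional.complete ℂ E
  have hpos : 0 < ‖T‖ := norm_pos_iff.2 hT
  have hc : (‖T‖ : ℂ) ≠ 0 := by exact_mod_cast hpos.ne'
  have : Nontrivial E := by
    by_contra h
    rw [not_nontrivial_iff_subsingleton] at h
    exact hT (Subsingleton.elim _ _)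
  obtain ⟨u, hu, hmax⟩ := (isCompact_sphere (0 : E) 1).exists_isMaxOn
    (NormedSpace.sphere_nonempty.2 zero_le_one) (f := fun v => ‖T v‖) (by fun_prop)
  have hu1 : ‖u‖ = 1 := mem_sphere_zero_iff_norm.1 hu
  have hTu : ‖T u‖ = ‖T‖ := by
    refine le_antisymm (by simpa [hu1] using T.le_opNorm u) ?_
    refine ContinuousLinearMap.opNorm_le_of_unit_norm (norm_nonneg _) fun v hv => ?_
    exact hmax (mem_sphere_zero_iff_norm.2 hv)
  have key : ContinuousLinearMap.adjoint T (T u) = ((‖T‖ ^ 2 : ℝ) : ℂ) • u := by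
    rw [← sub_eq_zero, ← norm_le_zero_iff, ← pow_le_pow_iff_left₀ (norm_nonneg _) le_rfl two_ne_zero,
      @norm_sub_sq ℂ, inner_smul_right, ContinuousLinearMap.adjoint_inner_left,
      inner_self_eq_norm_sq_to_K, norm_smul, hu1, hTu]
    have h1 : ‖ContinuousLinearMap.adjoint T (T u)‖ ≤ ‖T‖ ^ 2 := by
      refine ((ContinuousLinearMap.adjoint T).le_opNorm _).trans ?_
      rw [LinearIsometryEquiv.norm_map, hTu, sq]
    have h2 := pow_le_pow_left₀ (norm_nonneg _) h1 2
    simp only [Complex.coe_algebraMap, ← Complex.ofReal_pow, ← Complex.ofReal_mul,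
      RCLike.re_to_complex, ofReal_re, Complex.norm_real, Real.norm_eq_abs, mul_one, sq_abs]
    nlinarith
  refine ⟨u, (‖T‖ : ℂ)⁻¹ • T u, by rintro rfl; simp at hu1, ?_, fun v => ?_⟩
  · rw [smul_smul, mul_inv_cancel₀ hc, one_smul]
  · rw [inner_smul_left, ← ContinuousLinearMap.adjoint_inner_left, key, inner_smul_left,
      Complex.conj_ofReal, map_inv₀, Complex.conj_ofReal]
    push_cast
    field_simp

end Crest.Agent.R132
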