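import Mathlib
import Crest.Agent.R132.L2
import Crest.Agent.R132.NumRange
import Crest.Agent.R132.FC

/-!
The complete Crouzeix inequality for holomorphic matrix functions in finite dimension.
-/

set_option autoImplicit false

open Metric Complex Set Filter Topology Polynomial
open scoped ComplexConjugate

namespace Crest.Agent.R132

variable {K : Type*} [NormedAddCommGroup K] [InnerProductSpace ℂ K] [FiniteDimensional ℂ K]
variable {ι : Type*} [Fintype ι]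

omit [FiniteDimensional ℂ K] in
lemma exists_inner_eq {A : K →L[ℂ] K} {W : Set ℂ} (hW : NR A ⊆ W) (h0 : (0 : ℂ) ∈ W) (y : K) :
    ∃ z ∈ W, inner ℂ y (A y) = ((‖y‖ ^ 2 : ℝ) : ℂ) * z := by
  by_cases hy : y = 0
  · exact ⟨0, h0, by simp [hy]⟩
  · refine ⟨_, hW (div_mem_NR A hy), ?_⟩
    have : ((‖y‖ ^ 2 : ℝ) : ℂ) ≠ 0 := by exact_mod_cast pow_ne_zero _ (norm_ne_zero_iff.2 hy)
    field_simp

omit [FiniteDimensional ℂ K] in
lemma inner_one_sub (A : K →L[ℂ] K) (c : ℂ) {y : K} {z : ℂ}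
    (hz : inner ℂ y (A y) = ((‖y‖ ^ 2 : ℝ) : ℂ) * z) :
    inner ℂ y ((1 - c • A) y) = ((‖y‖ ^ 2 : ℝ) : ℂ) * (1 - z * c) := by
  rw [sub_apply, one_apply_eq_self, smul_apply, inner_sub_right, inner_smul_right, hz,
    inner_self_eq_norm_sq_to_K]
  simp only [Complex.coe_algebraMap]
  push_cast
  ring

lemma isUnit_one_sub {A : K →L[ℂ] K} {W : Set ℂ} (hW : NR A ⊆ W) (h0 : (0 : ℂ) ∈ W) {c : ℂ}
    (hc : ∀ z ∈ W, z * c ≠ 1) : IsUnit (1 - c • A) := by
  have : CompleteSpace K := FiniteDimensional.complete ℂ K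
  rw [ContinuousLinearMap.isUnit_iff_bijective]
  have hinj : Function.Injective (1 - c • A : K →L[ℂ] K) := by
    rw [injective_iff_map_eq_zero]
    intro y hy
    obtain ⟨z, hzW, hz⟩ := exists_inner_eq hW h0 y
    have := inner_one_sub A c hz
    rw [hy, inner_zero_right] at this
    rcases mul_eq_zero.1 this.symm with h | h
    · simpa using h
    · exact absurd (sub_eq_zero.1 h).symm (hc z hzW)
  exact ⟨hinj, (LinearMap.injective_iff_surjective
    (f := ((1 - c • A : K →L[ℂ] K) : K →ₗ[ℂ] K))).1 hinj⟩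

theorem kappa_le {A : K →L[ℂ] K} {χ : ℂ[X]} (hχ : aeval A χ = 0) {Ω W : Set ℂ} (hΩ : IsOpen Ω)
    (hΩc : Convex ℝ Ω) (hW : IsCompact W) (hWc : Convex ℝ W) (h0 : W ∈ 𝓝 (0 : ℂ))
    (hAW : NR A ⊆ W) (hWΩ : W ⊆ Ω) {Φ : ι → ι → ℂ → ℂ} {T : ι → ι → K →L[ℂ] K}
    (hF : ∀ i j, FC χ A Ω (Φ i j) (T i j))
    (hΦ : ∀ z ∈ Ω, ∀ e : ι → ℂ, ∑ i, ‖∑ j, Φ i j z * e j‖ ^ 2 ≤ ∑ j, ‖e j‖ ^ 2)
    {u u' : ι → K} {κ : ℝ} (h1 : ∀ i, ∑ j, T i j (u j) = (κ : ℂ) • u' i)
    (h2 : ∀ v : ι → K, ∑ i, inner ℂ (u' i) (∑ j, T i j (v j)) = κ * ∑ j, inner ℂ (u j) (v j))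
    (hu : u ≠ 0) : κ ^ 2 ≤ 4 := by
  have : CompleteSpace K := FiniteDimensional.complete ℂ K
  have h0W : (0 : ℂ) ∈ W := mem_of_mem_nhds h0
  obtain ⟨φ, H⟩ := exists_conf hW hWc h0
  obtain ⟨F, ψ, hψ, hψ0, hFab⟩ := H.exists_faber
  obtain ⟨δ, hδ, hth⟩ := hW.exists_thickening_subset_open hΩ hWΩ
  obtain ⟨ρ₀, hρ₀, hap⟩ := H.approach δ hδ
  obtain ⟨ρ, hρa, hρ1⟩ := exists_between (max_lt hρ₀ one_pos)
  have hρ : 0 < ρ := (le_max_right _ _).trans_lt hρa
  have hs := closedBall_subset_ball_one hρ1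
  have hσΩ : MapsTo (fun x => (φ x)⁻¹) (sphere 0 ρ) Ω := by
    intro x hx
    have hxn := norm_of_mem_sphere hx
    obtain ⟨z, hz, hzx⟩ := hap x (by rw [hxn]; exact (le_max_left _ _).trans_lt hρa)
      (by rw [hxn]; exact hρ1)
    exact hth (mem_thickening_iff.2 ⟨z, hz, by rw [dist_comm, dist_eq_norm]; exact hzx⟩)
  have hun : ∀ x ∈ ball (0 : ℂ) 1, IsUnit (1 - φ x • A) :=
    fun x hx => isUnit_one_sub hAW h0W (H.ne_one x hx)
  set B : ℂ → K →L[ℂ] K := fun x => cc φ x • Ring.inverse (1 - φ x • A) with hBdef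
  have dB : DifferentiableOn ℂ B (ball 0 1) :=
    H.cc_diff.smul (((differentiableOn_const _).sub (H.diff.smul_const A)).inverse hun)
  have hB : ∀ v' v, DifferentiableOn ℂ (fun x => inner ℂ v' (B x v)) (closedBall 0 ρ) :=
    fun v' v => (innerSL ℂ v').differentiable.comp_differentiableOn
      ((dB.mono hs).clm_apply (differentiableOn_const v))
  have hB0 : B 0 = 1 := by simp [hBdef, H.cc_zero, H.zero]
  have cB := fun v' v => contOn_of_holo (hB v' v)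
  have hσ := H.sig_cont hρ hρ1
  have hmod : ∀ (g : ℂ → ℂ), DifferentiableOn ℂ g Ω → ∀ (q : ℂ[X]) v' v,
      av ρ (fun x => q.eval (φ x)⁻¹ * g (φ x)⁻¹ * inner ℂ v' (B x v)) =
        av ρ (fun x => g (φ x)⁻¹ * inner ℂ v' (B x (aeval A q v))) := by
    intro g hg q v' v
    have : IsScalarTower ℂ (K →L[ℂ] K) K := ⟨fun _ _ _ => rfl⟩
    refine av_module (𝒜 := K →L[ℂ] K) (V := K) hρ A
      (fun x => ((innerSL ℂ v').comp (B x) : K →ₗ[ℂ] ℂ)) (fun v => inner ℂ v' v) hσ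
      (H.e_cont hρ hρ1) (fun v => cB v' v) (fun x hx v => ?_) hσΩ
      (H.av_van hρ hρ1 hΩ hΩc hσΩ) hg q v
    have hx1 := sphere_subset_ball_one hρ1 hx
    have hφ := mul_inv_cancel₀ (H.phi_ne hx1 (ne_zero_of_mem_sphere hρ hx))
    have e := congrArg (fun S : K →L[ℂ] K => inner ℂ v' (S v))
      (Ring.inverse_mul_cancel _ (hun x hx1))
    simp only [mul_apply_eq_comp, sub_apply, one_apply_eq_self, smul_apply, map_sub,
      map_smul, inner_sub_right, inner_smul_right] at e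
    change (φ x)⁻¹ * inner ℂ v' (B x v) =
      inner ℂ v' (B x (A v)) + cc φ x * (φ x)⁻¹ * inner ℂ v' v
    simp only [hBdef, smul_apply, inner_smul_right]
    linear_combination (cc φ x * (φ x)⁻¹) * e +
      (cc φ x * inner ℂ v' ((Ring.inverse (1 - φ x • A)) (A v))) * hφ
  have hpoly : ∀ (q : ℂ[X]) v' v,
      av ρ (fun x => q.eval (φ x)⁻¹ * inner ℂ v' (B x v)) = inner ℂ v' (aeval A q v) := by
    intro q v' v
    have := hmod (fun _ => 1) (differentiableOn_const _) q v' v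
    simp only [mul_one, one_mul] at this
    rw [this, av_holo hρ (hB _ _), hB0, one_apply_eq_self]
  have cq : ∀ q : ℂ[X], ContinuousOn (fun x => q.eval (φ x)⁻¹) (sphere 0 ρ) :=
    fun q => q.continuous.comp_continuousOn hσ
  refine l2_main (A := A) hρ hσ hB hB0 ?_ (H.faber_estimate hρ hρ1 hψ hψ0 hFab) ?_
    (Φ := fun i j x => Φ i j (φ x)⁻¹)
    (fun i j => (hF i j).differentiableOn.continuousOn.comp hσ hσΩ)
    (fun x hx => hΦ _ (hσΩ hx)) ?_ ?_ h1 h2 hu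
  · intro x hx v
    have hx1 := sphere_subset_ball_one hρ1 hx
    set y := Ring.inverse (1 - φ x • A) v with hy
    have hv : (1 - φ x • A) y = v := by
      rw [hy, ← mul_apply_eq_comp, Ring.mul_inverse_cancel _ (hun x hx1),
        one_apply_eq_self]
    obtain ⟨z, hzW, hz⟩ := exists_inner_eq hAW h0W y
    have e1 : inner ℂ v (B x v) = ((‖y‖ ^ 2 * normSq (cc φ x) : ℝ) : ℂ) *
        conj ((1 - z * φ x) * (dslope φ 0 x / deriv φ x)) := by
      simp only [hBdef, smul_apply, inner_smul_right, ← hy]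
      rw [← hv, ← inner_conj_symm, inner_one_sub A _ hz, ← inv_div, ← cc, map_mul, map_mul,
        Complex.conj_ofReal, map_inv₀, Complex.ofReal_mul, ← Complex.mul_conj]
      have : conj (cc φ x) ≠ 0 := by simpa using H.cc_ne hx1
      field_simp
    rw [e1, re_ofReal_mul, conj_re]
    exact mul_nonneg (mul_nonneg (by positivity) (normSq_nonneg _)) (H.pos x hx1 z hzW)
  · intro n v' v
    have ci := contOn_inv hρ
    have cψ := contOn_of_holo ((hψ n).mono hs)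
    rw [← hpoly, ← av_inv_pow_mul hρ _ (hB v' v)]
    have : av ρ (fun x => (F n).eval (φ x)⁻¹ * inner ℂ v' (B x v)) =
        av ρ (fun x => x⁻¹ ^ (n + 1) * inner ℂ v' (B x v) + ψ n x * inner ℂ v' (B x v)) := by
      refine av_congr hρ fun x hx => ?_
      rw [hFab n x (sphere_subset_ball_one hρ1 hx) (ne_zero_of_mem_sphere hρ hx), add_mul]
    rw [this, av_add hρ ((ci.fun_pow _).fun_mul (cB _ _)) (cψ.fun_mul (cB _ _)),
      av_holo hρ (((hψ n).mono hs).fun_mul (hB _ _)), hψ0, zero_mul, add_zero]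
  · intro i j q v' v
    obtain ⟨p, g, hg, hp, hT⟩ := hF i j
    have cg : ContinuousOn (fun x => g (φ x)⁻¹) (sphere 0 ρ) := hg.continuousOn.comp hσ hσΩ
    have : av ρ (fun x => q.eval (φ x)⁻¹ * Φ i j (φ x)⁻¹ * inner ℂ v' (B x v)) =
        av ρ (fun x => (p * q).eval (φ x)⁻¹ * inner ℂ v' (B x v) +
          (χ * q).eval (φ x)⁻¹ * g (φ x)⁻¹ * inner ℂ v' (B x v)) := by
      refine av_congr hρ fun x hx => ?_
      rw [hp _ (hσΩ hx), eval_mul, eval_mul]
      ring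
    rw [this, av_add hρ ((cq _).fun_mul (cB _ _)) (((cq _).fun_mul cg).fun_mul (cB _ _)), hpoly,
      hmod g hg, hT, map_mul, map_mul, hχ, zero_mul]
    simp [av_const]
  · intro i j q v
    have := ((hF i j).commute (B := aeval A q)
      ((FC.poly (χ := χ) (Ω := Ω) q).commute (Commute.refl A)).symm).eq
    exact congrArg (fun S : K →L[ℂ] K => S v) this

lemma FC.translate {𝒜 : Type*} [Ring 𝒜] [Algebra ℂ 𝒜] {χ : ℂ[X]} {A : 𝒜} {Ω : Set ℂ}
    {h : ℂ → ℂ} {M : 𝒜} (H : FC χ A Ω h M) (c : ℂ) :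
    FC (χ.comp (X + C c)) (A - algebraMap ℂ 𝒜 c) ((fun z => z + c) ⁻¹' Ω) (fun z => h (z + c)) M := by
  obtain ⟨q, g, hg, hq, rfl⟩ := H
  refine ⟨q.comp (X + C c), fun z => g (z + c), hg.comp (by fun_prop) fun z hz => hz,
    fun z hz => ?_, ?_⟩
  · simp [hq _ hz, eval_comp]
  · simp [aeval_comp]

/-- The complete Crouzeix inequality (normalised). -/
theorem crouzeix_core {A : K →L[ℂ] K} {χ : ℂ[X]} (hχ : aeval A χ = 0) {Ω : Set ℂ} (hΩ : IsOpen Ω)
    (hΩc : Convex ℝ Ω) (hA : NR A ⊆ Ω) {Φ : ι → ι → ℂ → ℂ} {T : ι → ι → K →L[ℂ] K}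
    (hF : ∀ i j, FC χ A Ω (Φ i j) (T i j))
    (hΦ : ∀ z ∈ Ω, ∀ e : ι → ℂ, ∑ i, ‖∑ j, Φ i j z * e j‖ ^ 2 ≤ ∑ j, ‖e j‖ ^ 2) (v : ι → K) :
    ∑ i, ‖∑ j, T i j (v j)‖ ^ 2 ≤ 4 * ∑ j, ‖v j‖ ^ 2 := by
  let L : PiLp 2 (fun _ : ι => K) →ₗ[ℂ] PiLp 2 (fun _ : ι => K) :=
    { toFun := fun w => WithLp.toLp 2 fun i => ∑ j, T i j (w j)
      map_add' := fun w w' => by ext i; simp [Finset.sum_add_distrib]
      map_smul' := fun c w => by ext i; simp [Finset.smul_sum] }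
  let 𝓣 := LinearMap.toContinuousLinearMap L
  have h𝓣 : ∀ w i, 𝓣 w i = ∑ j, T i j (w j) := fun _ _ => rfl
  have hk : ‖𝓣‖ ^ 2 ≤ 4 := by
    by_cases hT0 : 𝓣 = 0
    · rw [hT0]; norm_num
    obtain ⟨u, u', hu, h1, h2⟩ := exists_singular 𝓣 hT0
    have hu' : (fun i => u i) ≠ 0 := fun h => hu (by ext i; exact congrFun h i)
    obtain ⟨i₀, hi₀⟩ := Function.ne_iff.1 hu'
    set c := inner ℂ (u i₀) (A (u i₀)) / ((‖u i₀‖ ^ 2 : ℝ) : ℂ) with hc
    have hcm : c ∈ NR A := div_mem_NR A hi₀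
    set A' := A - algebraMap ℂ (K →L[ℂ] K) c with hA'
    have hNR : ∀ z, z ∈ NR A' ↔ z + c ∈ NR A := by
      intro z
      refine exists_congr fun x => and_congr_right fun hx => ?_
      rw [hA', Algebra.algebraMap_eq_smul_one, sub_apply, smul_apply, one_apply_eq_self,
        inner_sub_right, inner_smul_right, inner_self_eq_norm_sq_to_K, hx, eq_sub_iff_add_eq]
      simp
    have hΩ' : IsOpen ((fun z => z + c) ⁻¹' Ω) := hΩ.preimage (by fun_prop)
    have hsub : NR A' ⊆ (fun z => z + c) ⁻¹' Ω := fun z hz => hA ((hNR z).1 hz)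
    obtain ⟨ε, hε, hth⟩ := (isCompact_NR A').exists_cthickening_subset_open hΩ' hsub
    refine kappa_le (A := A') (χ := χ.comp (X + C c)) (by simp [aeval_comp, hA', hχ]) hΩ'
      (hΩc.translate_preimage_left c) ((isCompact_NR A').cthickening (r := ε))
      ((convex_NR A').cthickening ε) ?_ (self_subset_cthickening _) hth
      (fun i j => (hF i j).translate c) (fun z hz => hΦ _ hz) (u := fun i => u i)
      (u' := fun i => u' i) (fun i => ?_) (fun w => ?_) hu'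
    · refine mem_of_superset (closedBall_mem_nhds _ hε) (closedBall_subset_cthickening ?_ ε)
      exact (hNR 0).2 (by simpa using hcm)
    · rw [← h𝓣, h1]; rfl
    · have := h2 (WithLp.toLp 2 w)
      simpa only [PiLp.inner_apply, h𝓣] using this
  have h3 := 𝓣.le_opNorm (WithLp.toLp 2 v)
  have h4 := pow_le_pow_left₀ (norm_nonneg _) h3 2
  rw [mul_pow, PiLp.norm_sq_eq_of_L2, PiLp.norm_sq_eq_of_L2] at h4
  simp only [h𝓣] at h4
  exact h4.trans (mul_le_mul_of_nonneg_right hk (Finset.sum_nonneg fun _ _ => by positivity))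

end Crest.Agent.R132
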