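import Mathlib
import Crest.Agent.R132.Core

/-!
Consequences: the matrix form `CoreBound`, and the polynomial inequality on any Hilbert space.
-/

set_option autoImplicit false

open Metric Complex Set Filter Topology Polynomial
open scoped ComplexConjugate

namespace Crest.Agent.R132

open Crest.AnalysisR.NumRange

theorem coreBound {n : ℕ} (A : Matrix (Fin n) (Fin n) ℂ) {Ω : Set ℂ} (hΩ : IsOpen Ω)
    (hΩc : Convex ℝ Ω) (hA : numRange A ⊆ Ω) : CoreBound A Ω := by
  intro ι _ F T hF hΦ v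
  let Θ : Matrix (Fin n) (Fin n) ℂ →ₐ[ℂ] (EuclideanSpace ℂ (Fin n) →L[ℂ] EuclideanSpace ℂ (Fin n)) :=
    (Matrix.toEuclideanCLM (n := Fin n) (𝕜 := ℂ)).toAlgEquiv.toAlgHom
  have hΘ : ∀ (M : Matrix (Fin n) (Fin n) ℂ) (x : Fin n → ℂ),
      Θ M (WithLp.toLp 2 x) = WithLp.toLp 2 (M.mulVec x) := fun M x => rfl
  have key := crouzeix_core (A := Θ A) (χ := A.charpoly)
    (by rw [aeval_algHom_apply, A.aeval_self_charpoly, map_zero]) hΩ hΩc (fun z hz => hA hz)
    (fun i j => (hF i j).map Θ) hΦ (fun j => WithLp.toLp 2 (v j))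
  simp only [hΘ, EuclideanSpace.norm_sq_eq, ← WithLp.toLp_sum] at key
  exact key

theorem crouzeix_poly
    {H : Type*} [NormedAddCommGroup H] [InnerProductSpace ℂ H]
    (A : H →L[ℂ] H) (m d : ℕ) (B : Fin (d + 1) → Matrix (Fin m) (Fin m) ℂ) (M : ℝ)
    (hM : ∀ x : H, ‖x‖ = 1 →
      ‖Matrix.toEuclideanCLM (n := Fin m) (𝕜 := ℂ)
          (∑ k : Fin (d + 1), (inner ℂ x (A x)) ^ (k : ℕ) • B k)‖ ≤ M)
    (v : PiLp 2 (fun _ : Fin m => H)) :
    ‖(WithLp.toLp 2 (fun i : Fin m => ∑ j : Fin m, ∑ k : Fin (d + 1), B k i j • (A ^ (k : ℕ)) (v j))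
        : PiLp 2 (fun _ : Fin m => H))‖ ≤ 2 * M * ‖v‖ := by
  by_cases hv : v = 0
  · subst hv
    simp
    rfl
  obtain ⟨j₀, hj₀⟩ : ∃ j, v j ≠ 0 := by
    by_contra h
    push Not at h
    exact hv (by ext j; exact h j)
  have hM0 : 0 ≤ M := by
    refine (norm_nonneg _).trans (hM (((‖v j₀‖⁻¹ : ℝ) : ℂ) • v j₀) ?_)
    rw [norm_smul]; simp [hj₀]
  set K : Submodule ℂ H :=
    Submodule.span ℂ (Set.range fun p : Fin m × Fin (d + 1) => (A ^ (p.2 : ℕ)) (v p.1)) with hK
  have : FiniteDimensional ℂ K := FiniteDimensional.span_of_finite ℂ (Set.finite_range _)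
  have hmem : ∀ j k, k ≤ d → (A ^ k) (v j) ∈ K := fun j k hk =>
    Submodule.subset_span ⟨(j, ⟨k, Nat.lt_succ_of_le hk⟩), rfl⟩
  set AK : K →L[ℂ] K := K.orthogonalProjectionOnto.comp (A.comp K.subtypeL) with hAK
  set w : Fin m → K := fun j => ⟨v j, by simpa using hmem j 0 (Nat.zero_le _)⟩ with hw
  have hpow : ∀ j k, k ≤ d → (((AK ^ k) (w j) : K) : H) = (A ^ k) (v j) := by
    intro j k hk
    induction k with
    | zero => simp [hw]
    | succ k ih =>
      have e : (A ^ (k + 1)) (v j) = A ((A ^ k) (v j)) := by rw [pow_succ']; rfl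
      have e2 : (AK ^ (k + 1)) (w j) = K.orthogonalProjectionOnto (A ((AK ^ k) (w j) : K)) := by
        rw [pow_succ']; rfl
      rw [e2, ih (Nat.le_of_succ_le hk), ← e]
      exact congrArg Subtype.val
        (K.orthogonalProjectionOnto_mem_subspace_eq_self ⟨_, hmem j (k + 1) hk⟩)
  set P : ℂ → EuclideanSpace ℂ (Fin m) →L[ℂ] EuclideanSpace ℂ (Fin m) := fun z =>
    Matrix.toEuclideanCLM (n := Fin m) (𝕜 := ℂ) (∑ k : Fin (d + 1), z ^ (k : ℕ) • B k) with hP
  have cP : Continuous P := by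
    simp only [hP, map_sum, map_smul]
    fun_prop
  have hNR : ∀ z ∈ NR AK, ‖P z‖ ≤ M := by
    rintro _ ⟨x, hx, rfl⟩
    have : inner ℂ x (AK x) = inner ℂ (x : H) (A x) :=
      K.inner_orthogonalProjectionOnto_eq_of_mem_left x _
    rw [this]
    exact hM x hx
  have main : ∀ M' > M, ‖(WithLp.toLp 2 (fun i : Fin m => ∑ j : Fin m, ∑ k : Fin (d + 1),
      B k i j • (A ^ (k : ℕ)) (v j)) : PiLp 2 (fun _ : Fin m => H))‖ ≤ 2 * M' * ‖v‖ := by
    intro M' hM'
    have hM'0 : 0 < M' := hM0.trans_lt hM'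
    have hc : (M' : ℂ) ≠ 0 := by exact_mod_cast hM'0.ne'
    obtain ⟨ε, hε, hth⟩ := (isCompact_NR AK).exists_thickening_subset_open
      (isOpen_lt cP.norm continuous_const) (fun z hz => (hNR z hz).trans_lt hM')
    have key := crouzeix_core (A := AK) (χ := 0) (map_zero _) isOpen_thickening
      ((convex_NR AK).thickening ε) (self_subset_thickening hε _)
      (Φ := fun i j z => (M' : ℂ)⁻¹ * ∑ k : Fin (d + 1), B k i j * z ^ (k : ℕ))
      (T := fun i j => (M' : ℂ)⁻¹ • ∑ k : Fin (d + 1), B k i j • AK ^ (k : ℕ))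
      (fun i j => (FC.sum _ fun k _ => (FC.id.pow _).smul _).smul _) (fun z hz e => ?_) w
    · have e1 : ∀ i, ‖∑ j, ((M' : ℂ)⁻¹ • ∑ k : Fin (d + 1), B k i j • AK ^ (k : ℕ)) (w j)‖ =
          M'⁻¹ * ‖∑ j : Fin m, ∑ k : Fin (d + 1), B k i j • (A ^ (k : ℕ)) (v j)‖ := by
        intro i
        simp only [smul_apply, sum_apply, ← Finset.smul_sum]
        rw [norm_smul, norm_inv, Complex.norm_real, Real.norm_of_nonneg hM'0.le,
          Submodule.coe_norm]
        congr 2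
        simp only [Submodule.coe_sum, Submodule.coe_smul]
        exact Finset.sum_congr rfl fun j _ => Finset.sum_congr rfl fun k _ => by
          rw [hpow j k (Nat.le_of_lt_succ k.2)]
      have e2 : ∀ j, ‖w j‖ = ‖v j‖ := fun j => rfl
      simp only [e1, e2, mul_pow, ← Finset.mul_sum] at key
      rw [← pow_le_pow_iff_left₀ (norm_nonneg _) (by positivity) two_ne_zero, mul_pow,
        PiLp.norm_sq_eq_of_L2, PiLp.norm_sq_eq_of_L2]
      rw [inv_pow, inv_mul_le_iff₀ (by positivity)] at key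
      refine key.trans (le_of_eq ?_)
      ring
    · have h1 : ‖P z (WithLp.toLp 2 e)‖ ≤ M' * ‖(WithLp.toLp 2 e : EuclideanSpace ℂ (Fin m))‖ :=
        ((P z).le_opNorm _).trans (mul_le_mul_of_nonneg_right (le_of_lt (hth hz)) (norm_nonneg _))
      have h2 := pow_le_pow_left₀ (norm_nonneg _) h1 2
      rw [mul_pow, EuclideanSpace.norm_sq_eq, EuclideanSpace.norm_sq_eq] at h2
      have e3 : ∀ i, ∑ j, ((M' : ℂ)⁻¹ * ∑ k : Fin (d + 1), B k i j * z ^ (k : ℕ)) * e j =
          (M' : ℂ)⁻¹ * (P z (WithLp.toLp 2 e)) i := by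
        intro i
        simp only [hP, Matrix.toEuclideanCLM_toLp, Matrix.mulVec, dotProduct, Matrix.sum_apply,
          Matrix.smul_apply, smul_eq_mul, Finset.mul_sum]
        refine Finset.sum_congr rfl fun j _ => ?_
        rw [← Finset.mul_sum, mul_assoc]
        congr 2
        exact Finset.sum_congr rfl fun k _ => mul_comm _ _
      simp only [e3, norm_mul, mul_pow, ← Finset.mul_sum, norm_inv, Complex.norm_real,
        Real.norm_of_nonneg hM'0.le]
      rw [inv_pow, inv_mul_le_iff₀ (by positivity)]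
      exact h2
  refine le_of_forall_pos_le_add fun ε hε => ?_
  have hvn : 0 < ‖v‖ := norm_pos_iff.2 hv
  refine (main (M + ε / (2 * ‖v‖)) (by linarith [div_pos hε (mul_pos two_pos hvn)])).trans
    (le_of_eq ?_)
  field_simp

end Crest.Agent.R132
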