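import Mathlib

/-!
Change of variables along a regular closed curve in the unit circle: the pull-back of the
normalised arc-length measure has a continuous nonnegative periodic density.
-/

set_option autoImplicit false

open Complex Real Function

namespace Crest.Agent.R132

theorem im_mul_conj_eq {ζ ζ' : ℝ → ℂ} (hd : ∀ θ, HasDerivAt ζ (ζ' θ) θ) (h1 : ∀ θ, ‖ζ θ‖ = 1)
    (θ : ℝ) : ζ' θ = I * ((ζ' θ * (starRingEnd ℂ) (ζ θ)).im : ℂ) * ζ θ := by
  have hn : ∀ θ, ζ θ * (starRingEnd ℂ) (ζ θ) = 1 := by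
    intro θ
    rw [Complex.mul_conj, Complex.normSq_eq_norm_sq, h1]; simp
  have hc : HasDerivAt (fun θ => (starRingEnd ℂ) (ζ θ)) ((starRingEnd ℂ) (ζ' θ)) θ :=
    (hd θ).star
  have h2 := (hd θ).mul hc
  have h3 : HasDerivAt (fun θ => ζ θ * (starRingEnd ℂ) (ζ θ)) 0 θ := by
    simp only [hn]; exact hasDerivAt_const _ _
  have h4 : ζ' θ * (starRingEnd ℂ) (ζ θ) + ζ θ * (starRingEnd ℂ) (ζ' θ) = 0 := h2.unique h3
  have h5 : (ζ' θ * (starRingEnd ℂ) (ζ θ)).re = 0 := by
    have := congrArg Complex.re h4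
    simp only [add_re, mul_re, conj_re, conj_im, zero_re] at this ⊢
    linarith
  have h6 : ζ' θ * (starRingEnd ℂ) (ζ θ) = I * ((ζ' θ * (starRingEnd ℂ) (ζ θ)).im : ℂ) := by
    apply Complex.ext
    · rw [h5]; simp
    · simp
  rw [← h6]
  linear_combination (-ζ' θ) * hn θ

theorem exists_weight {ζ ζ' : ℝ → ℂ} (hd : ∀ θ, HasDerivAt ζ (ζ' θ) θ) (hc : Continuous ζ')
    (h1 : ∀ θ, ‖ζ θ‖ = 1) (h0 : ∀ θ, ζ' θ ≠ 0) (hper : Periodic ζ (2 * π))
    (hper' : Periodic ζ' (2 * π)) :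
    ∃ ρ : ℝ → ℝ, Continuous ρ ∧ Periodic ρ (2 * π) ∧ (∀ θ, 0 ≤ ρ θ) ∧
      ∀ φ : ℂ → ℂ, ContinuousOn φ (Metric.sphere 0 1) →
        (2 * π : ℂ)⁻¹ * (∫ θ in (0 : ℝ)..2 * π, (ρ θ : ℂ) * φ (ζ θ)) = circleAverage φ 0 1 := by
  have hζc : Continuous ζ := continuous_iff_continuousAt.2 fun θ => (hd θ).continuousAt
  set ω : ℝ → ℝ := fun θ => (ζ' θ * (starRingEnd ℂ) (ζ θ)).im with hω
  have hωc : Continuous ω := by
    simp only [hω]; fun_prop
  have hωe : ∀ θ, ζ' θ = I * (ω θ : ℂ) * ζ θ := im_mul_conj_eq hd h1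
  have hω0 : ∀ θ, ω θ ≠ 0 := by
    intro θ h
    apply h0 θ
    rw [hωe θ, h]; simp
  have hωp : Periodic ω (2 * π) := fun θ => by simp only [hω, hper θ, hper' θ]
  -- the angle
  set α : ℝ → ℝ := fun θ => arg (ζ 0) + ∫ t in (0 : ℝ)..θ, ω t with hα
  have hαd : ∀ θ, HasDerivAt α (ω θ) θ := fun θ =>
    ((hωc.integral_hasStrictDerivAt 0 θ).hasDerivAt).const_add _
  have hζα : ∀ θ, ζ θ = cexp (α θ * I) := by
    have hD : ∀ θ, HasDerivAt (fun θ => ζ θ * cexp (-(α θ * I))) 0 θ := by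
      intro θ
      have e1 : HasDerivAt (fun θ => -((α θ : ℂ) * I)) (-((ω θ : ℂ) * I)) θ :=
        ((hαd θ).ofReal_comp.mul_const I).neg
      have e2 := (hd θ).mul e1.cexp
      refine e2.congr_deriv ?_
      rw [hωe θ]; ring
    have hconst := is_const_of_deriv_eq_zero (fun θ => (hD θ).differentiableAt)
      (fun θ => (hD θ).deriv)
    intro θ
    have e3 := hconst θ 0
    have e4 : ζ 0 = cexp (α 0 * I) := by
      have := Complex.norm_mul_exp_arg_mul_I (ζ 0)
      rw [h1] at this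
      simp only [hα, intervalIntegral.integral_same, add_zero]
      simpa using this.symm
    have e5 : ∀ x : ℂ, cexp x * cexp (-x) = 1 := fun x => by rw [← Complex.exp_add]; simp
    rw [e4, e5] at e3
    linear_combination cexp (α θ * I) * e3 - ζ θ * e5 (α θ * I)
  obtain ⟨k, hk⟩ : ∃ k : ℤ, α (2 * π) = α 0 + k • (2 * π) := by
    have e1 : cexp (α (2 * π) * I) = cexp (α 0 * I) := by
      rw [← hζα, ← hζα]; simpa using hper 0
    obtain ⟨k, hk⟩ := Complex.exp_eq_exp_iff_exists_int.1 e1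
    refine ⟨k, ?_⟩
    have := congrArg Complex.im hk
    simpa using this
  have hkI : (k : ℝ) * (2 * π) = ∫ t in (0 : ℝ)..2 * π, ω t := by
    simp only [hα, intervalIntegral.integral_same, add_zero, zsmul_eq_mul] at hk
    linarith
  have h2π : (0 : ℝ) < 2 * π := by positivity
  have hsign : (∀ θ, 0 < ω θ) ∨ (∀ θ, ω θ < 0) := by
    by_contra hcon
    push Not at hcon
    obtain ⟨⟨a, ha⟩, ⟨b, hb⟩⟩ := hcon
    obtain ⟨c, hc⟩ := intermediate_value_univ a b hωc (show (0 : ℝ) ∈ Set.Icc _ _ from ⟨ha, hb⟩)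
    exact hω0 c hc
  have hρ : ∀ θ, 0 < ω θ / k := by
    intro θ
    rcases hsign with hs | hs
    · have : 0 < ∫ t in (0 : ℝ)..2 * π, ω t :=
        intervalIntegral.intervalIntegral_pos_of_pos (hωc.intervalIntegrable _ _) hs h2π
      rw [← hkI] at this
      have hk' : (0 : ℝ) < k := by nlinarith
      exact div_pos (hs θ) hk'
    · have : 0 < ∫ t in (0 : ℝ)..2 * π, - ω t :=
        intervalIntegral.intervalIntegral_pos_of_pos (hωc.neg.intervalIntegrable _ _)
          (fun x => neg_pos.2 (hs x)) h2π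
      rw [intervalIntegral.integral_neg, ← hkI] at this
      have hk' : (k : ℝ) < 0 := by nlinarith
      exact div_pos_of_neg_of_neg (hs θ) hk'
  have hk0 : (k : ℝ) ≠ 0 := by
    intro h
    have := hρ 0
    rw [h] at this; simp at this
  refine ⟨fun θ => ω θ / k, hωc.div_const _, fun θ => by simp only [hωp θ],
    fun θ => (hρ θ).le, fun φ hφ => ?_⟩
  set g : ℝ → ℂ := fun t => φ (circleMap 0 1 t) with hg
  have hgc : Continuous g :=
    hφ.comp_continuous (continuous_circleMap 0 1) fun t => circleMap_mem_sphere 0 zero_le_one t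
  have hgp : Periodic g (2 * π) := fun t => by simp only [hg, periodic_circleMap 0 1 t]
  have e1 := intervalIntegral.integral_deriv_smul_comp (a := 0) (b := 2 * π)
    (fun x _ => hαd x) hωc.continuousOn hgc
  rw [hk, hgp.intervalIntegral_add_zsmul_eq k (α 0) (fun _ _ => hgc.intervalIntegrable _ _),
    hgp.intervalIntegral_add_eq (α 0) 0, zero_add] at e1
  have e2 : ∀ θ, ((ω θ / k : ℝ) : ℂ) * φ (ζ θ) = (k : ℂ)⁻¹ * (ω θ • (g ∘ α) θ) := by
    intro θ
    simp only [hg, Function.comp_apply, circleMap, hζα θ, real_smul]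
    push_cast
    simp only [zero_add, one_mul]
    ring
  simp only [e2]
  rw [intervalIntegral.integral_const_mul, e1, circleAverage_def]
  have hk0' : (k : ℂ) ≠ 0 := by exact_mod_cast hk0
  simp only [zsmul_eq_mul, real_smul]
  push_cast
  field_simp
  rfl

end Crest.Agent.R132
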