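import Mathlib
import Crest.Agent.Lib.RMT.InjHolo
import Crest.Agent.R132.PoissonAngle

/-!
Boundary behaviour of the interior and exterior conformal maps.
-/

set_option autoImplicit false

open Complex Real Function Filter Topology

namespace Crest.Agent.R132

lemma ext_map_mem {Ω : Set ℂ} (hΩ₁ : IsOpen Ω) {G : ℂ → ℂ} {r : ℝ} (hr₂ : r < 1)
    (hG₁ : DifferentiableOn ℂ G {t : ℂ | r < ‖t‖}) (hG₂ : Set.InjOn G {t : ℂ | r < ‖t‖})
    (hG₃ : G '' {t : ℂ | 1 < ‖t‖} = (closure Ω)ᶜ) {t : ℂ} (ht : ‖t‖ = 1) :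
    G t ∈ closure Ω ∧ G t ∉ Ω := by
  have hO : IsOpen {t : ℂ | r < ‖t‖} := isOpen_lt continuous_const continuous_norm
  have htr : t ∈ {t : ℂ | r < ‖t‖} := by simpa [ht] using hr₂
  constructor
  · by_contra h
    have : G t ∈ G '' {t : ℂ | 1 < ‖t‖} := by rw [hG₃]; exact h
    obtain ⟨s, hs, hst⟩ := this
    have hs' : 1 < ‖s‖ := hs
    have := hG₂ (show s ∈ {t : ℂ | r < ‖t‖} from hr₂.trans hs') htr hst
    rw [this, ht] at hs'
    exact lt_irrefl _ hs'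
  · intro h
    have hc : ContinuousAt G t := (hG₁.differentiableAt (hO.mem_nhds htr)).continuousAt
    have h1 : Tendsto (fun s : ℝ => (s : ℂ) * t) (𝓝[>] 1) (𝓝 t) := by
      have : Continuous (fun s : ℝ => (s : ℂ) * t) := by fun_prop
      have h2 := this.tendsto 1
      simp only [ofReal_one, one_mul] at h2
      exact h2.mono_left nhdsWithin_le_nhds
    have h3 : ∀ᶠ s : ℝ in 𝓝[>] 1, G ((s : ℂ) * t) ∈ Ω := (hc.tendsto.comp h1) (hΩ₁.mem_nhds h)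
    obtain ⟨s, hs1, hs2⟩ := (h3.and self_mem_nhdsWithin).exists
    have hs3 : 1 < s := hs2
    have : G ((s : ℂ) * t) ∈ (closure Ω)ᶜ := by
      rw [← hG₃]
      refine ⟨_, ?_, rfl⟩
      show 1 < ‖(s : ℂ) * t‖
      rw [norm_mul, ht, mul_one, Complex.norm_real, Real.norm_of_nonneg (by linarith)]
      exact hs3
    exact this (subset_closure hs1)

lemma norm_map_boundary {Ω U : Set ℂ} (hΩU : closure Ω ⊆ U) {f : ℂ → ℂ}
    (hf₁ : DifferentiableOn ℂ f U) (hf₂ : Set.InjOn f U) (hf₃ : f '' Ω = Metric.ball 0 1)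
    {z : ℂ} (hz : z ∈ closure Ω) (hz' : z ∉ Ω) : ‖f z‖ = 1 := by
  have h1 : f z ∈ closure (f '' Ω) :=
    (hf₁.continuousOn.mono hΩU).image_closure ⟨z, hz, rfl⟩
  rw [hf₃, closure_ball _ one_ne_zero, mem_closedBall_zero_iff] at h1
  refine h1.antisymm (not_lt.1 fun h => hz' ?_)
  have : f z ∈ f '' Ω := by rw [hf₃]; simpa using h
  obtain ⟨w, hw, hwz⟩ := this
  rwa [← hf₂ (hΩU (subset_closure hw)) (hΩU hz) hwz]

lemma closedBall_subset_image {Ω U : Set ℂ} (hΩ₂ : Bornology.IsBounded Ω) (hΩU : closure Ω ⊆ U)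
    {f : ℂ → ℂ} (hf₁ : DifferentiableOn ℂ f U) (hf₃ : f '' Ω = Metric.ball 0 1) :
    Metric.closedBall 0 1 ⊆ f '' closure Ω := by
  rw [← closure_ball _ one_ne_zero, ← hf₃]
  exact closure_minimal (Set.image_mono subset_closure)
    (hΩ₂.isCompact_closure.image_of_continuousOn (hf₁.continuousOn.mono hΩU)).isClosed

theorem exists_boundary_weight {Ω U : Set ℂ} (hΩ₁ : IsOpen Ω) (hU : IsOpen U)
    (hΩU : closure Ω ⊆ U) {f : ℂ → ℂ} (hf₁ : DifferentiableOn ℂ f U) (hf₂ : Set.InjOn f U)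
    (hf₃ : f '' Ω = Metric.ball 0 1) {G : ℂ → ℂ} {r : ℝ} (hr₂ : r < 1)
    (hG₁ : DifferentiableOn ℂ G {t : ℂ | r < ‖t‖}) (hG₂ : Set.InjOn G {t : ℂ | r < ‖t‖})
    (hG₃ : G '' {t : ℂ | 1 < ‖t‖} = (closure Ω)ᶜ) :
    ∃ ρ : ℝ → ℝ, Continuous ρ ∧ Periodic ρ (2 * π) ∧ (∀ θ, 0 ≤ ρ θ) ∧
      ∀ φ : ℂ → ℂ, ContinuousOn φ (Metric.sphere 0 1) →
        (2 * π : ℂ)⁻¹ * (∫ θ in (0 : ℝ)..2 * π, (ρ θ : ℂ) * φ (f (G (cexp (θ * I))))) =
          circleAverage φ 0 1 := by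
  have hO : IsOpen {t : ℂ | r < ‖t‖} := isOpen_lt continuous_const continuous_norm
  have he : ∀ θ : ℝ, ‖cexp (θ * I)‖ = 1 := Complex.norm_exp_ofReal_mul_I
  have her : ∀ θ : ℝ, cexp (θ * I) ∈ {t : ℂ | r < ‖t‖} := fun θ => by
    show r < _
    rw [he]; exact hr₂
  have hmem := fun θ : ℝ => ext_map_mem hΩ₁ hr₂ hG₁ hG₂ hG₃ (he θ)
  have hec : Continuous fun θ : ℝ => cexp (θ * I) := by fun_prop
  have hGc : Continuous fun θ : ℝ => G (cexp (θ * I)) :=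
    hG₁.continuousOn.comp_continuous hec her
  have hep : ∀ θ : ℝ, cexp (((θ + 2 * π : ℝ) : ℂ) * I) = cexp (θ * I) := by
    intro θ
    push_cast
    rw [add_mul, Complex.exp_add, Complex.exp_two_pi_mul_I, mul_one]
  refine exists_weight (ζ := fun θ => f (G (cexp (θ * I))))
    (ζ' := fun θ => deriv f (G (cexp (θ * I))) * (deriv G (cexp (θ * I)) * (cexp (θ * I) * I)))
    (fun θ => ?_) ?_ (fun θ => norm_map_boundary hΩU hf₁ hf₂ hf₃ (hmem θ).1 (hmem θ).2)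
    (fun θ => ?_) (fun θ => by simp only [hep]) (fun θ => by simp only [hep])
  · have h1 : HasDerivAt (fun z : ℂ => cexp (z * I)) (cexp (θ * I) * I) θ := by
      simpa using ((hasDerivAt_id (θ : ℂ)).mul_const I).cexp
    have h2 := (hG₁.differentiableAt (hO.mem_nhds (her θ))).hasDerivAt.comp (θ : ℂ) h1
    have h3 := HasDerivAt.comp (θ : ℂ) (h₂ := f)
      (hf₁.differentiableAt (hU.mem_nhds (hΩU (hmem θ).1))).hasDerivAt h2
    exact h3.comp_ofReal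
  · refine Continuous.mul ?_ (Continuous.mul ?_ (hec.mul continuous_const))
    · exact (hf₁.deriv hU).continuousOn.comp_continuous hGc fun θ => hΩU (hmem θ).1
    · exact (hG₁.deriv hO).continuousOn.comp_continuous hec her
  · exact mul_ne_zero (RMT.deriv_ne_zero hU hf₁ hf₂ (hΩU (hmem θ).1))
      (mul_ne_zero (RMT.deriv_ne_zero hO hG₁ hG₂ (her θ))
        (mul_ne_zero (Complex.exp_ne_zero _) I_ne_zero))

end Crest.Agent.R132
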