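import Mathlib
import Crest.Agent.R132.FC

/-!
The operator Poisson kernel of a matrix `C` with spectrum in the open unit disc, and the Poisson
integral formula for the holomorphic functional calculus.
-/

set_option autoImplicit false

open Complex Real Polynomial Matrix
open scoped ComplexOrder

namespace Crest.Agent.R132

variable {ι : Type} [Fintype ι] [DecidableEq ι]

/-- entrywise circle average -/
noncomputable def avgM (Φ : ℂ → Matrix ι ι ℂ) : Matrix ι ι ℂ :=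
  Matrix.of fun a b => circleAverage (fun ζ => Φ ζ a b) 0 1

/-- entrywise continuity on the unit circle -/
def ContS (Φ : ℂ → Matrix ι ι ℂ) : Prop :=
  ∀ a b, ContinuousOn (fun ζ => Φ ζ a b) (Metric.sphere 0 1)

/-- entrywise holomorphy on the closed unit disc -/
def HoloD (Φ : ℂ → Matrix ι ι ℂ) : Prop :=
  ∀ a b, ∀ ζ : ℂ, ‖ζ‖ ≤ 1 → DifferentiableAt ℂ (fun ζ => Φ ζ a b) ζ

omit [Fintype ι] [DecidableEq ι] in
lemma HoloD.contS {Φ : ℂ → Matrix ι ι ℂ} (h : HoloD Φ) : ContS Φ := fun a b ζ hζ =>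
  (h a b ζ (by simpa using (le_of_eq (mem_sphere_zero_iff_norm.1 hζ)))).continuousAt.continuousWithinAt

omit [Fintype ι] [DecidableEq ι] in
lemma ContS.add {Φ Ψ : ℂ → Matrix ι ι ℂ} (h : ContS Φ) (h' : ContS Ψ) :
    ContS (fun ζ => Φ ζ + Ψ ζ) := fun a b => (h a b).add (h' a b)

omit [Fintype ι] [DecidableEq ι] in
lemma ContS.sub {Φ Ψ : ℂ → Matrix ι ι ℂ} (h : ContS Φ) (h' : ContS Ψ) :
    ContS (fun ζ => Φ ζ - Ψ ζ) := fun a b => (h a b).sub (h' a b)

omit [Fintype ι] [DecidableEq ι] in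
lemma ContS.const (M : Matrix ι ι ℂ) : ContS (fun _ => M) := fun _ _ => continuousOn_const

omit [Fintype ι] [DecidableEq ι] in
lemma ContS.smul {Φ : ℂ → Matrix ι ι ℂ} (h : ContS Φ) {w : ℂ → ℂ}
    (hw : ContinuousOn w (Metric.sphere 0 1)) : ContS (fun ζ => w ζ • Φ ζ) :=
  fun a b => hw.mul (h a b)

omit [Fintype ι] [DecidableEq ι] in
lemma ContS.conjTranspose {Φ : ℂ → Matrix ι ι ℂ} (h : ContS Φ) : ContS (fun ζ => (Φ ζ)ᴴ) :=
  fun a b => (h b a).star

omit [DecidableEq ι] in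
lemma ContS.mul_left {Φ : ℂ → Matrix ι ι ℂ} (h : ContS Φ) (M : Matrix ι ι ℂ) :
    ContS (fun ζ => M * Φ ζ) := fun a b => by
  simp only [Matrix.mul_apply]
  exact continuousOn_finsetSum _ fun c _ => continuousOn_const.mul (h c b)

omit [Fintype ι] [DecidableEq ι] in
lemma ContS.int {Φ : ℂ → Matrix ι ι ℂ} (h : ContS Φ) (a b : ι) :
    CircleIntegrable (fun ζ => Φ ζ a b) 0 1 := (h a b).circleIntegrable zero_le_one

omit [Fintype ι] [DecidableEq ι] in
lemma avgM_add {Φ Ψ : ℂ → Matrix ι ι ℂ} (h : ContS Φ) (h' : ContS Ψ) :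
    avgM (fun ζ => Φ ζ + Ψ ζ) = avgM Φ + avgM Ψ := by
  ext a b
  exact circleAverage_fun_add (h.int a b) (h'.int a b)

omit [DecidableEq ι] in
lemma avgM_mul_left {Φ : ℂ → Matrix ι ι ℂ} (h : ContS Φ) (M : Matrix ι ι ℂ) :
    avgM (fun ζ => M * Φ ζ) = M * avgM Φ := by
  ext a b
  simp only [avgM, Matrix.mul_apply, Matrix.of_apply]
  rw [circleAverage_fun_sum (f := fun c ζ => M a c * Φ ζ c b) fun c _ =>
    (continuousOn_const.mul (h c b)).circleIntegrable zero_le_one]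
  exact Finset.sum_congr rfl fun c _ => circleAverage_fun_smul (a := M a c)

omit [Fintype ι] [DecidableEq ι] in
lemma avgM_congr {Φ Ψ : ℂ → Matrix ι ι ℂ} (h : ∀ ζ : ℂ, ‖ζ‖ = 1 → Φ ζ = Ψ ζ) :
    avgM Φ = avgM Ψ := by
  ext a b
  simp only [avgM, Matrix.of_apply]
  refine circleAverage_congr_sphere fun ζ hζ => ?_
  show Φ ζ a b = Ψ ζ a b
  rw [h ζ (by simpa using hζ)]

omit [Fintype ι] [DecidableEq ι] in
lemma avgM_holo {Φ : ℂ → Matrix ι ι ℂ} (h : HoloD Φ) : avgM Φ = Φ 0 := by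
  ext a b
  simp only [avgM, Matrix.of_apply]
  refine circleAverage_of_differentiable_on_off_countable (f := fun ζ => Φ ζ a b)
    Set.countable_empty ?_ ?_
  · intro ζ hζ
    exact (h a b ζ (by simpa using hζ)).continuousAt.continuousWithinAt
  · intro ζ hζ
    exact h a b ζ (le_of_lt (by simpa using hζ.1))

omit [Fintype ι] [DecidableEq ι] in
lemma avgM_conjTranspose {Φ : ℂ → Matrix ι ι ℂ} (h : ContS Φ) :
    avgM (fun ζ => (Φ ζ)ᴴ) = (avgM Φ)ᴴ := by
  ext a b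
  exact (Complex.conjCLE : ℂ →L[ℝ] ℂ).circleAverage_comp_comm (h.int b a)

/-- `(1 - ζ Cᴴ)⁻¹` -/
noncomputable def resN (C : Matrix ι ι ℂ) (ζ : ℂ) : Matrix ι ι ℂ := (1 - ζ • Cᴴ)⁻¹

/-- the operator Poisson kernel -/
noncomputable def poisK (C : Matrix ι ι ℂ) (ζ : ℂ) : Matrix ι ι ℂ :=
  (resN C ζ)ᴴ + (resN C ζ - 1)

section

variable {C : Matrix ι ι ℂ} (hC : ∀ ζ : ℂ, ‖ζ‖ ≤ 1 → IsUnit (1 - ζ • C))
include hC

lemma isUnit_det_adj {ζ : ℂ} (hζ : ‖ζ‖ ≤ 1) : IsUnit (1 - ζ • Cᴴ).det := by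
  have h := hC (star ζ) (by simpa using hζ)
  have e : (1 - ζ • Cᴴ) = (1 - star ζ • C)ᴴ := by simp
  rw [e, Matrix.det_conjTranspose]
  exact ((Matrix.isUnit_iff_isUnit_det _).1 h).star

lemma resN_holo : HoloD (resN C) := by
  intro a b ζ hζ
  set Q : Matrix ι ι ℂ[X] := 1 - (X : ℂ[X]) • (Cᴴ).map Polynomial.C with hQ
  have hev : ∀ z : ℂ, (evalRingHom z).mapMatrix Q = 1 - z • Cᴴ := by
    intro z
    ext i j
    simp only [hQ, RingHom.mapMatrix_apply, Matrix.map_apply, Matrix.sub_apply, Matrix.smul_apply,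
      Matrix.one_apply, coe_evalRingHom, smul_eq_mul]
    split_ifs <;> simp [mul_comm z]
  have h1 : ∀ z : ℂ, resN C z a b = (Q.det.eval z)⁻¹ * (Q.adjugate a b).eval z := by
    intro z
    have e1 : Q.det.eval z = (1 - z • Cᴴ).det := by
      rw [← hev z, ← RingHom.map_det]; rfl
    have e2 : (Q.adjugate a b).eval z = (1 - z • Cᴴ).adjugate a b := by
      rw [← hev z, ← RingHom.map_adjugate]; rfl
    rw [e1, e2, resN, Matrix.inv_def, Ring.inverse_eq_inv']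
    rfl
  simp only [h1]
  refine DifferentiableAt.mul (DifferentiableAt.inv (Q.det.differentiableAt) ?_)
    (Q.adjugate a b).differentiableAt
  have e1 : Q.det.eval ζ = (1 - ζ • Cᴴ).det := by
    rw [← hev ζ, ← RingHom.map_det]; rfl
  rw [e1]
  exact (isUnit_det_adj hC hζ).ne_zero

lemma resN_mul {ζ : ℂ} (hζ : ‖ζ‖ ≤ 1) : resN C ζ * (1 - ζ • Cᴴ) = 1 :=
  Matrix.nonsing_inv_mul _ (isUnit_det_adj hC hζ)

lemma mul_resN_adj {ζ : ℂ} (hζ : ‖ζ‖ ≤ 1) : (1 - star ζ • C) * (resN C ζ)ᴴ = 1 := by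
  have := congrArg Matrix.conjTranspose (resN_mul hC hζ)
  simpa using this

lemma poisK_contS : ContS (poisK C) :=
  (resN_holo hC).contS.conjTranspose.add ((resN_holo hC).contS.sub (ContS.const 1))

lemma poisK_posSemidef (h : (1 - Cᴴ * C).PosSemidef) {ζ : ℂ} (hζ : ‖ζ‖ = 1) :
    (poisK C ζ).PosSemidef := by
  have h1 := resN_mul hC hζ.le
  have h2 := mul_resN_adj hC hζ.le
  have hz : ζ * star ζ = 1 := by
    rw [Complex.star_def, Complex.mul_conj, Complex.normSq_eq_norm_sq, hζ]; simp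
  have e : (1 - Cᴴ * C) = (1 - ζ • Cᴴ) + (1 - star ζ • C) - (1 - ζ • Cᴴ) * (1 - star ζ • C) := by
    simp only [sub_mul, mul_sub, Matrix.one_mul, Matrix.mul_one, Matrix.smul_mul, Matrix.mul_smul,
      smul_smul]
    rw [mul_comm (star ζ) ζ, hz, one_smul]
    abel
  have e2 : poisK C ζ = resN C ζ * (1 - Cᴴ * C) * (resN C ζ)ᴴ := by
    rw [e, Matrix.mul_sub, Matrix.mul_add, h1, ← Matrix.mul_assoc, h1, Matrix.sub_mul,
      Matrix.add_mul, Matrix.mul_assoc (resN C ζ), h2, Matrix.one_mul, Matrix.one_mul,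
      Matrix.mul_one, h2, poisK]
    abel
  rw [e2]
  exact h.mul_mul_conjTranspose_same _

/-- the Cauchy functional -/
lemma cauchy_X_mul {g : ℂ → ℂ} (hg : ∀ ζ : ℂ, ‖ζ‖ ≤ 1 → DifferentiableAt ℂ g ζ) :
    avgM (fun ζ => (ζ * g ζ) • (resN C ζ)ᴴ) = C * avgM (fun ζ => g ζ • (resN C ζ)ᴴ) := by
  have hgc : ContinuousOn g (Metric.sphere 0 1) := fun ζ hζ =>
    (hg ζ (le_of_eq (mem_sphere_zero_iff_norm.1 hζ))).continuousAt.continuousWithinAt
  have hR := ((resN_holo hC).contS.conjTranspose).smul hgc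
  have hh : HoloD (fun ζ => (ζ * g ζ) • (1 : Matrix ι ι ℂ)) := fun a b ζ hζ =>
    (differentiableAt_id.mul (hg ζ hζ)).mul (differentiableAt_const _)
  rw [avgM_congr (Ψ := fun ζ => (ζ * g ζ) • (1 : Matrix ι ι ℂ) + C * (g ζ • (resN C ζ)ᴴ)),
    avgM_add hh.contS (hR.mul_left C), avgM_holo hh, avgM_mul_left hR]
  · simp
  · intro ζ hζ
    have h2 := mul_resN_adj hC hζ.le
    have hz : ζ * star ζ = 1 := by
      rw [Complex.star_def, Complex.mul_conj, Complex.normSq_eq_norm_sq, hζ]; simp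
    conv_rhs => rw [← h2]
    simp only [Matrix.sub_mul, Matrix.one_mul, Matrix.smul_mul, Matrix.mul_smul, smul_sub,
      smul_smul]
    rw [show ζ * g ζ * star ζ = g ζ by linear_combination g ζ * hz]
    abel

lemma cauchy_poly_mul (q : ℂ[X]) {g : ℂ → ℂ} (hg : ∀ ζ : ℂ, ‖ζ‖ ≤ 1 → DifferentiableAt ℂ g ζ) :
    avgM (fun ζ => (q.eval ζ * g ζ) • (resN C ζ)ᴴ) =
      aeval C q * avgM (fun ζ => g ζ • (resN C ζ)ᴴ) := by
  have hR := (resN_holo hC).contS.conjTranspose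
  have hcs : ∀ {g : ℂ → ℂ}, (∀ ζ : ℂ, ‖ζ‖ ≤ 1 → DifferentiableAt ℂ g ζ) →
      ContinuousOn g (Metric.sphere 0 1) := fun hg ζ hζ =>
    (hg ζ (le_of_eq (mem_sphere_zero_iff_norm.1 hζ))).continuousAt.continuousWithinAt
  induction q using Polynomial.induction_on with
  | C a =>
    rw [aeval_C, ← avgM_mul_left (hR.smul (hcs hg))]
    refine avgM_congr fun ζ _ => ?_
    rw [eval_C, ← Algebra.smul_def, smul_smul]
  | add p q hp hq =>
    rw [map_add, Matrix.add_mul, ← hp, ← hq, ← avgM_add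
      (hR.smul (hcs fun ζ hζ => p.differentiableAt.fun_mul (hg ζ hζ)))
      (hR.smul (hcs fun ζ hζ => q.differentiableAt.fun_mul (hg ζ hζ)))]
    refine avgM_congr fun ζ _ => ?_
    simp only [eval_add, add_mul, add_smul]
  | monomial n a ih =>
    have h1 := cauchy_X_mul hC (g := fun ζ => (Polynomial.C a * X ^ n).eval ζ * g ζ)
      fun ζ hζ => (Polynomial.C a * X ^ n).differentiableAt.mul (hg ζ hζ)
    rw [ih, ← Matrix.mul_assoc] at h1
    have e : aeval C (Polynomial.C a * X ^ (n + 1)) = C * aeval C (Polynomial.C a * X ^ n) := by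
      rw [show (Polynomial.C a * X ^ (n + 1) : ℂ[X]) = X * (Polynomial.C a * X ^ n) by ring,
        map_mul, aeval_X]
    rw [e, ← h1]
    refine avgM_congr fun ζ _ => ?_
    congr 1
    simp only [eval_mul, eval_C, eval_pow, eval_X]
    ring

lemma cauchy_one : avgM (fun ζ => (resN C ζ)ᴴ) = 1 := by
  rw [avgM_conjTranspose (resN_holo hC).contS, avgM_holo (resN_holo hC)]
  simp [resN]

/-- Poisson integral formula for the functional calculus. -/
theorem poisson_formula {χ : ℂ[X]} (hχ : aeval C χ = 0) {D : Set ℂ} (hD : IsOpen D)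
    (hD1 : Metric.closedBall 0 1 ⊆ D) {w : ℂ → ℂ} {M : Matrix ι ι ℂ} (H : FC χ C D w M) :
    avgM (fun ζ => w ζ • poisK C ζ) = M := by
  have hR := (resN_holo hC).contS.conjTranspose
  have hda : ∀ {g : ℂ → ℂ}, DifferentiableOn ℂ g D → ∀ ζ : ℂ, ‖ζ‖ ≤ 1 → DifferentiableAt ℂ g ζ :=
    fun hg ζ hζ => hg.differentiableAt (hD.mem_nhds (hD1 (by simpa using hζ)))
  have hcs : ∀ {g : ℂ → ℂ}, (∀ ζ : ℂ, ‖ζ‖ ≤ 1 → DifferentiableAt ℂ g ζ) →
      ContinuousOn g (Metric.sphere 0 1) := fun hg ζ hζ =>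
    (hg ζ (le_of_eq (mem_sphere_zero_iff_norm.1 hζ))).continuousAt.continuousWithinAt
  have hw := hda H.differentiableOn
  obtain ⟨q, g, hg, hq, rfl⟩ := H
  have hh : HoloD (fun ζ => w ζ • (resN C ζ - 1)) := fun a b ζ hζ =>
    (hw ζ hζ).mul ((resN_holo hC a b ζ hζ).sub (differentiableAt_const _))
  have e1 : avgM (fun ζ => w ζ • poisK C ζ) =
      avgM (fun ζ => w ζ • (resN C ζ)ᴴ) + avgM (fun ζ => w ζ • (resN C ζ - 1)) := by
    rw [← avgM_add (hR.smul (hcs hw)) hh.contS]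
    exact avgM_congr fun ζ _ => by rw [poisK, smul_add]
  have e2 : avgM (fun ζ => w ζ • (resN C ζ)ᴴ) =
      avgM (fun ζ => (q.eval ζ * 1) • (resN C ζ)ᴴ) +
        avgM (fun ζ => (χ.eval ζ * g ζ) • (resN C ζ)ᴴ) := by
    rw [← avgM_add 
      (hR.smul (hcs fun ζ hζ => q.differentiableAt.fun_mul (differentiableAt_const _)))
      (hR.smul (hcs fun ζ hζ => χ.differentiableAt.fun_mul (hda hg ζ hζ)))]
    refine avgM_congr fun ζ hζ => ?_
    rw [hq ζ (hD1 (by simpa using hζ.le)), add_smul]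
    simp
  rw [e1, e2, avgM_holo hh, cauchy_poly_mul hC q (g := fun _ => 1) fun _ _ =>
    differentiableAt_const _, cauchy_poly_mul hC χ (hda hg), hχ]
  simp only [one_smul]
  rw [cauchy_one hC]
  simp [resN]

end

end Crest.Agent.R132
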