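import Mathlib

/-!
Norm estimates for block matrices given by integration against a positive semidefinite density.
-/

set_option autoImplicit false

open Complex Real Matrix
open scoped ComplexOrder MatrixOrder Kronecker

namespace Crest.Agent.R132

/-- Euclidean norm of a coordinate vector -/
noncomputable def en {ι : Type} [Fintype ι] (x : ι → ℂ) : ℝ :=
  ‖(WithLp.toLp 2 x : EuclideanSpace ℂ ι)‖

section
variable {ι μ : Type} [Fintype ι] [Fintype μ]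

lemma en_nonneg (x : ι → ℂ) : 0 ≤ en x := norm_nonneg _

lemma en_sq (x : ι → ℂ) : en x ^ 2 = ∑ i, ‖x i‖ ^ 2 := by
  rw [en, EuclideanSpace.norm_sq_eq]

lemma dot_self_re (x : ι → ℂ) : (star x ⬝ᵥ x).re = en x ^ 2 := by
  rw [en, norm_sq_eq_re_inner (𝕜 := ℂ), EuclideanSpace.inner_toLp_toLp, dotProduct_comm]
  rfl

lemma norm_dot_le (x y : ι → ℂ) : ‖star y ⬝ᵥ x‖ ≤ en y * en x := by
  rw [dotProduct_comm, ← EuclideanSpace.inner_toLp_toLp]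
  exact norm_inner_le_norm _ _

lemma en_smul (t : ℝ) (x : ι → ℂ) : en ((t : ℂ) • x) = |t| * en x := by
  rw [en, WithLp.toLp_smul, norm_smul]
  simp [en]

lemma en_sq_prod (x : ι × μ → ℂ) : en x ^ 2 = ∑ a, en (fun c => x (a, c)) ^ 2 := by
  simp only [en_sq, Fintype.sum_prod_type]

lemma re_dot_conj (B : Matrix ι ι ℂ) (x : ι → ℂ) :
    (star x ⬝ᵥ (Bᴴ * B) *ᵥ x).re = en (B *ᵥ x) ^ 2 := by
  rw [← dot_self_re, ← Matrix.mulVec_mulVec, Matrix.dotProduct_mulVec, Matrix.star_mulVec]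

variable [DecidableEq ι] [DecidableEq μ]

lemma en_mulVec_le (v : Matrix ι ι ℂ) (x : ι → ℂ) :
    en (v *ᵥ x) ≤ ‖Matrix.toEuclideanCLM (n := ι) (𝕜 := ℂ) v‖ * en x := by
  rw [en, ← Matrix.toEuclideanCLM_toLp]
  exact ContinuousLinearMap.le_opNorm _ _

lemma opNorm_le_of_en {X : Matrix ι ι ℂ} {K : ℝ} (hK : 0 ≤ K) (h : ∀ x, en (X *ᵥ x) ≤ K * en x) :
    ‖Matrix.toEuclideanCLM (n := ι) (𝕜 := ℂ) X‖ ≤ K :=
  ContinuousLinearMap.opNorm_le_bound _ hK fun x => h x.ofLp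

lemma bilin_le {v : Matrix ι ι ℂ} {M : ℝ} (hM : ‖Matrix.toEuclideanCLM (n := ι) (𝕜 := ℂ) v‖ ≤ M)
    (x y : ι → ℂ) : ‖star y ⬝ᵥ v *ᵥ x‖ ≤ M / 2 * (en x ^ 2 + en y ^ 2) := by
  have hM0 : 0 ≤ M := (norm_nonneg _).trans hM
  have h1 := norm_dot_le (v *ᵥ x) y
  have h2 := (en_mulVec_le v x).trans (mul_le_mul_of_nonneg_right hM (en_nonneg x))
  have h3 := mul_le_mul_of_nonneg_left h2 (en_nonneg y)
  nlinarith [mul_nonneg hM0 (sq_nonneg (en x - en y))]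

lemma bilin_one_kron_le {v : Matrix μ μ ℂ} {M : ℝ}
    (hM : ‖Matrix.toEuclideanCLM (n := μ) (𝕜 := ℂ) v‖ ≤ M) (x y : ι × μ → ℂ) :
    ‖star y ⬝ᵥ ((1 : Matrix ι ι ℂ) ⊗ₖ v) *ᵥ x‖ ≤ M / 2 * (en x ^ 2 + en y ^ 2) := by
  have e : star y ⬝ᵥ ((1 : Matrix ι ι ℂ) ⊗ₖ v) *ᵥ x =
      ∑ a, star (fun c => y (a, c)) ⬝ᵥ v *ᵥ (fun c => x (a, c)) := by
    simp only [dotProduct, Matrix.mulVec, Fintype.sum_prod_type, Matrix.kronecker_apply,
      Matrix.one_apply, Pi.star_apply, ite_mul, one_mul, zero_mul]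
    refine Finset.sum_congr rfl fun a _ => Finset.sum_congr rfl fun c _ => ?_
    congr 1
    rw [Finset.sum_comm]
    simp
  rw [e, en_sq_prod x, en_sq_prod y, ← Finset.sum_add_distrib, Finset.mul_sum]
  exact (norm_sum_le _ _).trans (Finset.sum_le_sum fun a _ => bilin_le hM _ _)

lemma bilin_psd_kron_le {Λ : Matrix ι ι ℂ} (hΛ : Λ.PosSemidef) {v : Matrix μ μ ℂ} {M : ℝ}
    (hM : ‖Matrix.toEuclideanCLM (n := μ) (𝕜 := ℂ) v‖ ≤ M) (x y : ι × μ → ℂ) :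
    ‖star y ⬝ᵥ (Λ ⊗ₖ v) *ᵥ x‖ ≤ M / 2 * ((star x ⬝ᵥ (Λ ⊗ₖ (1 : Matrix μ μ ℂ)) *ᵥ x).re +
      (star y ⬝ᵥ (Λ ⊗ₖ (1 : Matrix μ μ ℂ)) *ᵥ y).re) := by
  obtain ⟨B, rfl⟩ := CStarAlgebra.nonneg_iff_eq_star_mul_self.mp hΛ.nonneg
  set B' : Matrix (ι × μ) (ι × μ) ℂ := B ⊗ₖ (1 : Matrix μ μ ℂ) with hB'
  have e1 : (star B * B) ⊗ₖ (1 : Matrix μ μ ℂ) = B'ᴴ * B' := by
    rw [hB', Matrix.conjTranspose_kronecker, ← Matrix.mul_kronecker_mul]
    simp [Matrix.star_eq_conjTranspose]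
  have e2 : (star B * B) ⊗ₖ v = B'ᴴ * (((1 : Matrix ι ι ℂ) ⊗ₖ v) * B') := by
    rw [hB', Matrix.conjTranspose_kronecker, ← Matrix.mul_kronecker_mul,
      ← Matrix.mul_kronecker_mul]
    simp [Matrix.star_eq_conjTranspose]
  rw [e1, re_dot_conj, re_dot_conj, e2, ← Matrix.mulVec_mulVec, Matrix.dotProduct_mulVec,
    ← Matrix.star_mulVec, ← Matrix.mulVec_mulVec]
  exact bilin_one_kron_le hM _ _

omit [DecidableEq ι] in
lemma en_le_of_bilin {X : Matrix ι ι ℂ} {M : ℝ} (hM : 0 ≤ M)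
    (h : ∀ x y, ‖star y ⬝ᵥ X *ᵥ x‖ ≤ M / 2 * (en x ^ 2 + en y ^ 2)) (x : ι → ℂ) :
    en (X *ᵥ x) ≤ M * en x := by
  rcases (en_nonneg (X *ᵥ x)).eq_or_lt with h0 | h0
  · rw [← h0]; exact mul_nonneg hM (en_nonneg x)
  rcases (en_nonneg x).eq_or_lt with h1 | h1
  · exfalso
    have hx : x = 0 := by
      have := norm_eq_zero.1 h1.symm
      simpa using this
    rw [hx, Matrix.mulVec_zero] at h0
    simp [en] at h0
  set t : ℝ := en x / en (X *ᵥ x) with ht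
  have ht0 : 0 < t := div_pos h1 h0
  have h2 := h x ((t : ℂ) • X *ᵥ x)
  have h3 : (star ((t : ℂ) • X *ᵥ x) ⬝ᵥ X *ᵥ x).re = t * en (X *ᵥ x) ^ 2 := by
    rw [star_smul, smul_dotProduct, ← dot_self_re]
    simp
  have h4 := (Complex.re_le_norm _).trans h2
  rw [h3, en_smul, abs_of_pos ht0] at h4
  have h5 : t * en (X *ᵥ x) = en x := by rw [ht]; field_simp
  rw [h5, sq, ← mul_assoc, h5] at h4
  have h6 : en x * en (X *ᵥ x) ≤ en x * (M * en x) := by nlinarith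
  exact le_of_mul_le_mul_left h6 h1

omit [DecidableEq ι] in
lemma dot_integral {Φ : ℝ → Matrix ι ι ℂ} (hΦ : Continuous Φ) {X : Matrix ι ι ℂ} {c : ℂ}
    (hX : ∀ i j, X i j = c * ∫ θ in (0 : ℝ)..2 * π, Φ θ i j) (x y : ι → ℂ) :
    star y ⬝ᵥ X *ᵥ x = c * ∫ θ in (0 : ℝ)..2 * π, star y ⬝ᵥ Φ θ *ᵥ x := by
  have hc : ∀ i j, Continuous fun θ => Φ θ i j := fun i j => hΦ.matrix_elem i j
  simp only [dotProduct, Matrix.mulVec, hX, Finset.mul_sum]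
  have hc' : ∀ i j, Continuous fun θ => star y i * (Φ θ i j * x j) := fun i j =>
    continuous_const.mul ((hc i j).mul continuous_const)
  rw [intervalIntegral.integral_finsetSum fun i _ =>
    (continuous_finsetSum _ fun j _ => hc' i j).intervalIntegrable _ _, Finset.mul_sum]
  refine Finset.sum_congr rfl fun i _ => ?_
  rw [intervalIntegral.integral_finsetSum fun j _ => (hc' i j).intervalIntegrable _ _,
    Finset.mul_sum]
  refine Finset.sum_congr rfl fun j _ => ?_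
  rw [intervalIntegral.integral_const_mul, intervalIntegral.integral_mul_const]
  ring

/-- The block matrix `(1/2π) ∫ Λ ⊗ v` has norm at most `sup ‖v‖`. -/
theorem en_integral_le {Λ : ℝ → Matrix ι ι ℂ} (hΛc : Continuous Λ) (hΛ : ∀ θ, (Λ θ).PosSemidef)
    (hΛ1 : ∀ a b, (2 * π : ℂ)⁻¹ * (∫ θ in (0 : ℝ)..2 * π, Λ θ a b) = (1 : Matrix ι ι ℂ) a b)
    {v : ℝ → Matrix μ μ ℂ} (hv : Continuous v) {M : ℝ}
    (hM : ∀ θ, ‖Matrix.toEuclideanCLM (n := μ) (𝕜 := ℂ) (v θ)‖ ≤ M)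
    {X : Matrix (ι × μ) (ι × μ) ℂ}
    (hX : ∀ i j, X i j = (2 * π : ℂ)⁻¹ * ∫ θ in (0 : ℝ)..2 * π, Λ θ i.1 j.1 * v θ i.2 j.2)
    (x : ι × μ → ℂ) : en (X *ᵥ x) ≤ M * en x := by
  have hM0 : 0 ≤ M := (norm_nonneg _).trans (hM 0)
  refine en_le_of_bilin hM0 (fun x y => ?_) x
  have c1 : Continuous fun θ => Λ θ ⊗ₖ v θ := continuous_matrix fun i j =>
    (hΛc.matrix_elem i.1 j.1).mul (hv.matrix_elem i.2 j.2)
  have c2 : Continuous fun θ => Λ θ ⊗ₖ (1 : Matrix μ μ ℂ) := continuous_matrix fun i j =>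
    (hΛc.matrix_elem i.1 j.1).mul continuous_const
  have e1 := dot_integral c1 hX x y
  have hone : ∀ i j, (1 : Matrix (ι × μ) (ι × μ) ℂ) i j =
      (2 * π : ℂ)⁻¹ * ∫ θ in (0 : ℝ)..2 * π, (Λ θ ⊗ₖ (1 : Matrix μ μ ℂ)) i j := by
    rintro ⟨a, c⟩ ⟨b, d⟩
    simp only [Matrix.kronecker_apply]
    rw [intervalIntegral.integral_mul_const, ← mul_assoc, hΛ1, ← Matrix.one_kronecker_one,
      Matrix.kronecker_apply]
  have c3 : ∀ z : ι × μ → ℂ, Continuous fun θ => star z ⬝ᵥ (Λ θ ⊗ₖ (1 : Matrix μ μ ℂ)) *ᵥ z :=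
    fun z => continuous_const.dotProduct (c2.matrix_mulVec continuous_const)
  have c4 : ∀ z : ι × μ → ℂ,
      Continuous fun θ => (star z ⬝ᵥ (Λ θ ⊗ₖ (1 : Matrix μ μ ℂ)) *ᵥ z).re :=
    fun z => Complex.continuous_re.comp (c3 z)
  have h2π : (0 : ℝ) < 2 * π := by positivity
  have e2 : ∀ z : ι × μ → ℂ, ∫ θ in (0 : ℝ)..2 * π,
      (star z ⬝ᵥ (Λ θ ⊗ₖ (1 : Matrix μ μ ℂ)) *ᵥ z).re = 2 * π * en z ^ 2 := by
    intro z
    have e3 := dot_integral c2 hone z z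
    rw [Matrix.one_mulVec] at e3
    have e4 := (Complex.reCLM : ℂ →L[ℝ] ℝ).intervalIntegral_comp_comm
      ((c3 z).intervalIntegrable (μ := MeasureTheory.volume) 0 (2 * π))
    simp only [Complex.reCLM_apply] at e4
    rw [e4, ← dot_self_re, e3, show (2 * π : ℂ)⁻¹ = (((2 * π)⁻¹ : ℝ) : ℂ) by push_cast; rfl,
      Complex.re_ofReal_mul]
    field_simp
  have h3 := intervalIntegral.norm_integral_le_of_norm_le (μ := MeasureTheory.volume) h2π.le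
    (f := fun θ => star y ⬝ᵥ (Λ θ ⊗ₖ v θ) *ᵥ x)
    (Filter.Eventually.of_forall fun θ _ => bilin_psd_kron_le (hΛ θ) (hM θ) x y)
    ((continuous_const.mul ((c4 x).add (c4 y))).intervalIntegrable _ _)
  rw [intervalIntegral.integral_const_mul, intervalIntegral.integral_add
    ((c4 x).intervalIntegrable _ _) ((c4 y).intervalIntegrable _ _), e2 x, e2 y] at h3
  rw [e1, norm_mul, show (2 * π : ℂ)⁻¹ = (((2 * π)⁻¹ : ℝ) : ℂ) by push_cast; rfl,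
    Complex.norm_real, Real.norm_of_nonneg (inv_pos.2 h2π).le, inv_mul_le_iff₀ h2π]
  refine h3.trans (le_of_eq ?_)
  ring

/-- Undoing the similarity. -/
theorem opNorm_conj_le {S H : Matrix ι ι ℂ} {κ : ℝ} (hS : S.IsHermitian) (hSH : S * S = H)
    (hSu : IsUnit S.det) (h1 : (H - 1).PosSemidef)
    (h2 : ((κ : ℂ) • (1 : Matrix ι ι ℂ) - H).PosSemidef) {X Y : Matrix (ι × μ) (ι × μ) ℂ}
    (hXY : X = (S⁻¹ ⊗ₖ (1 : Matrix μ μ ℂ)) * (Y * (S ⊗ₖ (1 : Matrix μ μ ℂ)))) {M : ℝ} (hM : 0 ≤ M)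
    (hY : ∀ x, en (Y *ᵥ x) ≤ M * en x) :
    ‖Matrix.toEuclideanCLM (n := ι × μ) (𝕜 := ℂ) X‖ ≤ Real.sqrt κ * M := by
  set S' : Matrix (ι × μ) (ι × μ) ℂ := S ⊗ₖ (1 : Matrix μ μ ℂ) with hS'
  have e1 : S'ᴴ * S' = H ⊗ₖ (1 : Matrix μ μ ℂ) := by
    rw [hS', Matrix.conjTranspose_kronecker, ← Matrix.mul_kronecker_mul, hS.eq, hSH]
    simp
  have lo : ∀ x, en x ≤ en (S' *ᵥ x) := by
    intro x
    have h := (h1.kronecker (Matrix.PosSemidef.one (n := μ))).re_dotProduct_nonneg x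
    have e : (H - 1) ⊗ₖ (1 : Matrix μ μ ℂ) = S'ᴴ * S' - 1 := by
      rw [e1, ← Matrix.one_kronecker_one]
      ext i j
      simp only [Matrix.kroneckerMap_apply, Matrix.sub_apply, sub_mul]
    rw [e, Matrix.sub_mulVec, dotProduct_sub, Matrix.one_mulVec] at h
    simp only [RCLike.re_to_complex, Complex.sub_re, re_dot_conj, dot_self_re] at h
    exact le_of_sq_le_sq (by linarith) (en_nonneg _)
  have hi : ∀ x, en (S' *ᵥ x) ≤ Real.sqrt κ * en x := by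
    intro x
    have h := (h2.kronecker (Matrix.PosSemidef.one (n := μ))).re_dotProduct_nonneg x
    have e : ((κ : ℂ) • (1 : Matrix ι ι ℂ) - H) ⊗ₖ (1 : Matrix μ μ ℂ) = (κ : ℂ) • 1 - S'ᴴ * S' := by
      rw [e1, ← Matrix.one_kronecker_one]
      ext i j
      simp only [Matrix.kroneckerMap_apply, Matrix.sub_apply, Matrix.smul_apply, smul_eq_mul,
        sub_mul, mul_assoc]
    rw [e, Matrix.sub_mulVec, dotProduct_sub, Matrix.smul_mulVec, Matrix.one_mulVec,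
      dotProduct_smul] at h
    simp only [RCLike.re_to_complex, Complex.sub_re, re_dot_conj, dot_self_re, smul_eq_mul,
      Complex.re_ofReal_mul] at h
    refine le_of_sq_le_sq ?_ (mul_nonneg (Real.sqrt_nonneg _) (en_nonneg _))
    rw [mul_pow]
    have := Real.sq_sqrt' (x := κ)
    have h4 : κ ≤ Real.sqrt κ ^ 2 := by rw [this]; exact le_max_left _ _
    nlinarith [sq_nonneg (en x)]
  refine opNorm_le_of_en (mul_nonneg (Real.sqrt_nonneg _) hM) fun x => ?_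
  have e2 : S' * X = Y * S' := by
    rw [hXY, ← Matrix.mul_assoc, hS', ← Matrix.mul_kronecker_mul, Matrix.mul_nonsing_inv _ hSu]
    simp
  calc en (X *ᵥ x) ≤ en (S' *ᵥ (X *ᵥ x)) := lo _
    _ = en (Y *ᵥ (S' *ᵥ x)) := by rw [Matrix.mulVec_mulVec, Matrix.mulVec_mulVec, e2]
    _ ≤ M * en (S' *ᵥ x) := hY _
    _ ≤ M * (Real.sqrt κ * en x) := mul_le_mul_of_nonneg_left (hi x) hM
    _ = _ := by ring

end

end Crest.Agent.R132
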