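import Mathlib
import Crest.Prelude.Def_NumRangeMetric

/-!
Topological part of the metric problem: closedness of the PSD cone, compactness of
`{H | 1 ≤ H ≤ 4}`, attainment of the optimum, strict feasibility.
-/

set_option autoImplicit false

open Matrix Filter Topology
open scoped ComplexOrder

namespace Crest.Agent.R132.SDP

open Crest.AnalysisR.NumRange

variable {n : ℕ}

lemma isClosed_psd : IsClosed {M : Matrix (Fin n) (Fin n) ℂ | M.PosSemidef} := by
  have : {M : Matrix (Fin n) (Fin n) ℂ | M.PosSemidef} =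
      {M | Mᴴ = M} ∩ ⋂ x : Fin n → ℂ, {M | 0 ≤ star x ⬝ᵥ (M *ᵥ x)} := by
    ext M
    simp only [Set.mem_ofPred_eq, posSemidef_iff_dotProduct_mulVec, Set.mem_inter_iff,
      Set.mem_iInter]
    rfl
  rw [this]
  refine (isClosed_eq (by fun_prop) continuous_id).inter (isClosed_iInter fun x => ?_)
  exact isClosed_le continuous_const (by fun_prop)

lemma convex_psd : Convex ℝ {M : Matrix (Fin n) (Fin n) ℂ | M.PosSemidef} := by
  intro A hA B hB a b ha hb _
  exact (PosSemidef.smul hA ha).add (PosSemidef.smul hB hb)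

open scoped MatrixOrder in
lemma exists_eq_mul_conjTranspose {M : Matrix (Fin n) (Fin n) ℂ} (hM : M.PosSemidef) :
    ∃ B : Matrix (Fin n) (Fin n) ℂ, M = B * Bᴴ := by
  obtain ⟨B, hB⟩ := CStarAlgebra.nonneg_iff_eq_star_mul_self.mp hM.nonneg
  exact ⟨Bᴴ, by rw [hB, star_eq_conjTranspose, conjTranspose_conjTranspose]⟩

lemma re_diag_mul_conjTranspose {ι : Type*} [Fintype ι] (B : Matrix (Fin n) ι ℂ) (i : Fin n) :
    ((B * Bᴴ) i i).re = ∑ k, ‖B i k‖ ^ 2 := by
  simp only [Matrix.mul_apply, conjTranspose_apply, Complex.re_sum]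
  refine Finset.sum_congr rfl fun k _ => ?_
  rw [Complex.star_def, Complex.mul_conj, Complex.ofReal_re, Complex.normSq_eq_norm_sq]

/-- entries of a PSD matrix are bounded by the diagonal. -/
lemma norm_entry_le {M : Matrix (Fin n) (Fin n) ℂ} (hM : M.PosSemidef) (i j : Fin n) :
    ‖M i j‖ ≤ ((M i i).re + (M j j).re) / 2 := by
  obtain ⟨B, rfl⟩ := exists_eq_mul_conjTranspose hM
  rw [re_diag_mul_conjTranspose, re_diag_mul_conjTranspose, Matrix.mul_apply,
    ← Finset.sum_add_distrib, Finset.sum_div]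
  refine (norm_sum_le _ _).trans (Finset.sum_le_sum fun k _ => ?_)
  rw [norm_mul, conjTranspose_apply, norm_star]
  nlinarith [sq_nonneg (‖B i k‖ - ‖B j k‖)]

/-- The order interval `1 ≤ H ≤ 4`. -/
def box (n : ℕ) : Set (Matrix (Fin n) (Fin n) ℂ) :=
  {H | (H - 1).PosSemidef ∧ (((4 : ℝ) : ℂ) • (1 : Matrix (Fin n) (Fin n) ℂ) - H).PosSemidef}

lemma isClosed_box : IsClosed (box n) :=
  (isClosed_psd.preimage (f := fun H : Matrix (Fin n) (Fin n) ℂ => H - 1) (by fun_prop)).inter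
    (isClosed_psd.preimage
      (f := fun H : Matrix (Fin n) (Fin n) ℂ => ((4 : ℝ) : ℂ) • (1 : Matrix (Fin n) (Fin n) ℂ) - H)
      (by fun_prop))

lemma convex_box : Convex ℝ (box n) := by
  intro A hA B hB a b ha hb hab
  constructor
  · have := (PosSemidef.smul hA.1 ha).add (PosSemidef.smul hB.1 hb)
    convert this using 1
    have h1 : (1 : Matrix (Fin n) (Fin n) ℂ) = (a + b) • (1 : Matrix (Fin n) (Fin n) ℂ) := by
      rw [hab, one_smul]
    conv_lhs => rw [h1]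
    module
  · have := (PosSemidef.smul hA.2 ha).add (PosSemidef.smul hB.2 hb)
    convert this using 1
    have h1 : ((4 : ℝ) : ℂ) • (1 : Matrix (Fin n) (Fin n) ℂ) =
        (a + b) • (((4 : ℝ) : ℂ) • (1 : Matrix (Fin n) (Fin n) ℂ)) := by
      rw [hab, one_smul]
    conv_lhs => rw [h1]
    generalize ((4 : ℝ) : ℂ) • (1 : Matrix (Fin n) (Fin n) ℂ) = X
    module

lemma isCompact_box : IsCompact (box n) := by
  have hc : IsCompact {H : Matrix (Fin n) (Fin n) ℂ | ∀ i j, H i j ∈ Metric.closedBall (0 : ℂ) 4} :=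
    isCompact_pi_infinite fun _ => isCompact_pi_infinite fun _ => isCompact_closedBall _ _
  refine hc.of_isClosed_subset isClosed_box fun H hH i j => ?_
  have hpsd : H.PosSemidef := by
    simpa using hH.1.add PosSemidef.one
  have hd : ∀ k, (H k k).re ≤ 4 := by
    intro k
    have := (Complex.le_def.1 (hH.2.diag_nonneg (i := k))).1
    simpa using this
  rw [mem_closedBall_zero_iff]
  linarith [norm_entry_le hpsd i j, hd i, hd j]

lemma psd_real_smul_one {t : ℝ} (ht : 0 ≤ t) :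
    ((t : ℂ) • (1 : Matrix (Fin n) (Fin n) ℂ)).PosSemidef :=
  PosSemidef.smul PosSemidef.one (by exact_mod_cast ht)

lemma one_le_of_feasible (hn : 1 ≤ n) {T H : Matrix (Fin n) (Fin n) ℂ} {τ : ℝ}
    (h : MetricFeasible T H τ) : 1 ≤ τ := by
  have h1 := (Complex.le_def.1 (h.1.diag_nonneg (i := ⟨0, hn⟩))).1
  have h2 := (Complex.le_def.1 (h.2.1.diag_nonneg (i := ⟨0, hn⟩))).1
  simp at h1 h2
  linarith

/-- The optimum is attained as soon as `τ = 4` is feasible. -/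
theorem exists_optimal (hn : 1 ≤ n) {T H₀ : Matrix (Fin n) (Fin n) ℂ}
    (h₀ : MetricFeasible T H₀ 4) :
    ∃ (H : Matrix (Fin n) (Fin n) ℂ) (κsq : ℝ), IsOptimalMetric T H κsq ∧ 1 ≤ κsq ∧ κsq ≤ 4 := by
  set S : Set (Matrix (Fin n) (Fin n) ℂ × ℝ) :=
    (box n ×ˢ Set.Icc (1 : ℝ) 4) ∩ {q | MetricFeasible T q.1 q.2} with hS
  have hcl : IsClosed {q : Matrix (Fin n) (Fin n) ℂ × ℝ | MetricFeasible T q.1 q.2} := by
    refine (isClosed_psd.preimage (f := fun q : Matrix (Fin n) (Fin n) ℂ × ℝ => q.1 - 1)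
      (by fun_prop)).inter ((isClosed_psd.preimage (f := fun q : Matrix (Fin n) (Fin n) ℂ × ℝ =>
        (q.2 : ℂ) • (1 : Matrix (Fin n) (Fin n) ℂ) - q.1) (by fun_prop)).inter
      (isClosed_psd.preimage (f := fun q : Matrix (Fin n) (Fin n) ℂ × ℝ =>
        q.1 - Tᴴ * q.1 * T) (by fun_prop)))
  have hc : IsCompact S := (isCompact_box.prod isCompact_Icc).inter_right hcl
  have hmem : ∀ H τ, MetricFeasible T H τ → τ ≤ 4 → (H, τ) ∈ S := by
    intro H τ h hτ
    refine ⟨⟨⟨h.1, ?_⟩, one_le_of_feasible hn h, hτ⟩, h⟩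
    have := (psd_real_smul_one (n := n) (sub_nonneg.2 hτ)).add h.2.1
    convert this using 1
    push_cast
    module
  obtain ⟨q, hq, hmin⟩ := hc.exists_isMinOn ⟨_, hmem H₀ 4 h₀ le_rfl⟩ continuous_snd.continuousOn
  refine ⟨q.1, q.2, ⟨hq.2, fun H' τ' h' => ?_⟩, hq.1.2.1, hq.1.2.2⟩
  by_cases hτ : τ' ≤ 4
  · exact hmin (hmem H' τ' h' hτ)
  · linarith [hq.1.2.2]

lemma star_dot_self (x : Fin n → ℂ) :
    star x ⬝ᵥ x = ((‖(WithLp.toLp 2 x : EuclideanSpace ℂ (Fin n))‖ ^ 2 : ℝ) : ℂ) := by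
  rw [EuclideanSpace.norm_sq_eq]
  simp only [dotProduct, Pi.star_apply, Complex.ofReal_sum]
  refine Finset.sum_congr rfl fun i _ => ?_
  rw [Complex.star_def, Complex.conj_mul']
  simp

open scoped Matrix.Norms.L2Operator in
lemma posDef_of_norm_lt (M : Matrix (Fin n) (Fin n) ℂ) {r : ℝ} (hr : ‖M‖ ^ 2 < r) :
    ((r : ℂ) • (1 : Matrix (Fin n) (Fin n) ℂ) - Mᴴ * M).PosDef := by
  have hr0 : 0 ≤ r := le_trans (sq_nonneg _) hr.le
  refine PosDef.of_dotProduct_mulVec_pos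
    ((psd_real_smul_one hr0).isHermitian.sub (isHermitian_conjTranspose_mul_self M)) fun x hx => ?_
  have h1 := l2_opNorm_mulVec M (WithLp.toLp 2 x)
  have h2 : star x ⬝ᵥ ((r : ℂ) • (1 : Matrix (Fin n) (Fin n) ℂ) - Mᴴ * M) *ᵥ x =
      (r : ℂ) * (star x ⬝ᵥ x) - star (M *ᵥ x) ⬝ᵥ (M *ᵥ x) := by
    rw [sub_mulVec, dotProduct_sub, smul_mulVec, one_mulVec, dotProduct_smul, smul_eq_mul,
      ← mulVec_mulVec, dotProduct_mulVec (star x) Mᴴ, star_mulVec]
  rw [h2, star_dot_self, star_dot_self]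
  have hx' : 0 < ‖(WithLp.toLp 2 x : EuclideanSpace ℂ (Fin n))‖ := by
    rw [norm_pos_iff]
    intro h
    exact hx (by simpa using h)
  have h3 : ‖(WithLp.toLp 2 (M *ᵥ x) : EuclideanSpace ℂ (Fin n))‖ ≤
      ‖M‖ * ‖(WithLp.toLp 2 x : EuclideanSpace ℂ (Fin n))‖ := h1
  have h4 : ‖(WithLp.toLp 2 (M *ᵥ x) : EuclideanSpace ℂ (Fin n))‖ ^ 2 <
      r * ‖(WithLp.toLp 2 x : EuclideanSpace ℂ (Fin n))‖ ^ 2 := by
    calc _ ≤ (‖M‖ * ‖(WithLp.toLp 2 x : EuclideanSpace ℂ (Fin n))‖) ^ 2 := by gcongr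
      _ = ‖M‖ ^ 2 * ‖(WithLp.toLp 2 x : EuclideanSpace ℂ (Fin n))‖ ^ 2 := by ring
      _ < _ := by gcongr
  have h5 := sub_pos.2 h4
  exact_mod_cast h5

open scoped Matrix.Norms.L2Operator in
lemma exists_pow_norm_lt (hn : 1 ≤ n) {T : Matrix (Fin n) (Fin n) ℂ}
    (hT : spectrum ℂ T ⊆ Metric.ball 0 1) : ∃ N : ℕ, 1 ≤ N ∧ ‖T ^ N‖ < 1 := by
  have : Nonempty (Fin n) := ⟨⟨0, hn⟩⟩
  have h1 : spectralRadius ℂ T < (1 : NNReal) :=
    spectrum.spectralRadius_lt_of_forall_lt T fun z hz => by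
      have := hT hz
      rw [mem_ball_zero_iff] at this
      exact_mod_cast this
  have h2 := (spectrum.pow_nnnorm_pow_one_div_tendsto_nhds_spectralRadius T).eventually
    (gt_mem_nhds h1)
  obtain ⟨N, hN, hN1⟩ := (h2.and (eventually_ge_atTop 1)).exists
  refine ⟨N, hN1, ?_⟩
  by_contra hc
  have h3 : (1 : ENNReal) ≤ (‖T ^ N‖₊ : ENNReal) := by
    have : (1 : NNReal) ≤ ‖T ^ N‖₊ := by exact_mod_cast not_lt.1 hc
    exact_mod_cast this
  have h4 := ENNReal.one_le_rpow h3 (show (0 : ℝ) < 1 / (N : ℝ) by positivity)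
  exact absurd hN (by simpa using h4)

open scoped Matrix.Norms.L2Operator in
theorem exists_strictlyFeasible (hn : 1 ≤ n) {T : Matrix (Fin n) (Fin n) ℂ}
    (hT : spectrum ℂ T ⊆ Metric.ball 0 1) :
    ∃ (H : Matrix (Fin n) (Fin n) ℂ) (τ : ℝ), MetricStrictlyFeasible T H τ := by
  obtain ⟨N, hN1, hN⟩ := exists_pow_norm_lt hn hT
  obtain ⟨K, rfl⟩ : ∃ K, N = K + 1 := ⟨N - 1, by omega⟩
  set H₀ : Matrix (Fin n) (Fin n) ℂ := ∑ k ∈ Finset.range (K + 1), (T ^ k)ᴴ * T ^ k with hH₀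
  have h1 : H₀ - Tᴴ * H₀ * T = 1 - (T ^ (K + 1))ᴴ * T ^ (K + 1) := by
    have : Tᴴ * H₀ * T = ∑ k ∈ Finset.range (K + 1), (T ^ (k + 1))ᴴ * T ^ (k + 1) := by
      rw [hH₀, Finset.mul_sum, Finset.sum_mul]
      refine Finset.sum_congr rfl fun k _ => ?_
      rw [pow_succ, conjTranspose_mul]
      simp only [mul_assoc]
    rw [this, hH₀, Finset.sum_range_succ' _ K, Finset.sum_range_succ]
    simp
  have h2 : (1 - (T ^ (K + 1))ᴴ * T ^ (K + 1)).PosDef := by
    have := posDef_of_norm_lt (T ^ (K + 1)) (r := 1) (by nlinarith [norm_nonneg (T ^ (K + 1))])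
    simpa using this
  have h3 : (H₀ - 1).PosSemidef := by
    rw [hH₀, Finset.sum_range_succ' _ K]
    simp only [pow_zero, conjTranspose_one, mul_one, add_sub_cancel_right]
    exact posSemidef_sum _ fun k _ => posSemidef_conjTranspose_mul_self _
  have h4 : (H₀ + H₀).PosSemidef := by
    have := h3.add PosSemidef.one
    rw [sub_add_cancel] at this
    exact this.add this
  obtain ⟨B, hB⟩ := exists_eq_mul_conjTranspose h4
  refine ⟨H₀ + H₀, ‖Bᴴ‖ ^ 2 + 1, ?_, ?_, ?_⟩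
  · have := (PosDef.one.add_posSemidef h3).add_posSemidef h3
    convert this using 1
    abel
  · have := posDef_of_norm_lt Bᴴ (r := ‖Bᴴ‖ ^ 2 + 1) (by linarith)
    rwa [conjTranspose_conjTranspose, ← hB] at this
  · have := h2.add h2
    rw [← h1] at this
    convert this using 1
    noncomm_ring

end Crest.Agent.R132.SDP
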