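import Mathlib
import Crest.Agent.R132.FC

/-!
Transfer functions of a contractive colligation and the complete Crouzeix bound.
-/

set_option autoImplicit false

open Matrix Filter Topology Polynomial
open scoped ComplexOrder

namespace Crest.Agent.R132.SDP

open Crest.AnalysisR.NumRange

section Colligation

variable {ι κ : Type} [Fintype ι] [Fintype κ] [DecidableEq κ]

/-- the block matrix `[[a, b], [c, d]]` is a contraction. -/
def Contr (a : Matrix ι ι ℂ) (b : Matrix ι κ ℂ) (c : Matrix κ ι ℂ) (d : Matrix κ κ ℂ) : Prop :=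
  ∀ (e : ι → ℂ) (η : κ → ℂ), ∑ i, ‖(a *ᵥ e + b *ᵥ η) i‖ ^ 2 + ∑ k, ‖(c *ᵥ e + d *ᵥ η) k‖ ^ 2 ≤
    ∑ i, ‖e i‖ ^ 2 + ∑ k, ‖η k‖ ^ 2

variable {a : Matrix ι ι ℂ} {b : Matrix ι κ ℂ} {c : Matrix κ ι ℂ} {d : Matrix κ κ ℂ}

omit [DecidableEq κ] in
lemma Contr.key (h : Contr a b c d) {w : ℂ} (e : ι → ℂ) (η : κ → ℂ)
    (hη : η = c *ᵥ e + w • d *ᵥ η) :
    ∑ i, ‖(a *ᵥ e + w • b *ᵥ η) i‖ ^ 2 + (1 - ‖w‖ ^ 2) * ∑ k, ‖η k‖ ^ 2 ≤ ∑ i, ‖e i‖ ^ 2 := by
  have h1 := h e (w • η)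
  rw [mulVec_smul, mulVec_smul, ← hη] at h1
  have h2 : ∑ k, ‖(w • η) k‖ ^ 2 = ‖w‖ ^ 2 * ∑ k, ‖η k‖ ^ 2 := by
    rw [Finset.mul_sum]
    exact Finset.sum_congr rfl fun k _ => by rw [Pi.smul_apply, norm_smul, mul_pow]
  rw [h2] at h1
  linarith

lemma Contr.isUnit (h : Contr a b c d) {w : ℂ} (hw : ‖w‖ < 1) : IsUnit (1 - w • d) := by
  rw [← mulVec_injective_iff_isUnit]
  have hz : ∀ η : κ → ℂ, (1 - w • d) *ᵥ η = 0 → η = 0 := by
    intro η hη
    have h1 := h.key (w := w) 0 η (by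
      rw [sub_mulVec, one_mulVec, smul_mulVec, sub_eq_zero] at hη
      rw [mulVec_zero, zero_add]; exact hη)
    have h2 : 0 < 1 - ‖w‖ ^ 2 := by nlinarith [norm_nonneg w]
    have h3 : 0 ≤ ∑ i, ‖(a *ᵥ 0 + w • b *ᵥ η) i‖ ^ 2 := by positivity
    have h4 : 0 ≤ ∑ k, ‖η k‖ ^ 2 := by positivity
    have h5 : ∑ k, ‖η k‖ ^ 2 = 0 := by
      simp only [Pi.zero_apply, norm_zero, ne_eq, OfNat.ofNat_ne_zero, not_false_eq_true,
        zero_pow, Finset.sum_const_zero] at h1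
      nlinarith
    rw [Finset.sum_eq_zero_iff_of_nonneg fun k _ => by positivity] at h5
    funext k
    simpa using h5 k (Finset.mem_univ k)
  intro u v huv
  have := hz (u - v) (by rw [mulVec_sub, huv, sub_self])
  exact sub_eq_zero.1 this

/-- the transfer function is contractive on the disc. -/
lemma Contr.transfer (h : Contr a b c d) {w : ℂ} (hw : ‖w‖ < 1) (e : ι → ℂ) :
    ∑ i, ‖((a + w • (b * (1 - w • d)⁻¹ * c)) *ᵥ e) i‖ ^ 2 ≤ ∑ i, ‖e i‖ ^ 2 := by
  have hu := (isUnit_iff_isUnit_det _).1 (h.isUnit hw)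
  set η := ((1 - w • d)⁻¹ * c) *ᵥ e with hη
  have h0 : (1 - w • d) *ᵥ η = c *ᵥ e := by
    rw [hη, mulVec_mulVec, ← Matrix.mul_assoc, mul_nonsing_inv _ hu, Matrix.one_mul]
  have h1 := h.key (w := w) e η (by
    rw [sub_mulVec, one_mulVec, smul_mulVec] at h0
    rw [← h0]; abel)
  have h2 : 0 ≤ 1 - ‖w‖ ^ 2 := by nlinarith [norm_nonneg w]
  have h4 : 0 ≤ ∑ k, ‖η k‖ ^ 2 := by positivity
  have h5 : (a + w • (b * (1 - w • d)⁻¹ * c)) *ᵥ e = a *ᵥ e + w • b *ᵥ η := by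
    rw [add_mulVec, smul_mulVec, hη, mulVec_mulVec, Matrix.mul_assoc]
  rw [h5]
  nlinarith [mul_nonneg h2 h4]

open scoped Matrix.Norms.Operator in
lemma Contr.differentiableOn (h : Contr a b c d) {Ω : Set ℂ} {f : ℂ → ℂ}
    (hf : DifferentiableOn ℂ f Ω) (hf' : Set.MapsTo f Ω (Metric.ball 0 1)) (k l : κ) :
    DifferentiableOn ℂ (fun z => (1 - f z • d)⁻¹ k l) Ω := by
  have h1 : DifferentiableOn ℂ (fun z => Ring.inverse (1 - f z • d)) Ω :=
    DifferentiableOn.inverse (by fun_prop) fun z hz =>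
      h.isUnit (mem_ball_zero_iff.1 (hf' hz))
  have h2 := (LinearMap.toContinuousLinearMap (Matrix.entryLinearMap ℂ ℂ k l)).differentiable
    |>.comp_differentiableOn h1
  refine h2.congr fun z _ => ?_
  simp [nonsing_inv_eq_ringInverse]

/-- The complete bound applied to the transfer function of a contractive colligation. -/
theorem core_transfer {n : ℕ} {A T : Matrix (Fin n) (Fin n) ℂ} {Ω : Set ℂ} (hΩ : IsOpen Ω)
    (hr : ∀ μ, A.charpoly.IsRoot μ → μ ∈ Ω) {f : ℂ → ℂ} (hT : FC A.charpoly A Ω f T)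
    (hf' : Set.MapsTo f Ω (Metric.ball 0 1)) (core : CoreBound A Ω) (h : Contr a b c d)
    (x y : ι → Fin n → ℂ) (ξ : κ → Fin n → ℂ)
    (hx : ∀ i, x i = ∑ j, a i j • y j + ∑ k, b i k • T *ᵥ ξ k)
    (hξ : ∀ k, ξ k = ∑ j, c k j • y j + ∑ l, d k l • T *ᵥ ξ l) :
    ∑ i, ∑ s, ‖x i s‖ ^ 2 ≤ 4 * ∑ j, ∑ s, ‖y j s‖ ^ 2 := by
  have hf := hT.differentiableOn
  have hχ := A.charpoly_monic
  have hA0 : aeval A A.charpoly = 0 := A.aeval_self_charpoly
  choose N hN using fun k l => FC.exists A hΩ hχ hr (h.differentiableOn hf hf' k l)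
  -- the resolvent identity at the level of the functional calculus
  have hres : ∀ k l, N k l - ∑ m, d m l • (N k m * T) = if k = l then 1 else 0 := by
    intro k l
    have h1 : FC A.charpoly A Ω
        (fun z => (1 - f z • d)⁻¹ k l - ∑ m, d m l * ((1 - f z • d)⁻¹ k m * f z))
        (N k l - ∑ m, d m l • (N k m * T)) :=
      (hN k l).sub (FC.sum _ fun m _ => ((hN k m).mul hT).smul (d m l))
    have h2 : FC A.charpoly A Ω (fun _ => if k = l then (1 : ℂ) else 0)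
        (if k = l then (1 : Matrix (Fin n) (Fin n) ℂ) else 0) := by
      split_ifs
      · exact FC.one
      · exact FC.zero
    refine FC.unique hΩ hχ hr hA0 h1 (h2.congr fun z hz => ?_)
    have hu := (isUnit_iff_isUnit_det _).1 (h.isUnit (mem_ball_zero_iff.1 (hf' hz)))
    have h3 := congrFun (congrFun (nonsing_inv_mul _ hu) k) l
    rw [Matrix.mul_sub, Matrix.mul_one, Matrix.sub_apply, Matrix.mul_apply, one_apply] at h3
    rw [← h3]
    congr 1
    refine Finset.sum_congr rfl fun m _ => ?_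
    rw [Matrix.smul_apply, smul_eq_mul]; ring
  have hξ' : ∀ k, ∑ m, N k m *ᵥ (∑ j, c m j • y j) = ξ k := by
    intro k
    have h1 : ∀ m, ∑ j, c m j • y j = ξ m - ∑ l, d m l • T *ᵥ ξ l := fun m => by
      rw [eq_sub_iff_add_eq]; exact (hξ m).symm
    have h2 : ∑ l, (N k l - ∑ m, d m l • (N k m * T)) *ᵥ ξ l = ξ k := by
      simp only [hres]
      rw [Finset.sum_eq_single k]
      · simp
      · intro l _ hl
        simp [Ne.symm hl]
      · simp
    rw [← h2]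
    simp only [h1, mulVec_sub, sub_mulVec, Finset.sum_sub_distrib, mulVec_sum, sum_mulVec,
      mulVec_smul, smul_mulVec, mulVec_mulVec]
    congr 1
    exact Finset.sum_comm
  set F : ι → ι → ℂ → ℂ := fun i j z => (a + f z • (b * (1 - f z • d)⁻¹ * c)) i j with hF
  set G : ι → ι → Matrix (Fin n) (Fin n) ℂ := fun i j =>
    a i j • (1 : Matrix (Fin n) (Fin n) ℂ) + ∑ m, ∑ k, (b i k * c m j) • (T * N k m) with hG
  have hFG : ∀ i j, FC A.charpoly A Ω (F i j) (G i j) := by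
    intro i j
    refine ((FC.one.smul (a i j)).add (FC.sum _ fun m _ => FC.sum _ fun k _ =>
      (hT.mul (hN k m)).smul (b i k * c m j))).congr fun z _ => ?_
    simp only [hF, Matrix.add_apply, Matrix.smul_apply, smul_eq_mul, Matrix.mul_apply, mul_one,
      Finset.mul_sum, Finset.sum_mul]
    congr 1
    refine Finset.sum_congr rfl fun m _ => Finset.sum_congr rfl fun k _ => ?_
    ring
  have hb := core ι F G hFG (fun z hz e => h.transfer (mem_ball_zero_iff.1 (hf' hz)) e) y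
  have hGy : ∀ i, ∑ j, (G i j).mulVec (y j) = x i := by
    intro i
    rw [hx i]
    simp only [hG, add_mulVec, smul_mulVec, one_mulVec, Finset.sum_add_distrib, sum_mulVec]
    congr 1
    simp only [← hξ', mulVec_sum, mulVec_smul, mulVec_mulVec, Finset.smul_sum, smul_smul]
    rw [Finset.sum_comm]
    conv_rhs => rw [Finset.sum_comm]
    refine Finset.sum_congr rfl fun m _ => ?_
    exact Finset.sum_comm
  simpa only [hGy] using hb

end Colligation

lemma star_dot_self' {σ : Type} [Fintype σ] (x : σ → ℂ) :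
    star x ⬝ᵥ x = ((∑ s, ‖x s‖ ^ 2 : ℝ) : ℂ) := by
  simp only [dotProduct, Pi.star_apply, Complex.ofReal_sum]
  refine Finset.sum_congr rfl fun i _ => ?_
  rw [Complex.star_def, Complex.conj_mul']
  simp

/-- lurking contraction. -/
theorem exists_contraction {n : ℕ} {σ : Type} [Fintype σ] [DecidableEq σ]
    (L R : Matrix (Fin n) σ ℂ) (hLR : L * Lᴴ = R * Rᴴ) (hu : IsUnit (R * Rᴴ)) :
    ∃ V : Matrix σ σ ℂ, (∀ u : σ → ℂ, ∑ s, ‖(V *ᵥ u) s‖ ^ 2 ≤ ∑ s, ‖u s‖ ^ 2) ∧ Lᵀ = V * Rᵀ := by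
  set G := R * Rᴴ with hG
  have hud := (isUnit_iff_isUnit_det _).1 hu
  have hGh : Gᴴ = G := isHermitian_mul_conjTranspose_self R
  have hGi : G⁻¹ᴴ = G⁻¹ := by rw [conjTranspose_nonsing_inv, hGh]
  set W := Rᴴ * G⁻¹ * L with hW
  set P := Rᴴ * G⁻¹ * R with hP
  have hWW : W * Wᴴ = P := by
    rw [hW, hP, conjTranspose_mul, conjTranspose_mul, conjTranspose_conjTranspose, hGi]
    calc Rᴴ * G⁻¹ * L * (Lᴴ * (G⁻¹ * R)) = Rᴴ * G⁻¹ * ((L * Lᴴ) * G⁻¹) * R := by
          simp only [Matrix.mul_assoc]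
      _ = _ := by rw [hLR, mul_nonsing_inv _ hud, Matrix.mul_one]
  have hPP : P * P = P := by
    calc P * P = Rᴴ * G⁻¹ * ((R * Rᴴ) * G⁻¹) * R := by simp only [hP, Matrix.mul_assoc]
      _ = _ := by rw [← hG, mul_nonsing_inv _ hud, Matrix.mul_one]
  have hPh : Pᴴ = P := by
    rw [← hWW]; exact isHermitian_mul_conjTranspose_self W
  have hpsd : (1 - P).PosSemidef := by
    have := posSemidef_conjTranspose_mul_self (1 - P)
    rwa [conjTranspose_sub, conjTranspose_one, hPh, sub_mul, mul_sub, mul_sub, hPP, one_mul,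
      mul_one, one_mul, sub_self, sub_zero] at this
  refine ⟨Wᵀ, fun u => ?_, ?_⟩
  · have h1 := hpsd.transpose.dotProduct_mulVec_nonneg u
    have h2 : (1 - P)ᵀ = 1 - (Wᵀ)ᴴ * Wᵀ := by
      rw [← hWW, transpose_sub, transpose_one, transpose_mul]
      rfl
    rw [h2, sub_mulVec, dotProduct_sub, one_mulVec, ← mulVec_mulVec,
      dotProduct_mulVec (star u) (Wᵀ)ᴴ, ← star_mulVec, star_dot_self', star_dot_self',
      ← Complex.ofReal_sub] at h1
    exact sub_nonneg.1 (by exact_mod_cast h1)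
  · rw [← transpose_mul, hW, ← Matrix.mul_assoc, ← Matrix.mul_assoc, ← hG,
      mul_nonsing_inv _ hud, Matrix.one_mul]

/-- The dual inequality: `X + Z = Y + T Z Tᴴ` forces `tr X ≤ 4 tr Y`. -/
theorem dual_bound {n : ℕ} {A T : Matrix (Fin n) (Fin n) ℂ} {Ω : Set ℂ} (hΩ : IsOpen Ω)
    (hr : ∀ μ, A.charpoly.IsRoot μ → μ ∈ Ω) {f : ℂ → ℂ} (hT : FC A.charpoly A Ω f T)
    (hf' : Set.MapsTo f Ω (Metric.ball 0 1)) (core : CoreBound A Ω)
    (x y ξ : Matrix (Fin n) (Fin n) ℂ)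
    (hid : x * xᴴ + ξ * ξᴴ = y * yᴴ + (T * ξ) * (T * ξ)ᴴ) (hy : (y * yᴴ).PosDef) :
    ∑ i, ∑ s, ‖x s i‖ ^ 2 ≤ 4 * ∑ j, ∑ s, ‖y s j‖ ^ 2 := by
  obtain ⟨V, hV, hLV⟩ := exists_contraction (fromCols x ξ) (fromCols y (T * ξ))
    (by rw [conjTranspose_fromCols_eq_fromRows_conjTranspose,
          conjTranspose_fromCols_eq_fromRows_conjTranspose, fromCols_mul_fromRows,
          fromCols_mul_fromRows, hid])
    (by rw [conjTranspose_fromCols_eq_fromRows_conjTranspose, fromCols_mul_fromRows]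
        exact (hy.add_posSemidef (posSemidef_self_mul_conjTranspose _)).isUnit)
  have hc : Contr V.toBlocks₁₁ V.toBlocks₁₂ V.toBlocks₂₁ V.toBlocks₂₂ := by
    intro e η
    have := hV (Sum.elim e η)
    rw [← fromBlocks_toBlocks V, fromBlocks_mulVec] at this
    simpa [Fintype.sum_sum_type] using this
  refine core_transfer hΩ hr hT hf' core hc (fun i s => x s i) (fun j s => y s j)
    (fun k s => ξ s k) (fun i => ?_) (fun k => ?_)
  · funext s
    have := congrFun (congrFun hLV (Sum.inl i)) s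
    simpa [Matrix.mul_apply, Fintype.sum_sum_type, toBlocks₁₁, toBlocks₁₂, mulVec, dotProduct]
      using this
  · funext s
    have := congrFun (congrFun hLV (Sum.inr k)) s
    simpa [Matrix.mul_apply, Fintype.sum_sum_type, toBlocks₂₁, toBlocks₂₂, mulVec, dotProduct]
      using this

end Crest.Agent.R132.SDP
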