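import Mathlib
import Crest.Agent.R132.SDP1
import Crest.Agent.R132.SDP2

/-!
SDP duality: the complete Crouzeix bound gives a metric `1 ≤ H ≤ 4` making `f(A)` a contraction.
-/

set_option autoImplicit false

open Matrix Filter Topology Polynomial
open scoped ComplexOrder

namespace Crest.Agent.R132.SDP

open Crest.AnalysisR.NumRange

variable {n : ℕ}

/-- `U diag(g) Uᴴ`. -/
noncomputable def cj (U : Matrix (Fin n) (Fin n) ℂ) (g : Fin n → ℝ) : Matrix (Fin n) (Fin n) ℂ :=
  U * diagonal (fun i => (g i : ℂ)) * Uᴴ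

variable {U : Matrix (Fin n) (Fin n) ℂ}

lemma cj_mul (hU : Uᴴ * U = 1) (g h : Fin n → ℝ) : cj U g * cj U h = cj U (fun i => g i * h i) := by
  calc cj U g * cj U h = U * (diagonal (fun i => (g i : ℂ)) * (Uᴴ * U) *
        diagonal (fun i => (h i : ℂ))) * Uᴴ := by simp only [cj, Matrix.mul_assoc]
    _ = _ := by
      rw [hU, Matrix.mul_one, diagonal_mul_diagonal]
      simp [cj]

lemma cj_sub (g h : Fin n → ℝ) : cj U g - cj U h = cj U (fun i => g i - h i) := by
  simp only [cj, ← Matrix.sub_mul, ← Matrix.mul_sub, diagonal_sub, Complex.ofReal_sub]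

lemma cj_const (hU : U * Uᴴ = 1) (t : ℝ) :
    cj U (fun _ => t) = (t : ℂ) • (1 : Matrix (Fin n) (Fin n) ℂ) := by
  have : diagonal (fun _ : Fin n => (t : ℂ)) = (t : ℂ) • (1 : Matrix (Fin n) (Fin n) ℂ) := by
    rw [smul_one_eq_diagonal]
  rw [cj, this, Matrix.mul_smul, Matrix.mul_one, Matrix.smul_mul, hU]

lemma trace_cj (hU : Uᴴ * U = 1) (g : Fin n → ℝ) : (cj U g).trace = ((∑ i, g i : ℝ) : ℂ) := by
  rw [cj, trace_mul_cycle, hU, Matrix.one_mul, trace_diagonal, Complex.ofReal_sum]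

lemma cj_psd {g : Fin n → ℝ} (hg : ∀ i, 0 ≤ g i) : (cj U g).PosSemidef :=
  (PosSemidef.diagonal fun i => by simpa using hg i).mul_mul_conjTranspose_same U

lemma cj_sqrt {g : Fin n → ℝ} (hg : ∀ i, 0 ≤ g i) :
    (U * diagonal (fun i => ((√(g i) : ℝ) : ℂ))) * (U * diagonal (fun i => ((√(g i) : ℝ) : ℂ)))ᴴ =
      cj U g := by
  rw [conjTranspose_mul, diagonal_conjTranspose, cj, Matrix.mul_assoc, Matrix.mul_assoc,
    ← Matrix.mul_assoc (diagonal _) (diagonal _), diagonal_mul_diagonal]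
  congr 3
  funext i
  simp only [Pi.star_apply, Complex.star_def, Complex.conj_ofReal]
  rw [← Complex.ofReal_mul, Real.mul_self_sqrt (hg i)]

lemma sum_sq_eq_trace (x : Matrix (Fin n) (Fin n) ℂ) :
    ∑ i, ∑ s, ‖x s i‖ ^ 2 = ((x * xᴴ).trace).re := by
  rw [Finset.sum_comm, trace, Complex.re_sum]
  exact Finset.sum_congr rfl fun s _ => (re_diag_mul_conjTranspose x s).symm

/-- a real-part-nonnegative functional on the PSD cone is represented by a PSD matrix. -/
lemma exists_psd_rep (φ : Matrix (Fin n) (Fin n) ℂ →ₗ[ℂ] ℂ)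
    (hφ : ∀ P : Matrix (Fin n) (Fin n) ℂ, P.PosSemidef → 0 ≤ (φ P).re) :
    ∃ Z : Matrix (Fin n) (Fin n) ℂ, Z.PosSemidef ∧
      ∀ M : Matrix (Fin n) (Fin n) ℂ, M.IsHermitian → (φ M).re = ((Z * M).trace).re := by
  set Z₀ : Matrix (Fin n) (Fin n) ℂ := Matrix.of fun i j => φ (single j i 1) with hZ₀
  have h0 : ∀ M, φ M = (Z₀ * M).trace := by
    intro M
    conv_lhs => rw [matrix_eq_sum_single M]
    simp only [map_sum, trace, diag_apply, Matrix.mul_apply, hZ₀, of_apply]
    rw [Finset.sum_comm]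
    refine Finset.sum_congr rfl fun j _ => Finset.sum_congr rfl fun i _ => ?_
    rw [mul_comm, ← smul_eq_mul, ← map_smul, smul_single, smul_eq_mul, mul_one]
  set Z : Matrix (Fin n) (Fin n) ℂ := (1 / 2 : ℂ) • (Z₀ + Z₀ᴴ) with hZ
  have hZh : Z.IsHermitian := by
    rw [hZ, IsHermitian, conjTranspose_smul, conjTranspose_add, conjTranspose_conjTranspose,
      add_comm]
    simp
  have h1 : ∀ M : Matrix (Fin n) (Fin n) ℂ, M.IsHermitian → (φ M).re = ((Z * M).trace).re := by
    intro M hM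
    have h2 : (Z₀ᴴ * M).trace = star (Z₀ * M).trace := by
      rw [← trace_conjTranspose, conjTranspose_mul, hM.eq, trace_mul_comm]
    rw [h0, hZ, Matrix.smul_mul, Matrix.add_mul, trace_smul, trace_add, h2]
    simp
    ring
  refine ⟨Z, PosSemidef.of_dotProduct_mulVec_nonneg hZh fun x => ?_, h1⟩
  have h2 : star x ⬝ᵥ Z *ᵥ x = (Z * vecMulVec x (star x)).trace := by
    rw [mul_vecMulVec, trace_vecMulVec, dotProduct_comm]
  have h3 := hφ _ (posSemidef_vecMulVec_self_star x)
  rw [h1 _ (posSemidef_vecMulVec_self_star x).isHermitian, ← h2] at h3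
  rw [Complex.le_def]
  refine ⟨by simpa using h3, ?_⟩
  have h4 := hZh.im_star_dotProduct_mulVec_self x
  simpa using h4.symm

/-- separation: if no metric in the box works there is a PSD dual certificate. -/
lemma exists_dual {T : Matrix (Fin n) (Fin n) ℂ} (hno : ¬ ∃ H, MetricFeasible T H 4) :
    ∃ Z : Matrix (Fin n) (Fin n) ℂ, Z.PosSemidef ∧
      ∀ H ∈ box n, ((H * (Z - T * Z * Tᴴ)).trace).re < 0 := by
  have : LocallyConvexSpace ℝ (Matrix (Fin n) (Fin n) ℂ) :=
    inferInstanceAs (LocallyConvexSpace ℝ (Fin n → Fin n → ℂ))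
  let L : Matrix (Fin n) (Fin n) ℂ →ₗ[ℝ] Matrix (Fin n) (Fin n) ℂ :=
    { toFun := fun H => H - Tᴴ * H * T
      map_add' := fun H H' => by noncomm_ring
      map_smul' := fun c H => by simp [smul_sub] }
  have hL : ∀ H, L H = H - Tᴴ * H * T := fun _ => rfl
  have hconv : Convex ℝ (L '' box n) := convex_box.linear_image L
  have hcomp : IsCompact (L '' box n) :=
    isCompact_box.image (show Continuous fun H : Matrix (Fin n) (Fin n) ℂ => H - Tᴴ * H * T by
      fun_prop)
  have hdisj : Disjoint (L '' box n) {M : Matrix (Fin n) (Fin n) ℂ | M.PosSemidef} := by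
    rw [Set.disjoint_left]
    rintro _ ⟨H, hH, rfl⟩ hP
    exact hno ⟨H, hH.1, hH.2, hP⟩
  obtain ⟨φ, u, v, h1, huv, h2⟩ := RCLike.geometric_hahn_banach_compact_closed (𝕜 := ℂ)
    hconv hcomp convex_psd isClosed_psd hdisj
  have hv : v < 0 := by simpa using h2 0 PosSemidef.zero
  have hpos : ∀ P : Matrix (Fin n) (Fin n) ℂ, P.PosSemidef → 0 ≤ (φ P).re := by
    intro P hP
    by_contra hneg
    have hneg : (φ P).re < 0 := not_le.1 hneg
    have ht : 0 ≤ v / (φ P).re := div_nonneg_of_nonpos hv.le hneg.le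
    have h3 := h2 (((v / (φ P).re : ℝ) : ℂ) • P) (PosSemidef.smul hP (by exact_mod_cast ht))
    rw [map_smul, smul_eq_mul, RCLike.re_to_complex, Complex.re_ofReal_mul,
      div_mul_cancel₀ _ hneg.ne] at h3
    exact lt_irrefl _ h3
  obtain ⟨Z, hZ, hrep⟩ := exists_psd_rep φ.toLinearMap hpos
  refine ⟨Z, hZ, fun H hH => ?_⟩
  have hHh : H.IsHermitian := by
    have := hH.1.add PosSemidef.one
    rw [sub_add_cancel] at this
    exact this.isHermitian
  have h3 := h1 _ ⟨H, hH, rfl⟩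
  have h4 := hrep (L H) (hHh.sub (isHermitian_conjTranspose_mul_mul T hHh))
  have h5 : (Z * L H).trace = (H * (Z - T * Z * Tᴴ)).trace := by
    rw [hL, Matrix.mul_sub, Matrix.mul_sub, trace_sub, trace_sub, trace_mul_comm Z H]
    congr 1
    calc (Z * (Tᴴ * H * T)).trace = ((Z * Tᴴ) * (H * T)).trace := by simp only [Matrix.mul_assoc]
      _ = ((H * T) * (Z * Tᴴ)).trace := trace_mul_comm _ _
      _ = _ := by simp only [Matrix.mul_assoc]
  rw [← h5, ← h4]
  change (φ (L H)).re < 0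
  rw [RCLike.re_to_complex] at h3
  linarith

theorem exists_feasible_four {A T : Matrix (Fin n) (Fin n) ℂ} {Ω : Set ℂ} (hΩ : IsOpen Ω)
    (hr : ∀ μ, A.charpoly.IsRoot μ → μ ∈ Ω) {f : ℂ → ℂ} (hT : FC A.charpoly A Ω f T)
    (hf' : Set.MapsTo f Ω (Metric.ball 0 1)) (core : CoreBound A Ω) :
    ∃ H, MetricFeasible T H 4 := by
  by_contra hno
  obtain ⟨Z, hZ, hneg⟩ := exists_dual hno
  have hΔ : (Z - T * Z * Tᴴ).IsHermitian :=
    hZ.isHermitian.sub (isHermitian_mul_mul_conjTranspose T hZ.isHermitian)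
  set U : Matrix (Fin n) (Fin n) ℂ := (hΔ.eigenvectorUnitary : Matrix (Fin n) (Fin n) ℂ) with hU
  set lam : Fin n → ℝ := hΔ.eigenvalues with hlam
  have hU1 : Uᴴ * U = 1 := Unitary.coe_star_mul_self hΔ.eigenvectorUnitary
  have hU2 : U * Uᴴ = 1 := Unitary.coe_mul_star_self hΔ.eigenvectorUnitary
  have hspec : Z - T * Z * Tᴴ = cj U lam := by
    conv_lhs => rw [hΔ.spectral_theorem, Unitary.conjStarAlgAut_apply]
    rfl
  set h : Fin n → ℝ := fun i => if 0 < lam i then 4 else 1 with hh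
  have hbox : cj U h ∈ box n := by
    constructor
    · have : (1 : Matrix (Fin n) (Fin n) ℂ) = cj U (fun _ => 1) := by rw [cj_const hU2]; simp
      rw [this, cj_sub]
      exact cj_psd fun i => by simp only [hh]; split_ifs <;> norm_num
    · rw [← cj_const hU2, cj_sub]
      exact cj_psd fun i => by simp only [hh]; split_ifs <;> norm_num
  have hS := hneg _ hbox
  rw [hspec, cj_mul hU1, trace_cj hU1, Complex.ofReal_re] at hS
  set S := ∑ i, h i * lam i with hSdef
  set ε : ℝ := -S / (3 * n + 1) with hε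
  have hεpos : 0 < ε := div_pos (by linarith) (by positivity)
  have hε' : ε * (3 * n + 1) = -S := div_mul_cancel₀ _ (by positivity)
  obtain ⟨ξ, hξ⟩ := exists_eq_mul_conjTranspose hZ
  set gx : Fin n → ℝ := fun i => max (-lam i) 0 + ε with hgx
  set gy : Fin n → ℝ := fun i => max (lam i) 0 + ε with hgy
  have hgx0 : ∀ i, 0 ≤ gx i := fun i => by positivity
  have hgy0 : ∀ i, 0 < gy i := fun i => by positivity
  have hx := cj_sqrt (U := U) hgx0
  have hy := cj_sqrt (U := U) fun i => (hgy0 i).le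
  have hb := dual_bound hΩ hr hT hf' core (U * diagonal (fun i => ((√(gx i) : ℝ) : ℂ)))
    (U * diagonal (fun i => ((√(gy i) : ℝ) : ℂ))) ξ (by
      rw [hx, hy, ← hξ]
      have h1 : T * ξ * (T * ξ)ᴴ = T * Z * Tᴴ := by
        rw [hξ, conjTranspose_mul]; simp only [Matrix.mul_assoc]
      have h2 : cj U gy - cj U gx = cj U lam := by
        rw [cj_sub]
        congr 1
        funext i
        simp only [hgx, hgy]
        rcases le_total (lam i) 0 with h | h
        · rw [max_eq_right h, max_eq_left (by linarith)]; ring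
        · rw [max_eq_left h, max_eq_right (by linarith)]; ring
      rw [h1, ← sub_eq_zero]
      rw [← hspec, ← sub_eq_zero] at h2
      rw [← neg_eq_zero, ← h2]
      abel) (by
      rw [hy]
      refine (PosDef.diagonal fun i => ?_).mul_mul_conjTranspose_same ?_
      · simpa using hgy0 i
      · exact vecMul_injective_of_isUnit (IsUnit.of_mul_eq_one _ hU2))
  rw [sum_sq_eq_trace, sum_sq_eq_trace, hx, hy, trace_cj hU1, trace_cj hU1, Complex.ofReal_re,
    Complex.ofReal_re] at hb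
  have h3 : 4 * ∑ i, gy i - ∑ i, gx i = S + 3 * n * ε := by
    have : ∀ i, 4 * gy i - gx i = h i * lam i + 3 * ε := by
      intro i
      simp only [hgx, hgy, hh]
      split_ifs with h0
      · rw [max_eq_left h0.le, max_eq_right (by linarith)]; ring
      · rw [max_eq_right (not_lt.1 h0), max_eq_left (by linarith [not_lt.1 h0])]; ring
    rw [Finset.mul_sum, ← Finset.sum_sub_distrib, Finset.sum_congr rfl fun i _ => this i,
      Finset.sum_add_distrib]
    simp only [Finset.sum_const, Finset.card_univ, Fintype.card_fin, nsmul_eq_mul]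
    ring
  nlinarith

/-- S0180 from the complete Crouzeix bound. -/
theorem s0180_of_core (n : ℕ) (hn : 1 ≤ n) (A : Matrix (Fin n) (Fin n) ℂ) (Ω : Set ℂ)
    (hΩ : IsOpen Ω) (f : ℂ → ℂ) (hf : DifferentiableOn ℂ f Ω)
    (hf' : Set.MapsTo f Ω (Metric.ball 0 1)) (hA : numRange A ⊆ Ω) (p : Polynomial ℂ)
    (hp : AgreesOnSpectrum A f p) (core : CoreBound A Ω) :
    (∃ (H : Matrix (Fin n) (Fin n) ℂ) (τ : ℝ), MetricStrictlyFeasible (Polynomial.aeval A p) H τ) ∧
    ∃ (H : Matrix (Fin n) (Fin n) ℂ) (κsq : ℝ),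
      IsOptimalMetric (Polynomial.aeval A p) H κsq ∧ 1 ≤ κsq ∧ κsq ≤ 4 := by
  have hr := isRoot_charpoly_mem hA
  have hT := FC.of_agrees hΩ hr hf hp
  refine ⟨exists_strictlyFeasible hn ?_, ?_⟩
  · exact (hT.spectrum_subset hΩ A.charpoly_monic hr A.aeval_self_charpoly).trans hf'.image_subset
  · obtain ⟨H, hH⟩ := exists_feasible_four hΩ hr hT hf' core
    exact exists_optimal hn hH

end Crest.Agent.R132.SDP
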